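import Claimed.Agent.R322.Sx.Path
import Claimed.Agent.R322.Pack033
import Claimed.Agent.R322.Sx.Bottom.Lim
import Claimed.Agent.R322.Pack039

/-!
# R322 / Sx / Bottom : vanishing contribution from the bottom (AE Lemma 5.1)

Formulation without weak limits.  Let `𝒞` be any set of centres of bottom contacts at the bottom scale
`σb`: `x ∈ B_1`, `h_{σb}(x) ≤ (L - C_Q Λ)_{σb}(x)` (AE (4.8)) and `τ_{σb}(x) ≤ d_*`.  Then
`h^*(𝒞) ≤ ε + C d_* d` as soon as `σb < σ1(ε)`, where `σ1` depends on the root data but NOT on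
`(h, 𝒞)`.

Proof (blueprint helper121; files `Sx/Bottom/*.lean`).  Balls and Tonelli replace the grid cubes of AE:
* `Cover.lean`  `cover_bound`: `h^*(𝒞) ≤ K_m ∫ g_σ dy`, `g_σ(y) = sup {(L'_σ(x))_+ : x ∈ 𝒞 ∩ B_σ(y)}`;
* `Lim.lean`    `botG σ y = sup {(L'_σ(x))_+ : x ∈ B_1 ∩ B_σ(y), τ_σ(x) ≤ d_*}` does not depend on `(h, 𝒞)`, is lower
  semicontinuous in `y`, `≤ 2 d_* 1_{B_2}`; so is `botGs σ1 = sup_{σ < σ1} botG σ`;
* `Diff*.lean`  Lebesgue differentiation of Gaussian averages with uniformly displaced centres (`gav_diff`);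
* `Conv.lean`   `L_σ, Λ_σ, τ_σ` are Gaussian averages of the finite measures `χν, χ vol_S, χD, χΛ, χτ`;
* `Push.lean`, `Ident.lean`, `Mult.lean`, `Dens.lean`: at a.e. point of `B_2` with `τ_ac ≤ d_*`: exactly `Q` fibre
  entries (`Valid.count`, `Valid.defic`), each of tilt `≤ 4 d_*`, and `Valid.Jpi_signed` summed with weight `1/J_π`
  gives `L'_ac ≤ 4 Cg d_* D_ac` once `C_Q ≥ Cg`;
* below: monotone convergence for the decreasing sequence `botGs (1/(j+1))` (instead of reverse Fatou).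
-/

set_option autoImplicit false

namespace Claimed.Agent.R322.Sx

open MeasureTheory Set Metric
open scoped ENNReal NNReal InnerProductSpace

/-- the integral of the majorant is eventually `< 4 Cg δ (χD)(E m) + ε`. -/
theorem BotHyp.botGs_lintegral {m n : ℕ} {S : Sys m n} {Q : ℕ} {χ : E m → ℝ} (H : BotHyp S Q χ)
    (CQ δ : ℝ) (hCQ : S.Cg ≤ CQ) (hδ0 : 0 ≤ δ) (hδ : (8 * S.Cg + 4) * δ ≤ 1) (ε : ℝ≥0∞)
    (hε : 0 < ε) :
    ∃ σ1 : ℝ, 0 < σ1 ∧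
      ∫⁻ y, S.botGs Q χ CQ δ σ1 y < ENNReal.ofReal (4 * S.Cg * δ) * S.DT χ univ + ε := by
  have hCg0 : 0 ≤ S.Cg := le_trans zero_le_one H.valid.one_le_Cg
  have hCQ0 : 0 ≤ CQ := le_trans hCg0 hCQ
  have hc : 0 ≤ 4 * S.Cg * δ := by positivity
  have hfinD := H.fin_DT
  set f : ℕ → E m → ℝ≥0∞ := fun j => S.botGs Q χ CQ δ (1 / ((j : ℝ) + 1)) with hf
  have hmeas : ∀ j, Measurable (f j) := fun j => S.botGs_measurable Q χ CQ δ _
  have hanti : Antitone f := by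
    intro i j hij y
    apply S.botGs_mono
    apply one_div_le_one_div_of_le (by positivity)
    have : (i : ℝ) ≤ j := by exact_mod_cast hij
    linarith
  have hfin : ∫⁻ y, f 0 y ≠ ∞ := by
    have h1 : ∫⁻ y, f 0 y
        ≤ ∫⁻ y, (ball (0 : E m) 2).indicator (fun _ => ENNReal.ofReal (2 * δ)) y :=
      lintegral_mono fun y => H.botGs_le hCQ0 δ (by simp) y
    rw [lintegral_indicator measurableSet_ball, setLIntegral_const] at h1
    exact ne_top_of_le_ne_top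
      (ENNReal.mul_ne_top ENNReal.ofReal_ne_top measure_ball_lt_top.ne) h1
  have hlim : ∀ᵐ y ∂(volume : Measure (E m)),
      ⨅ j, f j y ≤ ENNReal.ofReal (4 * S.Cg * δ) * (S.DT χ).rnDeriv volume y := by
    filter_upwards [H.botGs_lim CQ δ hCQ hδ, (S.DT χ).rnDeriv_lt_top volume] with y hy hy2
    have hD : ENNReal.ofReal (4 * S.Cg * δ) * (S.DT χ).rnDeriv volume y
        = ENNReal.ofReal (4 * S.Cg * δ * acD (S.DT χ) y) := by
      rw [ENNReal.ofReal_mul hc, acD, ENNReal.ofReal_toReal hy2.ne]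
    rw [hD]
    apply ENNReal.le_of_forall_pos_le_add
    intro e he _
    obtain ⟨σ0, hσ0, h0⟩ := hy e (by exact_mod_cast he)
    obtain ⟨j, hj⟩ := exists_nat_one_div_lt hσ0
    refine (iInf_le _ j).trans ((S.botGs_mono Q χ CQ δ hj.le y).trans (h0.trans ?_))
    have hac : 0 ≤ acD (S.DT χ) y := ENNReal.toReal_nonneg
    rw [ENNReal.ofReal_add (mul_nonneg hc hac) e.coe_nonneg, ENNReal.ofReal_coe_nnreal]
  have hint : ⨅ j, ∫⁻ y, f j y ≤ ENNReal.ofReal (4 * S.Cg * δ) * S.DT χ univ := by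
    rw [← lintegral_iInf hmeas hanti hfin]
    refine (lintegral_mono_ae hlim).trans ?_
    rw [lintegral_const_mul _ (Measure.measurable_rnDeriv _ _)]
    exact mul_le_mul_right Measure.lintegral_rnDeriv_le _
  have hlt : ⨅ j, ∫⁻ y, f j y < ENNReal.ofReal (4 * S.Cg * δ) * S.DT χ univ + ε :=
    lt_of_le_of_lt hint (ENNReal.lt_add_right
      (ENNReal.mul_ne_top ENNReal.ofReal_ne_top (measure_ne_top _ _)) hε.ne')
  obtain ⟨j, hj⟩ := iInf_lt_iff.1 hlt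
  exact ⟨1 / ((j : ℝ) + 1), by positivity, hj⟩

/-- `d_* → 0`. -/
theorem dstT_small (Q : ℕ) (c : ℝ) (hc : 0 < c) : ∃ T0 : ℝ, ∀ T : ℝ, T0 ≤ T → dstT Q T ≤ c := by
  have h1 : ∀ᶠ T in Filter.atTop, max 1 (-Real.log c) ≤ FQ Q T :=
    (FQ_tendsto Q).eventually_ge_atTop _
  obtain ⟨T0, hT0⟩ := Filter.eventually_atTop.1 h1
  refine ⟨T0, fun T hT => ?_⟩
  have h2 := hT0 T hT
  have h3 : 1 ≤ FQ Q T := le_trans (le_max_left _ _) h2
  have h4 : -Real.log c ≤ FQ Q T := le_trans (le_max_right _ _) h2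
  have h5 : FQ Q T ≤ FQ Q T ^ 2 := by nlinarith
  unfold dstT a0T
  rw [← Real.exp_log hc]
  apply Real.exp_le_exp.2
  linarith

/-- **AE Lemma 5.1.** -/
theorem bottom (m n Q : ℕ) (hm : 1 ≤ m) (hQ : 1 ≤ Q) (κ Cg : ℝ) (hκ : 0 < κ) :
    ∃ CQ0 C T0 : ℝ, 0 < C ∧ ∀ CQ : ℝ, CQ0 ≤ CQ → ∀ (S : Sys m n) (T : ℝ) (χ : E m → ℝ), T0 ≤ T →
      Root S Q κ Cg T χ → ∀ ε : ℝ, 0 < ε → ∃ σ1 : ℝ, 0 < σ1 ∧ ∀ σb : ℝ, 0 < σb → σb < σ1 →
      ∀ (h : Measure (E m)) (𝒞 : Set (E m)), IsFiniteMeasure h →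
      (∀ x ∈ 𝒞, x ∈ ball (0 : E m) 1 ∧
        gav h σb x ≤ S.Lav Q χ σb x - CQ * S.Lamav χ σb x ∧ S.tauav Q χ σb x ≤ dstT Q T) →
      h 𝒞 ≤ ENNReal.ofReal (ε + C * dstT Q T * Real.exp (-T)) := by
  obtain ⟨K, hK, hcov⟩ := cover_bound m
  obtain ⟨T0, hT0⟩ := dstT_small Q (1 / (8 * |Cg| + 4)) (by positivity)
  refine ⟨|Cg|, K * (4 * (|Cg| + 1)), T0, by positivity, ?_⟩
  intro CQ hCQ S T χ hT R ε hε
  have H := R.botHyp
  have hCg : S.Cg ≤ |Cg| := R.hyp.Cg_le.trans (le_abs_self _)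
  have hCg0 : 0 ≤ S.Cg := le_trans zero_le_one H.valid.one_le_Cg
  set δ := dstT Q T with hδdef
  have hδ0 : 0 ≤ δ := (Real.exp_pos _).le
  have hδ : (8 * S.Cg + 4) * δ ≤ 1 := by
    have h1 := hT0 T hT
    have h2 : (8 * S.Cg + 4) * δ ≤ (8 * |Cg| + 4) * δ :=
      mul_le_mul_of_nonneg_right (by linarith) hδ0
    have h3 : (8 * |Cg| + 4) * δ ≤ (8 * |Cg| + 4) * (1 / (8 * |Cg| + 4)) :=
      mul_le_mul_of_nonneg_left h1 (by positivity)
    have h4 : (8 * |Cg| + 4) * (1 / (8 * |Cg| + 4)) = 1 := by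
      field_simp
    linarith
  obtain ⟨σ1, hσ1, hint⟩ := H.botGs_lintegral CQ δ (hCg.trans hCQ) hδ0 hδ
    (ENNReal.ofReal (ε / K)) (ENNReal.ofReal_pos.2 (div_pos hε hK))
  refine ⟨σ1, hσ1, fun σb hσb hσb1 h 𝒞 hh h𝒞 => ?_⟩
  have h1 := hcov σb hσb h 𝒞 (fun x => S.Lav Q χ σb x - CQ * S.Lamav χ σb x) hh
    (fun x hx => (h𝒞 x hx).2.1)
  have h2 : ∫⁻ y, ⨆ x ∈ 𝒞 ∩ ball y σb, ENNReal.ofReal (S.Lav Q χ σb x - CQ * S.Lamav χ σb x)
      ≤ ∫⁻ y, S.botGs Q χ CQ δ σ1 y := by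
    refine lintegral_mono fun y => le_trans ?_ (S.botG_le_botGs Q χ CQ δ hσb hσb1 y)
    exact biSup_mono fun x hx => ⟨⟨(h𝒞 x hx.1).1, (h𝒞 x hx.1).2.2⟩, hx.2⟩
  have h3 : S.DT χ univ ≤ ENNReal.ofReal (Real.exp (-T)) := H.DT_univ_le.trans R.hyp.small
  have hc : 0 ≤ 4 * S.Cg * δ := by positivity
  calc h 𝒞 ≤ ENNReal.ofReal K * ∫⁻ y, S.botGs Q χ CQ δ σ1 y :=
        h1.trans (mul_le_mul_right h2 _)
    _ ≤ ENNReal.ofReal K * (ENNReal.ofReal (4 * S.Cg * δ) * ENNReal.ofReal (Real.exp (-T))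
          + ENNReal.ofReal (ε / K)) :=
        mul_le_mul_right (hint.le.trans (add_le_add_left (mul_le_mul_right h3 _) _)) _
    _ = ENNReal.ofReal (K * (4 * S.Cg * δ * Real.exp (-T) + ε / K)) := by
        rw [← ENNReal.ofReal_mul hc, ← ENNReal.ofReal_add (by positivity) (by positivity),
          ← ENNReal.ofReal_mul hK.le]
    _ ≤ ENNReal.ofReal (ε + K * (4 * (|Cg| + 1)) * δ * Real.exp (-T)) := by
        apply ENNReal.ofReal_le_ofReal
        have e1 : K * (ε / K) = ε := by field_simp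
        have e2 : K * (4 * S.Cg * δ * Real.exp (-T))
            ≤ K * (4 * (|Cg| + 1)) * δ * Real.exp (-T) := by
          have : S.Cg * (K * δ * Real.exp (-T)) ≤ (|Cg| + 1) * (K * δ * Real.exp (-T)) :=
            mul_le_mul_of_nonneg_right (by linarith) (by positivity)
          nlinarith
        nlinarith

end Claimed.Agent.R322.Sx
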