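import Claimed.Agent.R322.Sx.Reverse

/-!
# R322 / Sx / Chain : the per-contact output of AE Sections 5 and 6.1-6.2

`path_chain`: every outward vertical with a threshold equality (`PD.Ok`) produces, in one of `Q`
bands `[B_i, 2 B_i]` (independent of the contact) and one of the `3^m` grids, a strictly nested chain
of `⌈c' √B_i⌉` marked cubes around the contact centre, with consecutive density ratios at least
`exp(B_i^{1/3}/2)`, whose innermost cube contains the threshold ball `B_{L0 s0}(x)`.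

Glue (AE proof of Lemma 6.3, "There is a fixed number of grids …", and completion of the proof, "Its
threshold ball lies in the innermost cube").  Constants: `K = 2m + 101`, `P0 = 13`, `c_* = 6`,
`C_* = 6m + 8`, `c = 1`, `ε0 = 1/48`, `c' = 3^{-m}/2`.
1. `traversal` (bands `Bd 1 … Bd Q`, `PathOk`, `Trav`), `witness` (`cD`), `reverse` (`ϑ`, `Cside`).
2. `⌈√B⌉` witness scales `θ_0 < θ_1 < …`, each with a grid and a cube; pigeonhole: one grid `g` occurs at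
   least `⌈√B⌉ / 3^m ≥ ⌈c' √B⌉` times; keep those, in order; levels of kept scales still differ by
   `≥ B^{1/3}`.
3. `EnvOut.a_lip` : `log (θ' / θ) ≥ B^{1/3} / C`, hence `√m · side(J_θ) ≤ √m Cside √(log B) θ < θ'` and
   `J_θ ⊆ ball x θ' ⊆ interior J_θ'` : strict nesting.
4. densities: `dens J_θ ≥ B^{-2ε0} e^{-a(θ)}`, `dens J_θ' ≤ B^{ε0} e^{-a(θ')}`, ratio
   `≥ B^{-3ε0} e^{B^{1/3}} ≥ e^{B^{1/3}/2}`.  List the cubes from the outermost to the innermost.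
5. innermost: `a(s0) ≤ a0 + C`, `a(θ_min) ≥ B ≥ F^{30} ≥ 2 a0`, so `θ_min ≥ L0 s0`, and
   `ball x (L0 s0) ⊆ ball x θ_min ⊆ J`.
-/

set_option autoImplicit false

namespace Claimed.Agent.R322.Sx

open MeasureTheory Set Metric
open scoped ENNReal NNReal InnerProductSpace

/-- pigeonhole with order: one colour class contains an increasing sequence of length `N'`. -/
theorem chain_pigeon {α : Type*} [Fintype α] [DecidableEq α] (N N' : ℕ) (col : ℕ → α)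
    (h : Fintype.card α * (N' - 1) < N) :
    ∃ (g : α) (ι : ℕ → ℕ), (∀ j, j < N' → ι j < N ∧ col (ι j) = g) ∧
      ∀ j, j + 1 < N' → ι j < ι (j + 1) := by
  obtain ⟨g, -, hg⟩ := Finset.exists_lt_card_fiber_of_mul_lt_card_of_maps_to
    (s := Finset.range N) (t := Finset.univ) (f := col) (n := N' - 1)
    (fun _ _ => Finset.mem_univ _) (by simpa using h)
  obtain ⟨S, hS⟩ : ∃ S : Finset ℕ, S = (Finset.range N).filter (fun x => col x = g) := ⟨_, rfl⟩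
  rw [← hS] at hg
  have hcard : N' ≤ S.card := by omega
  refine ⟨g, fun j => if hj : j < S.card then S.orderEmbOfFin rfl ⟨j, hj⟩ else 0, ?_, ?_⟩
  · intro j hj
    have hj' : j < S.card := lt_of_lt_of_le hj hcard
    simp only [hj', dif_pos]
    have hmem := S.orderEmbOfFin_mem rfl ⟨j, hj'⟩
    have hsub : ∀ x ∈ S, x < N ∧ col x = g := by
      intro x hx
      rw [hS, Finset.mem_filter, Finset.mem_range] at hx
      exact hx
    exact hsub _ hmem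
  · intro j hj
    have hj1 : j < S.card := by omega
    have hj2 : j + 1 < S.card := by omega
    simp only [hj1, hj2, dif_pos]
    apply (S.orderEmbOfFin rfl).strictMono
    exact Fin.mk_lt_mk.2 (Nat.lt_succ_self j)

/-- `K B^C ≤ exp (c B^{1/3})` eventually. -/
theorem chain_num (K C c : ℝ) (hc : 0 < c) :
    ∀ᶠ B : ℝ in Filter.atTop, K * B ^ C ≤ Real.exp (c * B ^ (1 / 3 : ℝ)) := by
  have h1 := pk_ev_exp K C (1 / 4) (by norm_num)
  have h2 : ∀ᶠ B : ℝ in Filter.atTop, 1 / c ≤ B ^ (1 / 12 : ℝ) :=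
    (tendsto_rpow_atTop (by norm_num : (0 : ℝ) < 1 / 12)).eventually_ge_atTop _
  filter_upwards [h1, h2, Filter.eventually_gt_atTop (0 : ℝ)] with B a1 a2 a3
  refine a1.trans (Real.exp_le_exp.2 ?_)
  have e1 : B ^ (1 / 3 : ℝ) = B ^ (1 / 12 : ℝ) * B ^ (1 / 4 : ℝ) := by
    rw [← Real.rpow_add a3]
    norm_num
  have e2 : 0 < B ^ (1 / 4 : ℝ) := Real.rpow_pos_of_pos a3 _
  have e3 : 1 ≤ c * B ^ (1 / 12 : ℝ) := by
    rw [div_le_iff₀ hc] at a2
    linarith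
  rw [e1]
  nlinarith

/-- ordered scales with marked cubes in ONE grid give a marked chain (listed from the outermost cube to the
innermost one). -/
theorem chain_of_scales {m : ℕ} (g : Fin m → Fin 3) (ν : Measure (E m)) (x : E m)
    (B ε0 Cside : ℝ) (N' : ℕ) (σ lvl : ℕ → ℝ) (J : ℕ → Cube m) (hB : 0 < B)
    (h1 : ∀ j, j < N' → 0 < σ j ∧ B ≤ lvl j ∧ lvl j ≤ 2 * B ∧
      ball x (σ j) ⊆ interior ((J j).set g) ∧
      (J j).side ≤ Cside * Real.sqrt (Real.log B) * σ j ∧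
      B ^ (-2 * ε0) * Real.exp (-lvl j) ≤ (J j).dens g ν ∧
      (J j).dens g ν ≤ B ^ ε0 * Real.exp (-lvl j) ∧
      ENNReal.ofReal (B ^ (-6 * ε0)) * ν ((J j).set g)
        ≤ ν ((J j).lowPart g ν (B ^ (6 * (m : ℝ) + 8) * Real.exp (-lvl j))))
    (h2 : ∀ j, j + 1 < N' → Real.sqrt m * (Cside * Real.sqrt (Real.log B) * σ j) < σ (j + 1) ∧
      B ^ (1 / 3 : ℝ) ≤ lvl (j + 1) - lvl j)
    (hnum : 1 * B ^ (3 * ε0) ≤ Real.exp (1 / 2 * B ^ (1 / 3 : ℝ))) :
    IsChain g ν (Marked g ν B ε0 (6 * (m : ℝ) + 8) 6 1) (Real.exp (B ^ (1 / 3 : ℝ) / 2)) N'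
      (fun j => J (N' - 1 - j)) := by
  constructor
  · intro j hj
    obtain ⟨-, a2, a3, -, -, a6, a7, a8⟩ := h1 (N' - 1 - j) (by omega)
    refine ⟨Real.exp (-lvl (N' - 1 - j)), Real.exp_le_exp.2 (by linarith),
      Real.exp_le_exp.2 (by linarith), ?_, a7, a8⟩
    rw [one_mul]
    exact a6
  · intro j hj
    obtain ⟨i, hi⟩ : ∃ i, i = N' - 1 - (j + 1) := ⟨_, rfl⟩
    have hi1 : N' - 1 - j = i + 1 := by omega
    have hiN : i + 1 < N' := by omega
    show (J (N' - 1 - (j + 1))).set g ⊂ (J (N' - 1 - j)).set g ∧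
      Real.exp (B ^ (1 / 3 : ℝ) / 2) * (J (N' - 1 - j)).dens g ν ≤ (J (N' - 1 - (j + 1))).dens g ν
    rw [← hi, hi1]
    obtain ⟨a1, -, -, a4, a5, a6, -, -⟩ := h1 i (by omega)
    obtain ⟨-, -, -, b4, -, -, b7, -⟩ := h1 (i + 1) hiN
    obtain ⟨c1, c2⟩ := h2 i hiN
    have hp : 0 < B ^ (1 / 3 : ℝ) := Real.rpow_pos_of_pos hB _
    have hdens : Real.exp (B ^ (1 / 3 : ℝ) / 2) * (J (i + 1)).dens g ν ≤ (J i).dens g ν := by
      have e1 : B ^ ε0 = B ^ (3 * ε0) * B ^ (-2 * ε0) := by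
        rw [← Real.rpow_add hB]
        congr 1
        ring
      have e2 : 0 < B ^ (-2 * ε0) := Real.rpow_pos_of_pos hB _
      have e3 : Real.exp (B ^ (1 / 3 : ℝ) / 2) * Real.exp (1 / 2 * B ^ (1 / 3 : ℝ))
          * Real.exp (-lvl (i + 1)) ≤ Real.exp (-lvl i) := by
        rw [← Real.exp_add, ← Real.exp_add]
        exact Real.exp_le_exp.2 (by linarith)
      calc Real.exp (B ^ (1 / 3 : ℝ) / 2) * (J (i + 1)).dens g ν
          ≤ Real.exp (B ^ (1 / 3 : ℝ) / 2) * (B ^ ε0 * Real.exp (-lvl (i + 1))) :=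
            mul_le_mul_of_nonneg_left b7 (Real.exp_pos _).le
        _ = B ^ (-2 * ε0) * (Real.exp (B ^ (1 / 3 : ℝ) / 2) * (1 * B ^ (3 * ε0))
              * Real.exp (-lvl (i + 1))) := by rw [e1]; ring
        _ ≤ B ^ (-2 * ε0) * (Real.exp (B ^ (1 / 3 : ℝ) / 2) * Real.exp (1 / 2 * B ^ (1 / 3 : ℝ))
              * Real.exp (-lvl (i + 1))) := by
            apply mul_le_mul_of_nonneg_left _ e2.le
            apply mul_le_mul_of_nonneg_right _ (Real.exp_pos _).le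
            exact mul_le_mul_of_nonneg_left hnum (Real.exp_pos _).le
        _ ≤ B ^ (-2 * ε0) * Real.exp (-lvl i) := mul_le_mul_of_nonneg_left e3 e2.le
        _ ≤ _ := a6
    refine ⟨?_, hdens⟩
    have hsub : (J i).set g ⊆ (J (i + 1)).set g := by
      intro y hy
      have hx : x ∈ (J i).set g := interior_subset (a4 (mem_ball_self a1))
      have d1 := Cube.norm_sub_le g (J i) hx hy
      have d2 : Real.sqrt m * (J i).side ≤ Real.sqrt m * (Cside * Real.sqrt (Real.log B) * σ i) :=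
        mul_le_mul_of_nonneg_left a5 (Real.sqrt_nonneg _)
      apply interior_subset (b4 _)
      rw [mem_ball, dist_eq_norm]
      linarith
    refine hsub.ssubset_of_ne (fun heq => ?_)
    have e1 := Cube.dens_eq_of_set_eq g ν heq
    have e2 : 0 < (J i).dens g ν :=
      lt_of_lt_of_le (mul_pos (Real.rpow_pos_of_pos hB _) (Real.exp_pos _)) a6
    have e3 : 1 < Real.exp (B ^ (1 / 3 : ℝ) / 2) := Real.one_lt_exp_iff.2 (by positivity)
    rw [← e1] at hdens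
    nlinarith

theorem path_chain (m n Q : ℕ) (hm : 1 ≤ m) (hQ : 1 ≤ Q)
    (ih : ∀ q : ℕ, 1 ≤ q → q < Q → SignedAt m n q) (κ Cg : ℝ) (hκ : 0 < κ) (F : Fix m n Q Cg) :
    ∃ CQ0 : ℝ, ∀ CQ : ℝ, CQ0 ≤ CQ → ∃ K ε0 Cs cs c c' : ℝ, 0 < ε0 ∧ cs * ε0 < 1 / 4 ∧ 0 < c ∧
      0 < c' ∧ ∀ L0 : ℝ, ∃ T0 : ℝ, ∀ T : ℝ, T0 ≤ T →
      ∃ Bd : Fin Q → ℝ, (∀ i, FQ Q T ^ 30 ≤ Bd i) ∧
      ∀ P : PD m n Q, P.T = T → P.CQ = CQ → P.K = K → P.Ok κ Cg →
      ∃ (i : Fin Q) (g : Fin m → Fin 3) (W : ℕ → Cube m),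
        IsChain g (P.S.tauT Q P.χ) (Marked g (P.S.tauT Q P.χ) (Bd i) ε0 Cs cs c)
          (Real.exp (Bd i ^ (1 / 3 : ℝ) / 2)) ⌈c' * Real.sqrt (Bd i)⌉₊ W ∧
        ball P.x (L0 * P.s0) ⊆ (W (⌈c' * Real.sqrt (Bd i)⌉₊ - 1)).set g := by
  have hKK : 2 * (m : ℝ) + 100 < 2 * (m : ℝ) + 101 := by linarith
  obtain ⟨CQ0t, htrav⟩ :=
    traversal m n Q hm hQ ih κ Cg hκ F (2 * (m : ℝ) + 101) 13 hKK (by norm_num)
  obtain ⟨CQ2, cD, hcD, hwit⟩ := witness m n Q hm hQ κ Cg hκ (2 * (m : ℝ) + 101) hKK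
  refine ⟨max CQ0t CQ2, fun CQ hCQ => ?_⟩
  obtain ⟨C, K1, c, hK1, hCw, hcp, hcp', hP0, htrav'⟩ := htrav CQ ((le_max_left _ _).trans hCQ)
  obtain ⟨ϑ, Cside, B0r, T0r, hϑ, hCside, hrev⟩ := reverse m n Q hm hQ κ Cg hκ F
    (2 * (m : ℝ) + 101) C K1 c.Cw c.cp cD (1 / 48) hKK hK1 hCw hcp hcp' hcD (by norm_num)
    (by norm_num)
  obtain ⟨B0w, T0w, hwit'⟩ := hwit C K1 ϑ (1 / 48) hK1 hϑ (by norm_num)
  obtain ⟨T0t, htrav''⟩ := htrav' (1 / 48) (by norm_num) (by norm_num)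
  refine ⟨2 * (m : ℝ) + 101, 1 / 48, 6 * (m : ℝ) + 8, 6, 1, (3 ^ m : ℝ)⁻¹ / 2, by norm_num,
    by norm_num, one_pos, by positivity, fun L0 => ?_⟩
  obtain ⟨Cp, hCp⟩ : ∃ Cp : ℝ, Cp = max C 1 := ⟨_, rfl⟩
  have hCp1 : 1 ≤ Cp := hCp ▸ le_max_right _ _
  have hCpC : C ≤ Cp := hCp ▸ le_max_left _ _
  have hCp0 : 0 < Cp := by linarith
  have hn1 := chain_num 1 (3 * (1 / 48)) (1 / 2) (by norm_num)
  have hn2 := chain_num (Real.sqrt m * Cside + 1) 1 (1 / Cp) (by positivity)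
  obtain ⟨B1, hB1⟩ := Filter.eventually_atTop.1 (hn1.and hn2)
  obtain ⟨T1, hT1⟩ := Filter.eventually_atTop.1 (cmpl_rate_F Q
    (max (max B0r B0w) (max (max B1 2) (C + Cp * Real.log L0))))
  refine ⟨max (max T0r T0w) (max T0t T1), fun T hT => ?_⟩
  have hT0r : T0r ≤ T := ((le_max_left _ _).trans (le_max_left _ _)).trans hT
  have hT0w : T0w ≤ T := ((le_max_right _ _).trans (le_max_left _ _)).trans hT
  have hT0t : T0t ≤ T := ((le_max_left _ _).trans (le_max_right _ _)).trans hT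
  have hFX := hT1 T (((le_max_right _ _).trans (le_max_right _ _)).trans hT)
  have hF1 : B0r ≤ FQ Q T := ((le_max_left _ _).trans (le_max_left _ _)).trans hFX
  have hF2 : B0w ≤ FQ Q T := ((le_max_right _ _).trans (le_max_left _ _)).trans hFX
  have hF3 : B1 ≤ FQ Q T :=
    (((le_max_left _ _).trans (le_max_left _ _)).trans (le_max_right _ _)).trans hFX
  have hF4 : 2 ≤ FQ Q T :=
    (((le_max_right _ _).trans (le_max_left _ _)).trans (le_max_right _ _)).trans hFX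
  have hF5 : C + Cp * Real.log L0 ≤ FQ Q T :=
    ((le_max_right _ _).trans (le_max_right _ _)).trans hFX
  have hF30 : FQ Q T ^ 2 + FQ Q T ≤ FQ Q T ^ 30 := by
    have e1 : FQ Q T ^ 3 ≤ FQ Q T ^ 30 := pow_le_pow_right₀ (by linarith) (by norm_num)
    nlinarith
  have hF30' : FQ Q T ≤ FQ Q T ^ 30 := by nlinarith
  obtain ⟨Bd, hBd, hall⟩ := htrav'' T hT0t
  refine ⟨fun i => Bd (i + 1), fun i => (hBd (i + 1) (by omega) (by omega)).1, ?_⟩
  intro P hPT hPCQ hPK hPok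
  obtain ⟨hP, i, hi1, hiQ, W, Γ0, s1, s2, hTr⟩ := hall P hPT hPCQ hPK hPok
  obtain ⟨B, hBdef⟩ : ∃ B : ℝ, B = Bd i := ⟨_, rfl⟩
  obtain ⟨hBF, hBT⟩ := hBd i hi1 hiQ
  rw [← hBdef] at hBF hBT hTr
  have hBge : FQ Q T ≤ B := hF30'.trans hBF
  have hB2 : 2 ≤ B := hF4.trans hBge
  have hB0 : 0 < B := by linarith
  obtain ⟨hnum1, hnum2⟩ := hB1 B (hF3.trans hBge)
  refine ⟨⟨i - 1, by omega⟩, ?_⟩
  have hidx : Bd ((⟨i - 1, by omega⟩ : Fin Q) + 1) = B := by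
    rw [hBdef]
    congr 1
    show i - 1 + 1 = i
    omega
  simp only [hidx]
  obtain ⟨N, hN⟩ : ∃ N : ℕ, N = ⌈Real.sqrt B⌉₊ := ⟨_, rfl⟩
  obtain ⟨N', hN'⟩ : ∃ N' : ℕ, N' = ⌈(3 ^ m : ℝ)⁻¹ / 2 * Real.sqrt B⌉₊ := ⟨_, rfl⟩
  rw [← hN']
  obtain ⟨θ, hθ1, hθ2⟩ := hwit' P hP (by rw [hPCQ]; exact (le_max_right _ _).trans hCQ)
    (by rw [hPT]; exact hT0w) c B W Γ0 s1 s2 (by rw [hP0]) (hF2.trans hBge) hTr
  rw [← hN] at hθ1 hθ2
  have hp3 : 0 < B ^ (1 / 3 : ℝ) := Real.rpow_pos_of_pos hB0 _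
  -- cubes
  have hex : ∀ j, ∃ (g : Fin m → Fin 3) (Jc : Cube m), j < N →
      (ball P.x (θ j) ⊆ interior (Jc.set g) ∧
        Jc.side ≤ Cside * Real.sqrt (Real.log B) * θ j ∧
        B ^ (-2 * (1 / 48 : ℝ)) * Real.exp (-P.a (θ j)) ≤ Jc.dens g (P.S.tauT Q P.χ) ∧
        Jc.dens g (P.S.tauT Q P.χ) ≤ B ^ (1 / 48 : ℝ) * Real.exp (-P.a (θ j)) ∧
        ENNReal.ofReal (B ^ (-6 * (1 / 48 : ℝ))) * P.S.tauT Q P.χ (Jc.set g)
          ≤ P.S.tauT Q P.χ (Jc.lowPart g (P.S.tauT Q P.χ)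
              (B ^ (6 * (m : ℝ) + 8) * Real.exp (-P.a (θ j))))) := by
    intro j
    by_cases hj : j < N
    · obtain ⟨a1, -, -, a4⟩ := hθ1 j hj
      obtain ⟨g, Jc, hh⟩ := hrev P hP (by rw [hPT]; exact hT0r) c B W Γ0 s1 s2 rfl rfl
        (hF1.trans hBge) (by rw [hPT]; linarith) hTr (θ j) a1 a4
      exact ⟨g, Jc, fun _ => hh⟩
    · exact ⟨fun _ => 0, ⟨0, fun _ => 0⟩, fun h => absurd h hj⟩
  choose col J hJ using hex
  -- pigeonhole
  have hsq : 0 < Real.sqrt B := Real.sqrt_pos.2 hB0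
  have h3m : (0 : ℝ) < 3 ^ m := by positivity
  have hpig : Fintype.card (Fin m → Fin 3) * (N' - 1) < N := by
    have e1 : Fintype.card (Fin m → Fin 3) = 3 ^ m := by simp
    rw [e1]
    have e2 : (N' : ℝ) < (3 ^ m : ℝ)⁻¹ / 2 * Real.sqrt B + 1 := by
      rw [hN']
      exact Nat.ceil_lt_add_one (by positivity)
    have e3 : Real.sqrt B ≤ N := by
      rw [hN]
      exact Nat.le_ceil _
    have e4 : ((N' - 1 : ℕ) : ℝ) ≤ (N' : ℝ) - 1 + 0 := by
      rcases Nat.eq_zero_or_pos N' with h0 | h0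
      · exfalso
        have : 0 < ⌈(3 ^ m : ℝ)⁻¹ / 2 * Real.sqrt B⌉₊ := Nat.ceil_pos.2 (by positivity)
        omega
      · rw [Nat.cast_sub h0]
        simp
    have e5 : ((3 ^ m * (N' - 1) : ℕ) : ℝ) < (N : ℝ) := by
      push_cast
      calc (3 : ℝ) ^ m * ((N' - 1 : ℕ) : ℝ) ≤ 3 ^ m * ((N' : ℝ) - 1) :=
            mul_le_mul_of_nonneg_left (by linarith) h3m.le
        _ < 3 ^ m * ((3 ^ m : ℝ)⁻¹ / 2 * Real.sqrt B) :=
            mul_lt_mul_of_pos_left (by linarith) h3m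
        _ = Real.sqrt B / 2 := by field_simp
        _ ≤ Real.sqrt B := by linarith
        _ ≤ N := e3
    exact_mod_cast e5
  obtain ⟨g, ι, hι1, hι2⟩ := chain_pigeon N N' col hpig
  have hN'pos : 0 < N' := by
    rw [hN']
    exact Nat.ceil_pos.2 (by positivity)
  -- monotonicity along the witness scales
  have hmono : ∀ k i, i + k + 1 < N → θ i < θ (i + k + 1) ∧
      B ^ (1 / 3 : ℝ) ≤ P.a (θ (i + k + 1)) - P.a (θ i) := by
    intro k
    induction k with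
    | zero => intro i hi; exact hθ2 i hi
    | succ k ihk =>
      intro i hi
      obtain ⟨a1, a2⟩ := ihk i (by omega)
      obtain ⟨b1, b2⟩ := hθ2 (i + k + 1) (by omega)
      exact ⟨a1.trans b1, by
        have : i + (k + 1) + 1 = i + k + 1 + 1 := by ring
        rw [this]
        linarith⟩
  have hpathmem : ∀ j, j < N → θ j ∈ P.path := fun j hj =>
    ⟨hTr.mem1.1.trans (hθ1 j hj).1.1, (hθ1 j hj).1.2.trans hTr.mem2.2⟩
  have hlogB : Real.sqrt (Real.log B) ≤ B := by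
    rw [Real.sqrt_le_iff]
    refine ⟨hB0.le, ?_⟩
    have := Real.log_le_sub_one_of_pos hB0
    nlinarith
  refine ⟨g, fun j => J (ι (N' - 1 - j)), ?_, ?_⟩
  · refine chain_of_scales g (P.S.tauT Q P.χ) P.x B (1 / 48) Cside N' (fun j => θ (ι j))
      (fun j => P.a (θ (ι j))) (fun j => J (ι j)) hB0 ?_ ?_ hnum1
    · intro j hj
      obtain ⟨a1, a2⟩ := hι1 j hj
      obtain ⟨b1, b2, b3, -⟩ := hθ1 (ι j) a1
      have hh := hJ (ι j) a1
      rw [a2] at hh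
      exact ⟨P.pos_of_path hP.ok (hpathmem _ a1), by linarith, by linarith, hh⟩
    · intro j hj
      obtain ⟨a1, -⟩ := hι1 j (by omega)
      obtain ⟨a2, -⟩ := hι1 (j + 1) hj
      have a3 := hι2 j hj
      obtain ⟨k, hk⟩ : ∃ k, ι (j + 1) = ι j + k + 1 := ⟨ι (j + 1) - ι j - 1, by omega⟩
      obtain ⟨b1, b2⟩ := hmono k (ι j) (by omega)
      rw [← hk] at b1 b2
      refine ⟨?_, b2⟩
      have p1 : 0 < θ (ι j) := P.pos_of_path hP.ok (hpathmem _ a1)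
      have hlip := hP.env.a_lip _ (hpathmem _ a1) _ (hpathmem _ a2) b1.le
      have hlog0 : 0 ≤ Real.log (θ (ι (j + 1)) / θ (ι j)) :=
        Real.log_nonneg (by rw [le_div_iff₀ p1]; linarith)
      have e1 : B ^ (1 / 3 : ℝ) ≤ Cp * Real.log (θ (ι (j + 1)) / θ (ι j)) :=
        calc B ^ (1 / 3 : ℝ) ≤ |P.a (θ (ι (j + 1))) - P.a (θ (ι j))| := b2.trans (le_abs_self _)
          _ ≤ C * Real.log (θ (ι (j + 1)) / θ (ι j)) := hlip
          _ ≤ _ := mul_le_mul_of_nonneg_right hCpC hlog0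
      have e2 : 1 / Cp * B ^ (1 / 3 : ℝ) ≤ Real.log (θ (ι (j + 1)) / θ (ι j)) := by
        rw [div_mul_eq_mul_div, one_mul, div_le_iff₀ hCp0]
        linarith
      have e3 : Real.exp (1 / Cp * B ^ (1 / 3 : ℝ)) ≤ θ (ι (j + 1)) / θ (ι j) := by
        rw [← Real.exp_log (div_pos (p1.trans b1) p1)]
        exact Real.exp_le_exp.2 e2
      rw [Real.rpow_one] at hnum2
      have e4 := hnum2.trans e3
      rw [le_div_iff₀ p1] at e4
      have e5 : Real.sqrt m * (Cside * Real.sqrt (Real.log B) * θ (ι j))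
          ≤ Real.sqrt m * (Cside * B * θ (ι j)) := by
        apply mul_le_mul_of_nonneg_left _ (Real.sqrt_nonneg _)
        apply mul_le_mul_of_nonneg_right _ p1.le
        exact mul_le_mul_of_nonneg_left hlogB hCside.le
      have e6 : 0 < B * θ (ι j) := mul_pos hB0 p1
      have e7 : (Real.sqrt m * Cside + 1) * B * θ (ι j)
          = Real.sqrt m * (Cside * B * θ (ι j)) + B * θ (ι j) := by ring
      rw [e7] at e4
      show Real.sqrt m * (Cside * Real.sqrt (Real.log B) * θ (ι j)) < θ (ι (j + 1))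
      linarith
  · -- the threshold ball
    have hz : N' - 1 - (N' - 1) = 0 := by omega
    show ball P.x (L0 * P.s0) ⊆ (J (ι (N' - 1 - (N' - 1)))).set g
    rw [hz]
    obtain ⟨a1, a2⟩ := hι1 0 hN'pos
    obtain ⟨b1, b2, -, -⟩ := hθ1 (ι 0) a1
    have hh := (hJ (ι 0) a1).1
    rw [a2] at hh
    refine (ball_subset_ball ?_).trans (hh.trans interior_subset)
    have p0 := P.s0_pos hP.ok
    have hs0mem : P.s0 ∈ P.path := ⟨le_rfl, hP.env.s0_lt.le⟩
    have hmem := hpathmem _ a1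
    rcases le_or_gt L0 0 with hL | hL
    · have : L0 * P.s0 ≤ 0 := mul_nonpos_of_nonpos_of_nonneg hL p0.le
      linarith [P.pos_of_path hP.ok hmem]
    · have hlip := hP.env.a_lip _ hs0mem _ hmem hmem.1
      have hlog0 : 0 ≤ Real.log (θ (ι 0) / P.s0) :=
        Real.log_nonneg (by rw [le_div_iff₀ p0]; linarith [hmem.1])
      have hs0a := (abs_le.1 hP.env.a_s0).2
      have ha0 : P.a0 = FQ Q T ^ 2 := by
        show a0T Q P.T = _
        rw [hPT]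
        rfl
      have e1 : Cp * Real.log L0 ≤ Cp * Real.log (θ (ι 0) / P.s0) :=
        calc Cp * Real.log L0 ≤ P.a (θ (ι 0)) - P.a P.s0 := by linarith
          _ ≤ |P.a (θ (ι 0)) - P.a P.s0| := le_abs_self _
          _ ≤ C * Real.log (θ (ι 0) / P.s0) := hlip
          _ ≤ _ := mul_le_mul_of_nonneg_right hCpC hlog0
      have e2 : Real.log L0 ≤ Real.log (θ (ι 0) / P.s0) := le_of_mul_le_mul_left e1 hCp0
      have e3 : L0 ≤ θ (ι 0) / P.s0 :=
        (Real.log_le_log_iff hL (div_pos (P.pos_of_path hP.ok hmem) p0)).1 e2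
      rwa [le_div_iff₀ p0] at e3

end Claimed.Agent.R322.Sx
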