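import Claimed.Agent.R322.Sx.Path
import Claimed.Agent.R322.Pack033
import Claimed.Agent.R322.Sx.Ctl.Kernel

/-!
# R322 / Sx / Ctl : controlled scales

AE Sections 5-6 repeat the same "Gaussian body and tail" arguments in three situations:

* at a maximising scale in the proof of AE Lemma 5.2 (AE (5.9): `τ_t ≤ (t/v)^{K-2} δ`, `δ = τ_v`),
* at the scales `v ∈ [s̲, s0]` below the threshold (AE (5.3): `τ_t ≤ d_*`; `ctl_pre` below),
* at the scales of the path (AE (5.6): `τ_t ≤ C (t/s)^{K-2} e^{-a(s)}`; `ctl_path` in `Env.lean`).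

`P.Ctl K1 J v δ` is the common hypothesis: a polynomial dilation bound for the Gaussian averages of `τ`
at all scales `t ∈ [v, ρ]`, with controlling density `δ ∈ [e^{-T/2}, K1 d_*]`, and the room
`v T⁴ ≤ ρ`.  `lev δ = log (1/δ)` is the level (`= a(s)` on the path, `= a0` below the threshold).
All polynomial dilations `t ≤ (lev δ)²` stay below `ρ`, inside `B_2` (where `χ = 1`), and have
normalised density `≤ C t^J δ`, far below every fixed threshold.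

Beyond `ρ` only the root mass bound `τ(B_4) ≤ e^{-T}` and `tsupport χ ⊆ closedBall 0 3` are used.
STATUS: this file is sorry-free (helper160); it uses the black boxes `weighted_scalar`, `gauss_moment`,
`dilation_witness` (`Weighted.lean`), `Fix.cfg` and `Ops.lean`.  Key simplification (`Ctl/Kernel.lean`):
`G_v (1+|u|²)^j ≤ C e^{-|u|²/8} G_{2v}`, so all moments and tails are dominated by `τ_{2v}`: no annuli.
Needed rates: `Rates.lean` (`F_Q(T)^N = o(T)`, `(log T)^N = o(F_Q(T))`).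
-/

set_option autoImplicit false
namespace Claimed.Agent.R322.Sx
open MeasureTheory Set Metric Filter Topology
open scoped ENNReal NNReal InnerProductSpace

/-- level of a density. -/
noncomputable def lev (δ : ℝ) : ℝ := -Real.log δ

/-- `v` is a controlled scale with controlling density `δ`. -/
structure PD.Ctl {m n Q : ℕ} (P : PD m n Q) (K1 J v δ : ℝ) : Prop where
  v_pos : 0 < v
  room : v * P.T ^ 4 ≤ P.ρ
  dil : ∀ t, v ≤ t → t ≤ P.ρ → P.tau t ≤ K1 * (t / v) ^ J * δ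
  δ_le : δ ≤ K1 * P.dst
  δ_ge : Real.exp (-P.T / 2) ≤ δ

variable {m n Q : ℕ}

theorem PD.Ctl.δ_pos {P : PD m n Q} {K1 J v δ : ℝ} (h : P.Ctl K1 J v δ) : 0 < δ :=
  lt_of_lt_of_le (Real.exp_pos _) h.δ_ge

theorem PD.Ctl.exp_neg_lev {P : PD m n Q} {K1 J v δ : ℝ} (h : P.Ctl K1 J v δ) :
    Real.exp (-lev δ) = δ := by
  unfold lev
  rw [neg_neg, Real.exp_log h.δ_pos]

theorem PD.Ctl.lev_le {P : PD m n Q} {K1 J v δ : ℝ} (h : P.Ctl K1 J v δ) : lev δ ≤ P.T / 2 := by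
  unfold lev
  have := Real.log_le_log (Real.exp_pos _) h.δ_ge
  rw [Real.log_exp] at this
  linarith

theorem PD.Ctl.lev_ge {P : PD m n Q} {K1 J v δ : ℝ} (h : P.Ctl K1 J v δ) (hK1 : 1 ≤ K1) :
    FQ Q P.T ^ 2 - Real.log K1 ≤ lev δ := by
  unfold lev
  have := Real.log_le_log h.δ_pos h.δ_le
  unfold PD.dst dstT a0T at this
  rw [Real.log_mul (by linarith) (Real.exp_pos _).ne', Real.log_exp] at this
  linarith

/-- dilations by `t ≤ T⁴` stay below `ρ`. -/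
theorem PD.Ctl.mul_le {P : PD m n Q} {K1 J v δ t : ℝ} (h : P.Ctl K1 J v δ) (ht : t ≤ P.T ^ 4) :
    t * v ≤ P.ρ := by
  have := mul_le_mul_of_nonneg_left ht h.v_pos.le
  have h2 := h.room
  linarith

theorem PD.Ctl.tau_le {P : PD m n Q} {K1 J v δ t : ℝ} (h : P.Ctl K1 J v δ) (ht1 : 1 ≤ t)
    (ht : t * v ≤ P.ρ) : P.tau (t * v) ≤ K1 * t ^ J * δ := by
  have h1 := h.dil (t * v) (by nlinarith [h.v_pos]) ht
  rwa [mul_div_assoc, div_self h.v_pos.ne', mul_one] at h1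

/-- the scales below the threshold are controlled, with density `d_*` (AE (5.3)). -/
theorem ctl_thr (m n Q : ℕ) (hm : 1 ≤ m) (hQ : 1 ≤ Q) (κ Cg : ℝ) :
    ∃ T0 : ℝ, ∀ P : PD m n Q, P.Ok κ Cg → T0 ≤ P.T → ∀ v, P.sb ≤ v → v * P.T ^ 4 ≤ P.ρ →
      P.Ctl 1 0 v P.dst := by
  obtain ⟨T0, hT0⟩ := eventually_atTop.1 (ctl_rate m Q hQ 0)
  refine ⟨T0, fun P hP hT v hv hroom => ?_⟩
  obtain ⟨h2, -, -, hF1, hF2, hρ0, hρ1, -⟩ := hT0 P.T hT
  refine ⟨lt_of_lt_of_le hP.sb_pos hv, hroom, fun t ht htρ => ?_, by rw [one_mul], ?_⟩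
  · rw [Real.rpow_zero, one_mul, one_mul]
    exact hP.thr t (hv.trans ht) htρ
  · unfold PD.dst dstT a0T
    apply Real.exp_le_exp.2
    linarith

theorem ctl_pre (m n Q : ℕ) (hm : 1 ≤ m) (hQ : 1 ≤ Q) (κ Cg : ℝ) :
    ∃ T0 : ℝ, ∀ P : PD m n Q, P.Ok κ Cg → T0 ≤ P.T → ∀ v, P.sb ≤ v → v ≤ P.s0 →
      P.Ctl 1 0 v P.dst := by
  obtain ⟨T0, hT0⟩ := eventually_atTop.1 (ctl_rate m Q hQ 0)
  obtain ⟨T1, hT1⟩ := ctl_thr m n Q hm hQ κ Cg
  refine ⟨max T0 T1, fun P hP hT v hv hv0 => ?_⟩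
  obtain ⟨h2, -, -, hF1, hF2, hρ0, hρ1, hroom⟩ := hT0 P.T ((le_max_left _ _).trans hT)
  refine hT1 P hP ((le_max_right _ _).trans hT) v hv ?_
  have hs0 : 0 < P.s0 := lt_of_lt_of_le hP.sb_pos hP.sb_le
  have hT4 : 0 < P.T ^ 4 := by positivity
  have h1 := cmpl_tauav_le_mass hP.root hs0 le_rfl P.x
  have h3 : P.dst ≤ (2 * Real.pi * P.s0 ^ 2) ^ (-(m : ℝ) / 2) * Real.exp (-P.T) := by
    rw [← hP.thr_eq]; exact h1
  rw [ch_norm_eq m hs0] at h3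
  have hpi : (1 : ℝ) ≤ (2 * Real.pi) ^ ((m : ℝ) / 2) := by
    apply Real.one_le_rpow
    · linarith [Real.pi_gt_three]
    · positivity
  have hsm : 0 < P.s0 ^ m := by positivity
  have h4 : P.s0 ^ m ≤ Real.exp (FQ Q P.T ^ 2 - P.T) := by
    have h5 : P.dst * ((2 * Real.pi) ^ ((m : ℝ) / 2) * P.s0 ^ m) ≤ Real.exp (-P.T) := by
      rw [inv_mul_eq_div, le_div_iff₀ (by positivity)] at h3
      exact h3
    have h6 : P.dst * P.s0 ^ m ≤ Real.exp (-P.T) := by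
      refine le_trans ?_ h5
      have hd : 0 < P.dst := Real.exp_pos _
      apply mul_le_mul_of_nonneg_left _ hd.le
      nlinarith
    have h7 : Real.exp (FQ Q P.T ^ 2 - P.T) = Real.exp (FQ Q P.T ^ 2) * Real.exp (-P.T) := by
      rw [← Real.exp_add]; congr 1
    have h8 : Real.exp (FQ Q P.T ^ 2) * P.dst = 1 := by
      unfold PD.dst dstT a0T
      rw [← Real.exp_add]; simp
    calc P.s0 ^ m = Real.exp (FQ Q P.T ^ 2) * (P.dst * P.s0 ^ m) := by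
          rw [← mul_assoc, h8, one_mul]
      _ ≤ Real.exp (FQ Q P.T ^ 2) * Real.exp (-P.T) :=
          mul_le_mul_of_nonneg_left h6 (Real.exp_pos _).le
      _ = _ := h7.symm
  have h5 : P.s0 ≤ rhoT Q P.T / P.T ^ 4 :=
    (pow_le_pow_iff_left₀ hs0.le (by positivity) (by omega)).1 (h4.trans hroom)
  rw [le_div_iff₀ hT4] at h5
  calc v * P.T ^ 4 ≤ P.s0 * P.T ^ 4 := mul_le_mul_of_nonneg_right hv0 hT4.le
    _ ≤ P.ρ := h5

/-- a bounded dilation of a controlled scale is controlled. -/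
theorem PD.Ctl.dilate {P : PD m n Q} {K1 J v δ r lam : ℝ} (h : P.Ctl K1 J v δ) (hK1 : 0 ≤ K1)
    (hJ : 0 ≤ J) (hδ : 0 ≤ δ) (hvr : v ≤ r) (hr : r ≤ lam * v) (hroom : r * P.T ^ 4 ≤ P.ρ) :
    P.Ctl (K1 * lam ^ J) J r δ := by
  have hv := h.v_pos
  have hr0 : 0 < r := lt_of_lt_of_le hv hvr
  have hlam : 1 ≤ lam := by
    by_contra hc
    rw [not_le] at hc
    nlinarith
  have hlamJ : 1 ≤ lam ^ J := Real.one_le_rpow hlam hJ
  refine ⟨hr0, hroom, fun t ht htρ => ?_, ?_, h.δ_ge⟩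
  · have h1 := h.dil t (hvr.trans ht) htρ
    refine h1.trans ?_
    have ht0 : 0 < t := lt_of_lt_of_le hr0 ht
    have e : t / v = (t / r) * (r / v) := by field_simp
    have h2 : (t / v) ^ J ≤ lam ^ J * (t / r) ^ J := by
      rw [e, Real.mul_rpow (by positivity) (by positivity), mul_comm]
      apply mul_le_mul_of_nonneg_right _ (by positivity)
      apply Real.rpow_le_rpow (by positivity) _ hJ
      rw [div_le_iff₀ hv]; exact hr
    calc K1 * (t / v) ^ J * δ ≤ K1 * (lam ^ J * (t / r) ^ J) * δ := by gcongr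
      _ = _ := by ring
  · refine h.δ_le.trans ?_
    have hd : 0 < P.dst := Real.exp_pos _
    have : K1 * 1 ≤ K1 * lam ^ J := mul_le_mul_of_nonneg_left hlamJ hK1
    nlinarith


theorem PD.Ok.ball_sub {P : PD m n Q} {κ Cg r : ℝ} (hP : P.Ok κ Cg) (hr : r ≤ 1) :
    ball P.x r ⊆ ball (0 : E m) 2 := by
  intro y hy
  have hx := hP.x_mem
  rw [mem_ball, dist_eq_norm] at hy
  rw [mem_ball, dist_zero_right] at hx ⊢
  calc ‖y‖ = ‖(y - P.x) + P.x‖ := by rw [sub_add_cancel]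
    _ ≤ ‖y - P.x‖ + ‖P.x‖ := norm_add_le _ _
    _ < 2 := by linarith

/-- Gaussian lower bound: normalised density on the dilated balls. -/
theorem ctl_ball (m n Q : ℕ) (hm : 1 ≤ m) (hQ : 1 ≤ Q) (κ Cg K1 J : ℝ) (hK1 : 1 ≤ K1)
    (hJ : 0 ≤ J) :
    ∃ C T0 : ℝ, 0 < C ∧ ∀ P : PD m n Q, P.Ok κ Cg → T0 ≤ P.T → ∀ v δ, P.Ctl K1 J v δ →
      ∀ t, 1 ≤ t → t * v ≤ P.ρ →
      ball P.x (t * v) ⊆ ball (0 : E m) 2 ∧
      P.S.tau Q (ball P.x (t * v)) ≤ ENNReal.ofReal (C * t ^ J * δ * (t * v) ^ m) := by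
  obtain ⟨T0, hT0⟩ := eventually_atTop.1 (ctl_rate m Q hQ 0)
  refine ⟨bC m * K1, T0, mul_pos (bC_pos m) (by linarith), fun P hP hT v δ h t ht htv => ?_⟩
  obtain ⟨h2, -, -, hF1, hF2, hρ0, hρ1, -⟩ := hT0 P.T hT
  have hsub : ball P.x (t * v) ⊆ ball (0 : E m) 2 := hP.ball_sub (htv.trans hρ1)
  have htv0 : 0 < t * v := mul_pos (by linarith) h.v_pos
  refine ⟨hsub, (ctl_root_ball hP.root htv0 hsub).trans (ENNReal.ofReal_le_ofReal ?_)⟩
  have h1 : P.S.tauav Q P.χ (t * v) P.x ≤ K1 * t ^ J * δ := h.tau_le ht htv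
  have h3 : 0 ≤ bC m * (t * v) ^ m := mul_nonneg (bC_pos m).le (by positivity)
  calc bC m * (t * v) ^ m * P.S.tauav Q P.χ (t * v) P.x
      ≤ bC m * (t * v) ^ m * (K1 * t ^ J * δ) := mul_le_mul_of_nonneg_left h1 h3
    _ = _ := by ring

theorem PD.Ctl.two_le {P : PD m n Q} {K1 J v δ : ℝ} (h : P.Ctl K1 J v δ) (hT : 2 ≤ P.T) :
    2 * v ≤ P.ρ := by
  apply h.mul_le
  have : (2 : ℝ) ^ 4 ≤ P.T ^ 4 := pow_le_pow_left₀ (by norm_num) hT 4
  linarith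

theorem PD.Ctl.tau_two {P : PD m n Q} {K1 J v δ : ℝ} (h : P.Ctl K1 J v δ) (hT : 2 ≤ P.T) :
    P.S.tauav Q P.χ (2 * v) P.x ≤ K1 * 2 ^ J * δ :=
  h.tau_le (by norm_num) (h.two_le hT)

/-- Gaussian polynomial moments of `τ`. -/
theorem ctl_poly (m n Q : ℕ) (hm : 1 ≤ m) (hQ : 1 ≤ Q) (κ Cg K1 J : ℝ) (hK1 : 1 ≤ K1)
    (hJ : 0 ≤ J) (j : ℕ) :
    ∃ C T0 : ℝ, 0 < C ∧ ∀ P : PD m n Q, P.Ok κ Cg → T0 ≤ P.T → ∀ v δ, P.Ctl K1 J v δ →
      ∫ y, Sys.ker P.χ v P.x y * (1 + ‖uu P.x v y‖ ^ 2) ^ j ∂(P.S.tau Q) ≤ C * δ := by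
  refine ⟨kC m j * (K1 * 2 ^ J), 2, mul_pos (kC_pos m j) (by positivity), fun P hP hT v δ h => ?_⟩
  have hR := hP.root
  have h1 := ctl_root_tau hR (kerP_continuous (cmpl_chi_continuous hR) v P.x j).measurable
    (kerP_nonneg hR.cut.nonneg v P.x j) P.x (kerP_le' hR.cut.nonneg h.v_pos P.x j)
  refine le_trans h1 ?_
  calc kC m j * P.S.tauav Q P.χ (2 * v) P.x ≤ kC m j * (K1 * 2 ^ J * δ) :=
        mul_le_mul_of_nonneg_left (h.tau_two hT) (kC_pos m j).le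
    _ = _ := by ring

/-- the truncated weight. -/
theorem kerP_ind_le {χ : E m → ℝ} (h0 : ∀ y, 0 ≤ χ y) {v R : ℝ} (hv : 0 < v) (hR : 0 ≤ R) (x : E m)
    (j : ℕ) {A : Set (E m)} (hA : ∀ y ∈ A, R * v ≤ ‖y - x‖) (y : E m) :
    A.indicator (kerP χ v x j) y ≤ kC m j * Real.exp (-(1 / 8) * R ^ 2) * Sys.ker χ (2 * v) x y := by
  have h2 : 0 ≤ Sys.ker χ (2 * v) x y := mul_nonneg (h0 y) (cmpl_gauss_nonneg m _ _)
  have h3 := kC_pos m j
  by_cases hy : y ∈ A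
  · rw [indicator_of_mem hy]
    refine (kerP_le h0 hv x j y).trans ?_
    have h4 : R ≤ ‖uu x v y‖ := by
      unfold uu
      rw [norm_smul, Real.norm_eq_abs, abs_of_pos (inv_pos.2 hv), inv_mul_eq_div, le_div_iff₀ hv]
      exact hA y hy
    have h5 : R ^ 2 ≤ ‖uu x v y‖ ^ 2 := pow_le_pow_left₀ hR h4 2
    have h6 : Real.exp (-‖uu x v y‖ ^ 2 / 8) ≤ Real.exp (-(1 / 8) * R ^ 2) :=
      Real.exp_le_exp.2 (by linarith)
    gcongr
  · rw [indicator_of_notMem hy]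
    positivity

/-- Gaussian tails of `τ` beyond `R v` (all `R ≥ 1`, also beyond `ρ`). -/
theorem ctl_tail (m n Q : ℕ) (hm : 1 ≤ m) (hQ : 1 ≤ Q) (κ Cg K1 J : ℝ) (hK1 : 1 ≤ K1)
    (hJ : 0 ≤ J) (j : ℕ) :
    ∃ C c T0 : ℝ, 0 < C ∧ 0 < c ∧ ∀ P : PD m n Q, P.Ok κ Cg → T0 ≤ P.T → ∀ v δ,
      P.Ctl K1 J v δ → ∀ R : ℝ, 1 ≤ R →
      ∫ y in (closedBall P.x (R * v))ᶜ, Sys.ker P.χ v P.x y * (1 + ‖uu P.x v y‖ ^ 2) ^ j
          ∂(P.S.tau Q) ≤ C * Real.exp (-c * R ^ 2) * δ := by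
  refine ⟨kC m j * (K1 * 2 ^ J), 1 / 8, 2, mul_pos (kC_pos m j) (by positivity), by norm_num,
    fun P hP hT v δ h R hR1 => ?_⟩
  have hR := hP.root
  have hAm : MeasurableSet (closedBall P.x (R * v))ᶜ := isClosed_closedBall.measurableSet.compl
  have hA : ∀ y ∈ (closedBall P.x (R * v))ᶜ, R * v ≤ ‖y - P.x‖ := by
    intro y hy
    rw [mem_compl_iff, mem_closedBall, dist_eq_norm, not_le] at hy
    exact hy.le
  have h1 := ctl_root_tau (Q := Q) hR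
    ((kerP_continuous (cmpl_chi_continuous hR) v P.x j).measurable.indicator hAm)
    (fun y => indicator_nonneg (fun y _ => kerP_nonneg hR.cut.nonneg v P.x j y) y) P.x
    (kerP_ind_le hR.cut.nonneg h.v_pos (by linarith) P.x j hA)
  rw [integral_indicator hAm] at h1
  refine le_trans h1 ?_
  have h3 : 0 ≤ kC m j * Real.exp (-(1 / 8) * R ^ 2) := mul_nonneg (kC_pos m j).le (Real.exp_pos _).le
  calc kC m j * Real.exp (-(1 / 8) * R ^ 2) * P.S.tauav Q P.χ (2 * v) P.x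
      ≤ kC m j * Real.exp (-(1 / 8) * R ^ 2) * (K1 * 2 ^ J * δ) :=
        mul_le_mul_of_nonneg_left (h.tau_two hT) h3
    _ = _ := by ring

/-- bare mass: `ν = Q vol_S + M` gives bounded Gaussian mass and Gaussian mass tails. -/
theorem ctl_mass (m n Q : ℕ) (hm : 1 ≤ m) (hQ : 1 ≤ Q) (κ Cg K1 J : ℝ) (hK1 : 1 ≤ K1)
    (hJ : 0 ≤ J) (j : ℕ) :
    ∃ C c T0 : ℝ, 0 < C ∧ 0 < c ∧ ∀ P : PD m n Q, P.Ok κ Cg → T0 ≤ P.T → ∀ v δ,
      P.Ctl K1 J v δ →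
      P.S.avg P.χ v P.x (fun q => (1 + ‖uu P.x v q.1‖ ^ 2) ^ j) ≤ C ∧
      ∀ R : ℝ, 1 ≤ R →
        P.S.avg P.χ v P.x (fun q => ({q : E m × E n | R * v < ‖q.1 - P.x‖}.indicator
          (fun q => (1 + ‖uu P.x v q.1‖ ^ 2) ^ j) q)) ≤ C * Real.exp (-c * R ^ 2) := by
  refine ⟨kC m j * (K1 * 2 ^ J * K1 + 2 * Q), 1 / 8, 2, mul_pos (kC_pos m j) (by positivity),
    by norm_num, fun P hP hT v δ h => ?_⟩
  have hR := hP.root
  have hδ1 : δ ≤ K1 := by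
    refine h.δ_le.trans ?_
    have : P.dst ≤ 1 := by
      unfold PD.dst dstT a0T
      apply Real.exp_le_one_iff.2
      have := sq_nonneg (FQ Q P.T)
      linarith
    nlinarith
  have htau : P.S.tauav Q P.χ (2 * v) P.x + 2 * Q ≤ K1 * 2 ^ J * K1 + 2 * Q := by
    have h1 := h.tau_two hT
    have h2 : K1 * 2 ^ J * δ ≤ K1 * 2 ^ J * K1 := mul_le_mul_of_nonneg_left hδ1 (by positivity)
    linarith
  have h2v : 0 < 2 * v := by linarith [h.v_pos]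
  constructor
  · have h1 := ctl_root_nu (Q := Q) hR (kerP_continuous (cmpl_chi_continuous hR) v P.x j).measurable
      (kerP_nonneg hR.cut.nonneg v P.x j) (kC_pos m j).le h2v P.x
      (kerP_le' hR.cut.nonneg h.v_pos P.x j)
    exact le_trans h1 (mul_le_mul_of_nonneg_left htau (kC_pos m j).le)
  · intro R hR1
    set A : Set (E m) := {y | R * v < ‖y - P.x‖} with hAdef
    have hAm : MeasurableSet A := by
      apply measurableSet_lt measurable_const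
      fun_prop
    have hA : ∀ y ∈ A, R * v ≤ ‖y - P.x‖ := fun y hy => le_of_lt hy
    have h3 : 0 ≤ kC m j * Real.exp (-(1 / 8) * R ^ 2) :=
      mul_nonneg (kC_pos m j).le (Real.exp_pos _).le
    have h1 := ctl_root_nu (Q := Q) hR
      ((kerP_continuous (cmpl_chi_continuous hR) v P.x j).measurable.indicator hAm)
      (fun y => indicator_nonneg (fun y _ => kerP_nonneg hR.cut.nonneg v P.x j y) y) h3 h2v P.x
      (kerP_ind_le hR.cut.nonneg h.v_pos (by linarith) P.x j hA)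
    have e : P.S.avg P.χ v P.x (fun q => ({q : E m × E n | R * v < ‖q.1 - P.x‖}.indicator
          (fun q => (1 + ‖uu P.x v q.1‖ ^ 2) ^ j) q))
        = ∫ q, A.indicator (kerP P.χ v P.x j) q.1 ∂P.S.μ := by
      unfold Sys.avg
      refine integral_congr_ae (Eventually.of_forall fun q => ?_)
      by_cases hq : R * v < ‖q.1 - P.x‖
      · have h4 : q ∈ {q : E m × E n | R * v < ‖q.1 - P.x‖} := hq
        have h5 : q.1 ∈ A := hq
        simp only [indicator_of_mem h4, indicator_of_mem h5]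
        rfl
      · have h4 : q ∉ {q : E m × E n | R * v < ‖q.1 - P.x‖} := hq
        have h5 : q.1 ∉ A := hq
        simp only [indicator_of_notMem h4, indicator_of_notMem h5, mul_zero]
    rw [e]
    refine le_trans h1 ?_
    calc kC m j * Real.exp (-(1 / 8) * R ^ 2) * (P.S.tauav Q P.χ (2 * v) P.x + 2 * Q)
        ≤ kC m j * Real.exp (-(1 / 8) * R ^ 2) * (K1 * 2 ^ J * K1 + 2 * Q) :=
          mul_le_mul_of_nonneg_left htau h3
      _ = _ := by ring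


/-- `Integrable w D ⇒ Integrable (w e) μ`. -/
theorem ctl_integrable_D {S : Sys m n} (hV : S.Valid) {w : E m → ℝ} (hw : Measurable w)
    (hi : Integrable w S.Dm) : Integrable (fun q => w q.1 * S.e q) S.μ := by
  unfold Sys.Dm at hi
  rw [integrable_map_measure hw.aestronglyMeasurable measurable_fst.aemeasurable,
    integrable_withDensity_iff_integrable_smul' hV.meas_e.ennreal_ofReal
      (Eventually.of_forall fun _ => ENNReal.ofReal_lt_top)] at hi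
  refine hi.congr (Eventually.of_forall fun q => ?_)
  simp only [Function.comp, smul_eq_mul, ENNReal.toReal_ofReal (hV.e_nonneg q)]
  ring

theorem ctl_integrable_Lam {S : Sys m n} (hV : S.Valid) {w : E m → ℝ} (hw : Measurable w)
    (hi : Integrable w S.Lm) : Integrable (fun q => w q.1 * S.lam q) S.μ := by
  unfold Sys.Lm at hi
  rw [integrable_map_measure hw.aestronglyMeasurable measurable_fst.aemeasurable,
    integrable_withDensity_iff_integrable_smul' hV.meas_lam.ennreal_ofReal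
      (Eventually.of_forall fun _ => ENNReal.ofReal_lt_top)] at hi
  refine hi.congr (Eventually.of_forall fun q => ?_)
  simp only [Function.comp, smul_eq_mul, ENNReal.toReal_ofReal (hV.lam_nonneg q)]
  ring

/-- `∫ w (e + λ) dμ ≤ ∫ w dτ` for `w ≥ 0`. -/
theorem ctl_DLam_le {S : Sys m n} (hV : S.Valid) (Q : ℕ) {w : E m → ℝ} (hw : Measurable w)
    (h0 : ∀ y, 0 ≤ w y) (hi : Integrable w (S.tau Q)) :
    ∫ q, w q.1 * (S.e q + S.lam q) ∂S.μ ≤ ∫ y, w y ∂(S.tau Q) := by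
  have iD : Integrable w S.Dm := hi.mono_measure (cmpl_Dm_le S Q)
  have iL : Integrable w S.Lm := hi.mono_measure (cmpl_Lm_le S Q)
  have iM : Integrable w (S.absM Q) := hi.mono_measure (ctl_absM_le S Q)
  have e1 : ∫ q, w q.1 * (S.e q + S.lam q) ∂S.μ = S.intD w + S.intLam w := by
    unfold Sys.intD Sys.intLam
    rw [← integral_add (ctl_integrable_D hV hw iD) (ctl_integrable_Lam hV hw iL)]
    refine integral_congr_ae (Eventually.of_forall fun q => ?_)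
    simp only []
    ring
  rw [e1, hV.intD_eq hw, hV.intLam_eq hw]
  unfold Sys.tau
  rw [integral_add_measure (iM.add_measure iD) iL, integral_add_measure iM iD]
  have : 0 ≤ ∫ y, w y ∂(S.absM Q) := integral_nonneg h0
  linarith

/-- conversion: Gaussian averages of `g(y) (e + λ)` are dominated by the `τ`-integral of `g`. -/
theorem ctl_avg_le (P : PD m n Q) {κ Cg : ℝ} (h : P.Ok κ Cg) {v : ℝ} (hv : 0 < v) (g : E m → ℝ)
    (hg : Measurable g) (hg0 : ∀ y, 0 ≤ g y)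
    (hi : Integrable (fun y => Sys.ker P.χ v P.x y * g y) (P.S.tau Q)) :
    P.S.avg P.χ v P.x (fun q => g q.1 * (P.S.e q + P.S.lam q))
      ≤ ∫ y, Sys.ker P.χ v P.x y * g y ∂(P.S.tau Q) := by
  have hR := h.root
  have hkm : Measurable (Sys.ker P.χ v P.x) := by
    unfold Sys.ker
    exact (cmpl_chi_continuous hR).measurable.mul
      ((cmpl_continuous_gauss m v).comp (continuous_id.sub continuous_const)).measurable
  have h1 := ctl_DLam_le hR.hyp.valid Q (hkm.mul hg)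
    (fun y => mul_nonneg (ctl_ker_nonneg hR v P.x y) (hg0 y)) hi
  refine le_trans (le_of_eq ?_) h1
  unfold Sys.avg
  refine integral_congr_ae (Eventually.of_forall fun q => ?_)
  simp only [Pi.mul_apply]
  ring

theorem ctl_lev_small (A p ε : ℝ) (hε : 0 < ε) :
    ∃ L0 : ℝ, 2 ≤ L0 ∧ ∀ L, L0 ≤ L → A * L ^ p * Real.exp (-L) ≤ ε := by
  by_cases hA : A ≤ 0
  · refine ⟨2, le_rfl, fun L hL => ?_⟩
    have h1 : 0 ≤ L ^ p * Real.exp (-L) := by
      have : 0 ≤ L := by linarith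
      positivity
    have : A * (L ^ p * Real.exp (-L)) ≤ 0 := mul_nonpos_of_nonpos_of_nonneg hA h1
    rw [mul_assoc]
    linarith
  · rw [not_le] at hA
    obtain ⟨L0, hL0⟩ := eventually_atTop.1 (ctl_ev_rpow p (ε / A) (div_pos hε hA))
    refine ⟨max L0 2, le_max_right _ _, fun L hL => ?_⟩
    have h1 := hL0 L ((le_max_left _ _).trans hL)
    rw [le_div_iff₀ hA] at h1
    linarith

theorem PD.Ok.closedBall_sub {P : PD m n Q} {κ Cg r : ℝ} (hP : P.Ok κ Cg) (hr : r < 1) :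
    closedBall P.x r ⊆ ball (0 : E m) 2 :=
  (closedBall_subset_ball hr).trans (hP.ball_sub le_rfl)

theorem ctl_cell_num {Cb J δ R d1 c1 v : ℝ} {m : ℕ} (hCb : 0 < Cb) (hR : 0 ≤ R) (hδ : 0 < δ)
    (hv : 0 < v) (hexp : Real.exp (-R) = δ)
    (h3 : Cb * Real.exp 2 * (R + 2) ^ (J + 2 * (m : ℝ)) * Real.exp (-(R + 2)) ≤ d1 * c1 ^ m) :
    Cb * (R + 2) ^ J * δ * ((R + 2) * v) ^ m ≤ d1 * (c1 * v / (1 + R)) ^ m := by
  have hB : 0 < R + 2 := by linarith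
  have h4 : Real.exp 2 * Real.exp (-(R + 2)) = δ := by
    rw [← Real.exp_add, ← hexp]; congr 1; ring
  have h5 : (R + 2) ^ (J + 2 * (m : ℝ)) = (R + 2) ^ J * ((R + 2) ^ m * (R + 2) ^ m) := by
    rw [Real.rpow_add hB, ← pow_add, ← Real.rpow_natCast (R + 2) (m + m)]
    congr 2
    push_cast; ring
  have h6 : Cb * (R + 2) ^ J * δ * ((R + 2) ^ m * (R + 2) ^ m) ≤ d1 * c1 ^ m := by
    calc Cb * (R + 2) ^ J * δ * ((R + 2) ^ m * (R + 2) ^ m)
        = Cb * Real.exp 2 * (R + 2) ^ (J + 2 * (m : ℝ)) * Real.exp (-(R + 2)) := by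
          rw [h5, ← h4]; ring
      _ ≤ _ := h3
  have h7 : (1 + R) ^ m ≤ (R + 2) ^ m := pow_le_pow_left₀ (by linarith) (by linarith) m
  have h8 : 0 < (1 + R) ^ m := by positivity
  have h9 : 0 ≤ Cb * (R + 2) ^ J * δ * (R + 2) ^ m := by positivity
  rw [div_pow, mul_pow, mul_pow, mul_div_assoc', le_div_iff₀ h8]
  calc Cb * (R + 2) ^ J * δ * ((R + 2) ^ m * v ^ m) * (1 + R) ^ m
      = (Cb * (R + 2) ^ J * δ * (R + 2) ^ m) * (1 + R) ^ m * v ^ m := by ring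
    _ ≤ (Cb * (R + 2) ^ J * δ * (R + 2) ^ m) * (R + 2) ^ m * v ^ m := by gcongr
    _ = (Cb * (R + 2) ^ J * δ * ((R + 2) ^ m * (R + 2) ^ m)) * v ^ m := by ring
    _ ≤ (d1 * c1 ^ m) * v ^ m := by gcongr
    _ = _ := by ring

theorem ctl_tail_num {Ct c R Pe : ℝ} (hCt : 0 < Ct) (hc : 0 < c) (hR : 0 < R) (hRc : 1 / c ≤ R)
    (h5 : Ct * R ^ Pe * Real.exp (-R) ≤ 1) : Ct * Real.exp (-c * R ^ 2) ≤ R ^ (-Pe) := by
  have h6 : Real.exp (-c * R ^ 2) ≤ Real.exp (-R) := by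
    apply Real.exp_le_exp.2
    have : 1 ≤ c * R := by
      rw [div_le_iff₀ hc] at hRc
      linarith
    nlinarith
  rw [Real.rpow_neg hR.le]
  have h7 : 0 < R ^ Pe := Real.rpow_pos_of_pos hR _
  rw [le_inv_comm₀ (by positivity) h7, ← one_div, le_div_iff₀ (by positivity)]
  calc R ^ Pe * (Ct * Real.exp (-c * R ^ 2)) ≤ R ^ Pe * (Ct * Real.exp (-R)) := by gcongr
    _ = Ct * R ^ Pe * Real.exp (-R) := by ring
    _ ≤ 1 := h5

/-- the body/tail splitting behind `ctl_wscalar`, with all numerical facts as hypotheses. -/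
theorem ctl_wscalar_aux {P : PD m n Q} {κ Cg K1 J v δ R C X : ℝ} (hP : P.Ok κ Cg)
    (h : P.Ctl K1 J v δ) (hC : 0 ≤ C) (hR0 : 0 ≤ R) (hR3 : (R + 2) * v < 1)
    (htl : ∫ y in (closedBall P.x (R * v))ᶜ, Sys.ker P.χ v P.x y ∂(P.S.tau Q) ≤ X)
    (hbody : ∫ y in closedBall P.x (R * v), gauss m v (y - P.x) ∂(P.S.absM Q)
        ≤ C * ∫ y in closedBall P.x ((R + 2) * v), gauss m v (y - P.x) ∂(P.S.Dm + P.S.Lm)) :
    P.absMv v ≤ C * (P.Dv v + P.Lamv v) + X := by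
  have hR := hP.root
  have hV := hR.hyp.valid
  have hv := h.v_pos
  have hsubB : closedBall P.x ((R + 2) * v) ⊆ ball (0 : E m) 2 := hP.closedBall_sub hR3
  have hsubA : closedBall P.x (R * v) ⊆ ball (0 : E m) 2 :=
    (closedBall_subset_closedBall (by nlinarith)).trans hsubB
  have hki := ctl_ker_integrable (Q := Q) hR v P.x
  have hkM : Integrable (Sys.ker P.χ v P.x) (P.S.absM Q) := hki.mono_measure (ctl_absM_le _ Q)
  have hkD : Integrable (Sys.ker P.χ v P.x) P.S.Dm := hki.mono_measure (cmpl_Dm_le _ Q)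
  have hkL : Integrable (Sys.ker P.χ v P.x) P.S.Lm := hki.mono_measure (cmpl_Lm_le _ Q)
  have hkm : Measurable (Sys.ker P.χ v P.x) := by
    unfold Sys.ker
    exact (cmpl_chi_continuous hR).measurable.mul
      ((cmpl_continuous_gauss m v).comp (continuous_id.sub continuous_const)).measurable
  have h4 : ∫ y in (closedBall P.x (R * v))ᶜ, Sys.ker P.χ v P.x y ∂(P.S.absM Q)
      ≤ ∫ y in (closedBall P.x (R * v))ᶜ, Sys.ker P.χ v P.x y ∂(P.S.tau Q) :=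
    integral_mono_measure (Measure.restrict_mono le_rfl (ctl_absM_le _ Q))
      (Eventually.of_forall fun y => ctl_ker_nonneg hR v P.x y) hki.integrableOn
  have e1 : ∫ y in closedBall P.x (R * v), Sys.ker P.χ v P.x y ∂(P.S.absM Q)
      = ∫ y in closedBall P.x (R * v), gauss m v (y - P.x) ∂(P.S.absM Q) := by
    apply setIntegral_congr_fun isClosed_closedBall.measurableSet
    intro y hy
    simp only [Sys.ker]
    rw [hR.cut.eq_one y (hsubA hy), one_mul]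
  have e2 : ∫ y in closedBall P.x ((R + 2) * v), gauss m v (y - P.x) ∂(P.S.Dm + P.S.Lm)
      = ∫ y in closedBall P.x ((R + 2) * v), Sys.ker P.χ v P.x y ∂(P.S.Dm + P.S.Lm) := by
    apply setIntegral_congr_fun isClosed_closedBall.measurableSet
    intro y hy
    simp only [Sys.ker]
    rw [hR.cut.eq_one y (hsubB hy), one_mul]
  have e3 : ∫ y in closedBall P.x ((R + 2) * v), Sys.ker P.χ v P.x y ∂(P.S.Dm + P.S.Lm)
      ≤ P.Dv v + P.Lamv v := by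
    refine (setIntegral_le_integral (hkD.add_measure hkL)
      (Eventually.of_forall fun y => ctl_ker_nonneg hR v P.x y)).trans (le_of_eq ?_)
    rw [integral_add_measure hkD hkL]
    unfold PD.Dv PD.Lamv Sys.Dav Sys.Lamav
    rw [hV.intD_eq hkm, hV.intLam_eq hkm]
  have e4 : P.absMv v = (∫ y in closedBall P.x (R * v), Sys.ker P.χ v P.x y ∂(P.S.absM Q))
      + ∫ y in (closedBall P.x (R * v))ᶜ, Sys.ker P.χ v P.x y ∂(P.S.absM Q) :=
    (integral_add_compl isClosed_closedBall.measurableSet hkM).symm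
  rw [e4, e1]
  rw [e2] at hbody
  have h10 : C * ∫ y in closedBall P.x ((R + 2) * v), Sys.ker P.χ v P.x y ∂(P.S.Dm + P.S.Lm)
      ≤ C * (P.Dv v + P.Lamv v) := mul_le_mul_of_nonneg_left e3 hC
  linarith

/-- `|M|_v ≤ C0 (D_v + Λ_v) + (lev δ)^{-Pe} δ`.  `C0` depends only on `m n Q Cg`. -/
theorem ctl_wscalar (m n Q : ℕ) (hm : 1 ≤ m) (hQ : 1 ≤ Q) (κ Cg : ℝ) (hκ : 0 < κ) :
    ∃ C0 : ℝ, 0 < C0 ∧ ∀ K1 J Pe : ℝ, 1 ≤ K1 → 0 ≤ J → ∃ T0 : ℝ, ∀ P : PD m n Q,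
      P.Ok κ Cg → T0 ≤ P.T → ∀ v δ, P.Ctl K1 J v δ →
      P.absMv v ≤ C0 * (P.Dv v + P.Lamv v) + lev δ ^ (-Pe) * δ := by
  obtain ⟨C, c1, L, d1, hC, hc1, hL, hLc, hd1, hW⟩ := weighted_scalar m n Q hm Cg
  refine ⟨C, hC, fun K1 J Pe hK1 hJ => ?_⟩
  obtain ⟨Cb, Tb, hCb, hball⟩ := ctl_ball m n Q hm hQ κ Cg K1 J hK1 hJ
  obtain ⟨Ct, c, Tt, hCt, hc, htail⟩ := ctl_tail m n Q hm hQ κ Cg K1 J hK1 hJ 0
  obtain ⟨L1, hL1, hs1⟩ := ctl_lev_small (Cb * Real.exp 2) (J + 2 * m) (d1 * c1 ^ m) (by positivity)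
  obtain ⟨L2, hL2, hs2⟩ := ctl_lev_small Ct Pe 1 one_pos
  obtain ⟨T0, hT0⟩ := eventually_atTop.1
    (ctl_rate m Q hQ (max (max L1 L2) (1 / c) + Real.log K1))
  refine ⟨max (max Tb Tt) T0, fun P hP hT v δ h => ?_⟩
  have hTb : Tb ≤ P.T := ((le_max_left _ _).trans (le_max_left _ _)).trans hT
  have hTt : Tt ≤ P.T := ((le_max_right _ _).trans (le_max_left _ _)).trans hT
  obtain ⟨h2, -, hFN, hF1, hF2, hρ0, hρ1', -⟩ := hT0 P.T ((le_max_right _ _).trans hT)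
  have hρ1 : P.ρ ≤ 1 := hρ1'
  have hR := hP.root
  have hv := h.v_pos
  have hexp : Real.exp (-lev δ) = δ := h.exp_neg_lev
  have hRT : lev δ ≤ P.T / 2 := h.lev_le
  have hRge : max (max L1 L2) (1 / c) ≤ lev δ := by
    have h3 := h.lev_ge hK1
    have h4 : FQ Q P.T ≤ FQ Q P.T ^ 2 := by nlinarith
    linarith
  generalize lev δ = R at *
  have hRL1 : L1 ≤ R := ((le_max_left _ _).trans (le_max_left _ _)).trans hRge
  have hRL2 : L2 ≤ R := ((le_max_right _ _).trans (le_max_left _ _)).trans hRge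
  have hRc : 1 / c ≤ R := (le_max_right _ _).trans hRge
  have hR2 : 2 ≤ R := hL1.trans hRL1
  have hT4 : R + 3 ≤ P.T ^ 4 := by
    have h5 : (2 : ℝ) ^ 3 ≤ P.T ^ 3 := pow_le_pow_left₀ (by norm_num) h2 3
    have h6 : P.T ^ 4 = P.T ^ 3 * P.T := by ring
    nlinarith
  have hδ := h.δ_pos
  have hv1 : v ≤ 1 := by
    have := h.mul_le (t := 1) (by linarith)
    linarith
  have hR3 : (R + 3) * v ≤ P.ρ := h.mul_le hT4
  have hR2v : (R + 2) * v ≤ P.ρ := by nlinarith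
  have htl : ∫ y in (closedBall P.x (R * v))ᶜ, Sys.ker P.χ v P.x y ∂(P.S.tau Q)
      ≤ R ^ (-Pe) * δ := by
    have h3 := htail P hP hTt v δ h R (by linarith)
    simp only [pow_zero, mul_one] at h3
    exact h3.trans (mul_le_mul_of_nonneg_right
      (ctl_tail_num hCt hc (by linarith) hRc (hs2 R hRL2)) hδ.le)
  have hcell : ∀ y : E m, ‖y - P.x‖ ≤ (R + 1) * v →
        ball y (L * (c1 * v / (1 + R))) ⊆ P.S.Ω ∧
        P.S.tau Q (ball y (L * (c1 * v / (1 + R))))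
          ≤ ENNReal.ofReal (d1 * (c1 * v / (1 + R)) ^ m) := by
    intro y hy
    obtain ⟨hb1, hb2⟩ := hball P hP hTb v δ h (R + 2) (by linarith) hR2v
    have hrad : L * (c1 * v / (1 + R)) ≤ v := by
      have h3 : L * (c1 * v / (1 + R)) = (L * c1) * v / (1 + R) := by ring
      rw [h3, div_le_iff₀ (by linarith)]
      nlinarith
    have hsub : ball y (L * (c1 * v / (1 + R))) ⊆ ball P.x ((R + 2) * v) := by
      apply ball_subset_ball'
      rw [dist_eq_norm]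
      linarith
    refine ⟨hsub.trans (hb1.trans ((ball_subset_ball (by norm_num)).trans hR.hyp.room)), ?_⟩
    refine (measure_mono hsub).trans (hb2.trans (ENNReal.ofReal_le_ofReal ?_))
    exact ctl_cell_num hCb (by linarith) hδ hv hexp (hs1 (R + 2) (by linarith))
  have hroom : closedBall P.x ((R + 2) * v) ⊆ P.S.Ω := by
    obtain ⟨hb1, -⟩ := hball P hP hTb v δ h (R + 3) (by linarith) hR3
    exact (closedBall_subset_ball (by nlinarith)).trans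
      (hb1.trans ((ball_subset_ball (by norm_num)).trans hR.hyp.room))
  have hbody := hW P.S hR.hyp.valid hR.hyp.Cg_le P.x v R hv hv1 (by linarith) hroom hcell
  exact ctl_wscalar_aux hP h hC.le (by linarith) (by nlinarith) htl hbody


/-! ## Package Ctl-C : configurations at a controlled scale -/

/-- polynomial factors in the level are absorbed by the density. -/
theorem ctl_small (m n Q : ℕ) (hQ : 1 ≤ Q) (K1 A p ε N : ℝ) (hK1 : 1 ≤ K1) (hε : 0 < ε) :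
    ∃ T0 : ℝ, ∀ P : PD m n Q, T0 ≤ P.T → ∀ J v δ, P.Ctl K1 J v δ →
      2 ≤ P.T ∧ N ≤ P.T ∧ P.ρ ≤ 1 ∧ 2 ≤ lev δ ∧ N ≤ lev δ ∧ A * lev δ ^ p * δ ≤ ε := by
  obtain ⟨L1, hL1, hs1⟩ := ctl_lev_small A p ε hε
  obtain ⟨T0, hT0⟩ := eventually_atTop.1 (ctl_rate m Q hQ (max (max L1 N) 0 + Real.log K1))
  refine ⟨T0, fun P hT J v δ h => ?_⟩
  obtain ⟨h2, hNT, hFN, hF1, hF2, hρ0, hρ1, -⟩ := hT0 P.T hT
  have hge : max (max L1 N) 0 ≤ lev δ := by
    have h3 := h.lev_ge hK1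
    have h4 : FQ Q P.T ≤ FQ Q P.T ^ 2 := by nlinarith
    linarith
  have hL : L1 ≤ lev δ := ((le_max_left _ _).trans (le_max_left _ _)).trans hge
  have hN : N ≤ lev δ := ((le_max_right _ _).trans (le_max_left _ _)).trans hge
  have hlogK : 0 ≤ Real.log K1 := Real.log_nonneg hK1
  have hN' : N ≤ max (max L1 N) 0 := (le_max_right _ _).trans (le_max_left _ _)
  refine ⟨h2, by linarith, hρ1, hL1.trans hL, hN, ?_⟩
  have h5 := hs1 (lev δ) hL
  rwa [h.exp_neg_lev] at h5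

theorem ctl_isMaj_mono {Cg : ℝ} {F : Fix m n Q Cg} {S : Sys m n} {x : E m} {s d d' : ℝ}
    {A : Fin Q → E n} (h : F.IsMaj S x s d A) (hs : 0 ≤ s) (hd : d ≤ d') : F.IsMaj S x s d' A := by
  unfold Fix.IsMaj Sys.IsMajority at h ⊢
  refine le_trans (measure_mono ?_) h
  rintro y ⟨hy1, hy2⟩
  refine ⟨hy1, fun hc => hy2 ?_⟩
  obtain ⟨L, hL1, hL2⟩ := hc
  refine ⟨L, hL1, fun j => (hL2 j).trans ?_⟩
  have := F.Cmaj_pos
  have h3 := Real.sqrt_le_sqrt hd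
  gcongr

/-- existence of a joint witness on `B_v(x)` with local bound `Cl δ`. -/
theorem ctl_list (m n Q : ℕ) (hm : 1 ≤ m) (hQ : 1 ≤ Q) (κ Cg : ℝ) (F : Fix m n Q Cg)
    (K1 J : ℝ) (hK1 : 1 ≤ K1) (hJ : 0 ≤ J) :
    ∃ Cl T0 : ℝ, 1 ≤ Cl ∧ ∀ P : PD m n Q, P.Ok κ Cg → T0 ≤ P.T → ∀ v δ, P.Ctl K1 J v δ →
      ∃ A : Fin Q → E n, F.IsWit P.S P.x v (Cl * δ) A := by
  obtain ⟨Cb, Tb, hCb, hball⟩ := ctl_ball m n Q hm hQ κ Cg K1 J hK1 hJ
  have hc := F.c_gt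
  set Cl : ℝ := max 1 (Cb * F.c ^ J * F.c ^ m) with hCl
  obtain ⟨T0, hT0⟩ := ctl_small m n Q hQ K1 Cl 0 F.d0 F.c hK1 F.d0_pos
  refine ⟨Cl, max Tb T0, le_max_left _ _, fun P hP hT v δ h => ?_⟩
  obtain ⟨h2, hcT, hρ1, hl2, -, hsm⟩ := hT0 P ((le_max_right _ _).trans hT) J v δ h
  have hR := hP.root
  have hv := h.v_pos
  have hδ := h.δ_pos
  have hCl1 : 1 ≤ Cl := le_max_left _ _
  have hT4 : P.T ≤ P.T ^ 4 := by
    have h5 : (1 : ℝ) ≤ P.T ^ 3 := one_le_pow₀ (by linarith)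
    have h6 : P.T ^ 4 = P.T ^ 3 * P.T := by ring
    nlinarith
  have hcv : F.c * v ≤ P.ρ := h.mul_le (hcT.trans hT4)
  obtain ⟨hb1, hb2⟩ := hball P hP ((le_max_left _ _).trans hT) v δ h F.c (by linarith) hcv
  have hv1 : v ≤ 1 := by nlinarith
  rw [Real.rpow_zero, mul_one] at hsm
  refine F.cfg P.S hR.hyp.valid hR.hyp.Cg_le P.x v (Cl * δ) hv hv1 (by positivity) hsm
    (hb1.trans ((ball_subset_ball (by norm_num)).trans hR.hyp.room))
    (hb2.trans (ENNReal.ofReal_le_ofReal ?_))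
  have h7 : Cb * F.c ^ J * F.c ^ m ≤ Cl := le_max_right _ _
  calc Cb * F.c ^ J * δ * (F.c * v) ^ m = (Cb * F.c ^ J * F.c ^ m) * (δ * v ^ m) := by
        rw [mul_pow]; ring
    _ ≤ Cl * (δ * v ^ m) := mul_le_mul_of_nonneg_right h7 (by positivity)
    _ = _ := by ring

/-- the hypotheses of `dilation_witness` and `gauss_moment` at a controlled scale. -/
theorem ctl_dil_hyp (m n Q : ℕ) (hm : 1 ≤ m) (hQ : 1 ≤ Q) (κ Cg : ℝ) (F : Fix m n Q Cg)
    (K1 J Cl : ℝ) (hK1 : 1 ≤ K1) (hJ : 0 ≤ J) (hCl : 1 ≤ Cl) :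
    ∃ K1g T0 : ℝ, 1 ≤ K1g ∧ ∀ P : PD m n Q, P.Ok κ Cg → T0 ≤ P.T → ∀ v δ, P.Ctl K1 J v δ →
      1 ≤ lev δ ^ 2 ∧ lev δ ^ 2 * v ≤ 1 ∧ ∀ t : ℝ, 1 ≤ t → t ≤ lev δ ^ 2 →
        ball P.x (F.c * (t * v)) ⊆ P.S.Ω ∧ K1g * t ^ J * (Cl * δ) ≤ F.d0 ∧
        P.S.tau Q (ball P.x (F.c * (t * v)))
          ≤ ENNReal.ofReal (K1g * t ^ J * (Cl * δ) * (t * v) ^ m) := by
  obtain ⟨Cb, Tb, hCb, hball⟩ := ctl_ball m n Q hm hQ κ Cg K1 J hK1 hJ
  have hc := F.c_gt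
  set K1g : ℝ := max 1 (Cb * F.c ^ J * F.c ^ m) with hK1g
  have hK1g1 : 1 ≤ K1g := le_max_left _ _
  obtain ⟨T0, hT0⟩ := ctl_small m n Q hQ K1 (K1g * Cl) (2 * J) F.d0 F.c hK1 F.d0_pos
  refine ⟨K1g, max Tb T0, hK1g1, fun P hP hT v δ h => ?_⟩
  obtain ⟨h2, hcT, hρ1, hl2, -, hsm⟩ := hT0 P ((le_max_right _ _).trans hT) J v δ h
  have hR := hP.root
  have hv := h.v_pos
  have hδ := h.δ_pos
  have hlT := h.lev_le
  generalize lev δ = L at *
  have hL2 : L ^ 2 ≤ P.T ^ 2 := pow_le_pow_left₀ (by linarith) (by linarith) 2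
  have hT2 : (1 : ℝ) ≤ P.T ^ 2 := one_le_pow₀ (by linarith)
  have hcL : F.c * L ^ 2 ≤ P.T ^ 4 := by
    have h6 : P.T ^ 4 = P.T * P.T ^ 2 * P.T := by ring
    have h7 : F.c * L ^ 2 ≤ P.T * P.T ^ 2 := mul_le_mul hcT hL2 (by positivity) (by linarith)
    have h8 : 0 ≤ P.T * P.T ^ 2 := by positivity
    nlinarith
  refine ⟨by nlinarith, ?_, fun t ht1 ht => ?_⟩
  · have := h.mul_le (t := L ^ 2) (by nlinarith)
    linarith
  · have hct : F.c * t ≤ P.T ^ 4 := le_trans (mul_le_mul_of_nonneg_left ht (by linarith)) hcL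
    have hctv : F.c * t * v ≤ P.ρ := h.mul_le hct
    obtain ⟨hb1, hb2⟩ := hball P hP ((le_max_left _ _).trans hT) v δ h (F.c * t) (by nlinarith) hctv
    rw [mul_assoc] at hb1 hb2
    have ht0 : 0 < t := by linarith
    refine ⟨hb1.trans ((ball_subset_ball (by norm_num)).trans hR.hyp.room), ?_,
      hb2.trans (ENNReal.ofReal_le_ofReal ?_)⟩
    · refine le_trans ?_ hsm
      have h9 : t ^ J ≤ L ^ (2 * J) := by
        rw [Real.rpow_mul (by linarith), Real.rpow_two]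
        exact Real.rpow_le_rpow ht0.le ht hJ
      calc K1g * t ^ J * (Cl * δ) = (K1g * Cl) * t ^ J * δ := by ring
        _ ≤ (K1g * Cl) * L ^ (2 * J) * δ := by gcongr
    · have h7 : Cb * F.c ^ J * F.c ^ m ≤ K1g := le_max_right _ _
      have h10 : 0 ≤ t ^ J * δ * (t * v) ^ m := by positivity
      calc Cb * (F.c * t) ^ J * δ * (F.c * (t * v)) ^ m
          = (Cb * F.c ^ J * F.c ^ m) * (t ^ J * δ * (t * v) ^ m) := by
            rw [mul_pow, Real.mul_rpow (by linarith) ht0.le]; ring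
        _ ≤ K1g * (t ^ J * δ * (t * v) ^ m) := mul_le_mul_of_nonneg_right h7 h10
        _ ≤ K1g * (Cl * (t ^ J * δ * (t * v) ^ m)) := by
            apply mul_le_mul_of_nonneg_left _ (by linarith)
            nlinarith
        _ = _ := by ring

/-- Gaussian-summed moments of the distance to a majority list, on the body `|u| ≤ (lev δ)²`. -/
theorem ctl_moment (m n Q : ℕ) (hm : 1 ≤ m) (hQ : 1 ≤ Q) (κ Cg : ℝ) (F : Fix m n Q Cg)
    (K1 J Cl : ℝ) (hK1 : 1 ≤ K1) (hJ : 0 ≤ J) (hCl : 1 ≤ Cl) :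
    ∃ (Cp' : ℝ → ℝ) (T0 : ℝ), ∀ P : PD m n Q, P.Ok κ Cg → T0 ≤ P.T → ∀ v δ, P.Ctl K1 J v δ →
      ∀ A : Fin Q → E n, F.IsMaj P.S P.x v (Cl * δ) A → ∀ p : ℝ, (p = 2 ∨ AdmP m p) →
      ∫ q in ball P.x (lev δ ^ 2 * v) ×ˢ (univ : Set (E n)),
          gauss m v (q.1 - P.x) * Sys.distA A q.2 ^ p ∂P.S.μ
        ≤ (Cp' p * v * Real.sqrt δ) ^ p := by
  obtain ⟨K1g, T0, hK1g, hyp⟩ := ctl_dil_hyp m n Q hm hQ κ Cg F K1 J Cl hK1 hJ hCl
  obtain ⟨Cp', hG⟩ := gauss_moment m n Q hm hQ Cg F K1g J hK1g hJ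
  refine ⟨fun p => Cp' p * Real.sqrt Cl, T0, fun P hP hT v δ h A hA p hp => ?_⟩
  obtain ⟨h1, h2, h3⟩ := hyp P hP hT v δ h
  have hR := hP.root
  have hδ := h.δ_pos
  have hd0 : 0 ≤ Cl * δ := by positivity
  have hA' : F.IsMaj P.S P.x v (K1g * (Cl * δ)) A := ctl_isMaj_mono hA h.v_pos.le (by nlinarith)
  have h4 := hG P.S hR.hyp.valid hR.hyp.Cg_le P.x v (Cl * δ) (lev δ ^ 2) h.v_pos hd0 h1 h2 h3 A hA' p hp
  refine h4.trans (le_of_eq ?_)
  rw [Real.sqrt_mul (by linarith)]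
  congr 1
  ring

/-- support heights on the dilations `t ≤ (lev δ)²`. -/
theorem ctl_support (m n Q : ℕ) (hm : 1 ≤ m) (hQ : 1 ≤ Q) (κ Cg : ℝ) (F : Fix m n Q Cg)
    (K1 J Cl : ℝ) (hK1 : 1 ≤ K1) (hJ : 0 ≤ J) (hCl : 1 ≤ Cl) :
    ∃ (J' : ℝ) (Cβ' : ℝ → ℝ) (T0 : ℝ), 0 ≤ J' ∧ ∀ P : PD m n Q, P.Ok κ Cg → T0 ≤ P.T →
      ∀ v δ, P.Ctl K1 J v δ → ∀ A : Fin Q → E n, F.IsMaj P.S P.x v (Cl * δ) A →
      ∀ β : ℝ, AdmB m β → ∀ t : ℝ, 1 ≤ t → t ≤ lev δ ^ 2 →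
      ∀ q ∈ P.S.spt, q.1 ∈ ball P.x (t * v) →
        Sys.distA A q.2 ≤ Cβ' β * t ^ J' * v * δ ^ β := by
  obtain ⟨K1g, T0, hK1g, hyp⟩ := ctl_dil_hyp m n Q hm hQ κ Cg F K1 J Cl hK1 hJ hCl
  obtain ⟨J', Cp', Cβ', hJ', hG⟩ := dilation_witness m n Q hm hQ Cg F K1g J hK1g hJ
  refine ⟨J', fun β => Cβ' β * Cl ^ β, T0, hJ', fun P hP hT v δ h A hA β hβ t ht1 ht q hq hqb => ?_⟩
  obtain ⟨h1, h2, h3⟩ := hyp P hP hT v δ h
  have hR := hP.root
  have hδ := h.δ_pos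
  have hd0 : 0 ≤ Cl * δ := by positivity
  have hA' : F.IsMaj P.S P.x v (K1g * (Cl * δ)) A := ctl_isMaj_mono hA h.v_pos.le (by nlinarith)
  have h4 := (hG P.S hR.hyp.valid hR.hyp.Cg_le P.x v (Cl * δ) (lev δ ^ 2) h.v_pos hd0 h1 h2 h3 A hA'
    t ht1 ht).2 β hβ q hq hqb
  refine h4.trans (le_of_eq ?_)
  rw [Real.mul_rpow (by linarith) hδ.le]
  ring

end Claimed.Agent.R322.Sx
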