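import Claimed.Agent.R322.Sx.Env.C3
import Claimed.Agent.R322.Sx.Env.C4

/-!
# R322 / Sx / Env : the bank inequalities AE (5.5) and the future envelope (AE Lemma 5.2)

The package lives in `Sx/Env/*.lean` (see the header of `Env/Defs.lean`); this file contains the glue.

Order of constants: `K > 2m + 100` first; `C0` of `ctl_wscalar` depends only on `m n Q Cg`
(NOT on `C_Q`: AE Lemma 6.1 takes `C_Q` large compared with `C0`); then `C_Q ≥ CQ0`; then `C`, `T0`.
The body/tail arguments at a maximising scale in the proof of `envelope` are the statements of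
`Ctl.lean` with `δ = τ_v`, `J = K - 2`, `K1 = 1` (AE (5.9)).
-/

set_option autoImplicit false
set_option linter.unusedVariables false

namespace Claimed.Agent.R322.Sx

open MeasureTheory Set Metric
open scoped ENNReal NNReal InnerProductSpace

variable {m n Q : ℕ}

theorem lev_exp_neg (a : ℝ) : lev (Real.exp (-a)) = a := by
  simp [lev]

/-- **AE Lemma 5.2 (future envelope).** -/
theorem envelope (m n Q : ℕ) (hm : 1 ≤ m) (hQ : 1 ≤ Q) (κ Cg : ℝ) (hκ : 0 < κ) (K : ℝ)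
    (hK : 2 * (m : ℝ) + 100 < K) :
    ∃ CQ0 : ℝ, ∀ CQ : ℝ, CQ0 ≤ CQ → ∃ C T0 : ℝ, 0 < C ∧ ∀ P : PD m n Q, P.K = K → P.CQ = CQ →
      P.Ok κ Cg → T0 ≤ P.T → EnvOut P C := by
  have hm0 : (0 : ℝ) ≤ m := Nat.cast_nonneg m
  have hK0 : 0 < K := by linarith
  refine ⟨1, fun CQ hCQ => ?_⟩
  obtain ⟨Tb, hb⟩ := bank m n Q hm hQ κ Cg hκ
  obtain ⟨C1, T1, hC1, h1⟩ := env_dil m n Q hm hQ κ Cg hκ K CQ hK hCQ
  obtain ⟨C2, T2, hC2, h2⟩ := env_levels m n Q hm hQ κ Cg hκ K CQ hK hCQ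
  obtain ⟨C3, T3, hC3, h3⟩ := env_reg m n Q hm hQ κ Cg K CQ C1 hK
  obtain ⟨C4, hC4, h4⟩ := env_lip m n Q κ Cg K C3 hK0
  obtain ⟨T5, hT5, h5⟩ := env_room m Q 4 hm hQ
  refine ⟨max (max C1 C2) (max C3 C4), max (max Tb T1) (max (max T2 T3) T5),
    lt_of_lt_of_le hC1 ((le_max_left _ _).trans (le_max_left _ _)), fun P hPK hPC hOk hT => ?_⟩
  set C := max (max C1 C2) (max C3 C4) with hC
  have c1 : C1 ≤ C := (le_max_left _ _).trans (le_max_left _ _)
  have c2 : C2 ≤ C := (le_max_right _ _).trans (le_max_left _ _)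
  have c3 : C3 ≤ C := (le_max_left _ _).trans (le_max_right _ _)
  have c4 : C4 ≤ C := (le_max_right _ _).trans (le_max_right _ _)
  have tb : Tb ≤ P.T := ((le_max_left _ _).trans (le_max_left _ _)).trans hT
  have t1 : T1 ≤ P.T := ((le_max_right _ _).trans (le_max_left _ _)).trans hT
  have t2 : T2 ≤ P.T := (((le_max_left _ _).trans (le_max_left _ _)).trans (le_max_right _ _)).trans hT
  have t3 : T3 ≤ P.T := (((le_max_right _ _).trans (le_max_left _ _)).trans (le_max_right _ _)).trans hT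
  have t5 : T5 ≤ P.T := ((le_max_right _ _).trans (le_max_right _ _)).trans hT
  have hB : Bank P := hb P hOk (by rw [hPC]; linarith) tb
  obtain ⟨l1, l2, l3, l4, l5, l6, l7⟩ := h2 P hPK hPC hOk hB t2
  have hTp : 0 < P.T := by linarith
  -- facts on the path
  have pos : ∀ s ∈ P.path, 0 < s := fun s hs => P.pos_of_path hOk hs
  have sb_le : ∀ s ∈ P.path, P.sb ≤ s := fun s hs => hOk.sb_le.trans hs.1
  have le_ρ : ∀ s ∈ P.path, s ≤ P.ρ := fun s hs => hs.2.trans l2.le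
  have a_le : ∀ s ∈ P.path, P.a s ≤ P.T / 2 := fun s hs => by
    rcases lt_or_eq_of_le hs.2 with h6 | h6
    · exact (l4 s hs.1 h6).le
    · rw [h6, l3]
  have I_ge : ∀ s ∈ P.path, s ^ 2 * Real.exp (-P.T / 2) ≤ P.I s := fun s hs => by
    have := (P.a_le_iff hOk (pos s hs) _).1 (a_le s hs)
    rwa [← neg_div] at this
  have I_le : ∀ s ∈ P.path, P.I s ≤ s ^ 2 * P.dst := fun s hs =>
    (P.le_a_iff hOk (pos s hs) _).1 (l6 s (sb_le s hs) (le_ρ s hs))
  have room : ∀ s ∈ P.path, s * P.T ^ 4 ≤ P.ρ := fun s hs =>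
    (mul_le_mul_of_nonneg_right (l7 s hs) (by positivity)).trans (h5 P.T t5)
  have dil : ∀ s ∈ P.path, ∀ v, s ≤ v → v ≤ P.ρ → v ^ 2 * P.tau v ≤ C1 * (v / s) ^ K * P.I s :=
    fun s hs => h1 P hPK hPC hOk hB t1 s (sb_le s hs) (le_ρ s hs) (Or.inr (I_ge s hs))
  have reg : ∀ s ∈ P.path, |P.Adot s| + |P.Zdot s| + |P.Zddot s| ≤ C3 * P.I s := fun s hs =>
    h3 P hPK hPC hOk t3 s (sb_le s hs) (room s hs) (I_ge s hs) (I_le s hs) (dil s hs)
  have lip := h4 P hPK hOk P.s0 P.sst (P.s0_pos hOk) l1.le l2 reg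
  have logn : ∀ s ∈ P.path, ∀ s', s ≤ s' → 0 ≤ Real.log (s' / s) := fun s hs s' hss =>
    Real.log_nonneg ((one_le_div (pos s hs)).2 hss)
  refine ⟨l1, l2, l3, l4, l5.trans c2, fun s hs => ?_, fun s hs v hv hvρ => ?_, fun s hs => ?_,
    fun s hs s' hs' hss => ?_, fun s hs s' hs' hss => ?_, l7, fun s hs => ?_⟩
  · have := l6 s (sb_le s hs) (le_ρ s hs)
    have : 0 < C := lt_of_lt_of_le hC1 c1
    linarith
  · rw [hPK]
    refine (dil s hs v hv hvρ).trans ?_
    have hp : 0 ≤ (v / s) ^ K := Real.rpow_nonneg (div_nonneg ((pos s hs).le.trans hv) (pos s hs).le) _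
    have hI := (P.I_pos hOk (pos s hs)).le
    exact mul_le_mul_of_nonneg_right (mul_le_mul_of_nonneg_right c1 hp) hI
  · exact (reg s hs).trans (mul_le_mul_of_nonneg_right c3 (P.I_pos hOk (pos s hs)).le)
  · exact ((lip s hs s' hs' hss).1).trans (mul_le_mul_of_nonneg_right c4 (logn s hs s' hss))
  · exact ((lip s hs s' hs' hss).2).trans (mul_le_mul_of_nonneg_right c4 (logn s hs s' hss))
  · have h6 := I_ge s hs
    have h7 : Real.exp (-P.T / 2) * Real.exp (-P.T / 2) = P.d := by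
      unfold PD.d
      rw [← Real.exp_add]
      congr 1
      ring
    have h8 := P.η_le_one
    have h9 := P.d_pos
    have h10 : 0 ≤ s ^ 2 := sq_nonneg s
    calc s ^ 2 * P.η * P.d ≤ s ^ 2 * 1 * P.d :=
          mul_le_mul_of_nonneg_right (mul_le_mul_of_nonneg_left h8 h10) h9.le
      _ = Real.exp (-P.T / 2) * (s ^ 2 * Real.exp (-P.T / 2)) := by rw [← h7]; ring
      _ ≤ _ := mul_le_mul_of_nonneg_left h6 (Real.exp_pos _).le

/-- the scales of the path are controlled, with density `e^{-a(s)}` and exponent `K - 2`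
(AE (5.6)); hence all statements of `Ctl.lean` hold on the path (`lev (e^{-a}) = a`,
`s² e^{-a(s)} = I(s)`).  In particular `ctl_wscalar` is AE (5.8). -/
theorem ctl_path (m n Q : ℕ) (hm : 1 ≤ m) (hQ : 1 ≤ Q) (κ Cg K C : ℝ)
    (hK : 2 * (m : ℝ) + 100 < K) :
    ∃ K1 T0 : ℝ, 1 ≤ K1 ∧ ∀ P : PD m n Q, P.K = K → P.Ok κ Cg → EnvOut P C → T0 ≤ P.T →
      ∀ s ∈ P.path, P.Ctl K1 (K - 2) s (Real.exp (-P.a s)) := by
  obtain ⟨T5, hT5, h5⟩ := env_room m Q 4 hm hQ
  refine ⟨max (max 1 C) (Real.exp C), T5, (le_max_left _ _).trans (le_max_left _ _),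
    fun P hPK hOk hE hT s hs => ?_⟩
  have hs0 : 0 < s := P.pos_of_path hOk hs
  have hTp : 0 < P.T := by linarith
  have k1 : C ≤ max (max 1 C) (Real.exp C) := (le_max_right _ _).trans (le_max_left _ _)
  have k2 : Real.exp C ≤ max (max 1 C) (Real.exp C) := le_max_right _ _
  refine ⟨hs0, (mul_le_mul_of_nonneg_right (hE.small s hs) (by positivity)).trans (h5 P.T hT),
    fun t ht htρ => ?_, ?_, ?_⟩
  · have ht0 : 0 < t := lt_of_lt_of_le hs0 ht
    have h1 := hE.dil s hs t ht htρ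
    rw [hPK, ← P.exp_neg_a hOk hs0] at h1
    have hx : 0 < t / s := div_pos ht0 hs0
    have e : (t / s) ^ (K - 2) = (t / s) ^ K / (t / s) ^ 2 := by
      rw [Real.rpow_sub hx, Real.rpow_two]
    have hp : 0 ≤ (t / s) ^ (K - 2) * Real.exp (-P.a s) :=
      mul_nonneg (Real.rpow_nonneg hx.le _) (Real.exp_pos _).le
    have h2 : P.tau t ≤ C * ((t / s) ^ (K - 2) * Real.exp (-P.a s)) := by
      rw [e]
      have h3 : C * ((t / s) ^ K / (t / s) ^ 2 * Real.exp (-P.a s))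
          = (C * (t / s) ^ K * (s ^ 2 * Real.exp (-P.a s))) / t ^ 2 := by
        field_simp
      rw [h3, le_div_iff₀ (by positivity)]
      linarith
    calc P.tau t ≤ C * ((t / s) ^ (K - 2) * Real.exp (-P.a s)) := h2
      _ ≤ max (max 1 C) (Real.exp C) * ((t / s) ^ (K - 2) * Real.exp (-P.a s)) :=
          mul_le_mul_of_nonneg_right k1 hp
      _ = _ := by ring
  · have h1 := hE.a_ge s hs
    calc Real.exp (-P.a s) ≤ Real.exp (C + -P.a0) := Real.exp_le_exp.2 (by linarith)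
      _ = Real.exp C * P.dst := by rw [Real.exp_add]; rfl
      _ ≤ _ := mul_le_mul_of_nonneg_right k2 P.dst_pos.le
  · apply Real.exp_le_exp.2
    have : P.a s ≤ P.T / 2 := by
      rcases lt_or_eq_of_le hs.2 with h6 | h6
      · exact (hE.a_lt s hs.1 h6).le
      · rw [h6, hE.a_sst]
    linarith

end Claimed.Agent.R322.Sx
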