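import Claimed.Agent.R322.Sx.Path
import Claimed.Agent.R322.Pack033

/-!
# R322 / Sx / Trunc : truncated measures of a root, used in the completion of AE Theorem 3.1

Tools for `Sx/Main.lean` (prefix `cmpl_`): elementary facts on `gauss`, `gav`; the truncated measures
`τ' = χ τ`, `L'_+ = χ · 2 M⁺`, `L'_- = χ (2 M⁻ + D + C_Q Λ)` of a root; identification of their Euclidean
Gaussian averages with `tauav`, `Lav - C_Q Lamav`; joint continuity of `(v, x) ↦ τ_v(x)`; measurability of `chainEnd`;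
the numerical facts on `F_Q(T)` used at the end of AE Section 6.
-/

set_option autoImplicit false

namespace Claimed.Agent.R322.Sx

open MeasureTheory Set Metric Filter Topology
open scoped ENNReal NNReal InnerProductSpace

/-! ### The Gaussian -/

theorem cmpl_gauss_nonneg (m : ℕ) (s : ℝ) (z : E m) : 0 ≤ gauss m s z := by
  unfold gauss
  positivity

theorem cmpl_gauss_le (m : ℕ) (s : ℝ) (z : E m) :
    gauss m s z ≤ (2 * Real.pi * s ^ 2) ^ (-(m : ℝ) / 2) := by
  unfold gauss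
  have h1 : Real.exp (-‖z‖ ^ 2 / (2 * s ^ 2)) ≤ 1 := by
    apply Real.exp_le_one_iff.2
    apply div_nonpos_of_nonpos_of_nonneg
    · have := sq_nonneg ‖z‖
      linarith
    · positivity
  have h0 : 0 ≤ (2 * Real.pi * s ^ 2) ^ (-(m : ℝ) / 2) := by positivity
  exact mul_le_of_le_one_right h0 h1

/-- the sup of the Gaussian decreases with the scale. -/
theorem cmpl_gmax_anti (m : ℕ) {σ v : ℝ} (hσ : 0 < σ) (hv : σ ≤ v) :
    (2 * Real.pi * v ^ 2) ^ (-(m : ℝ) / 2) ≤ (2 * Real.pi * σ ^ 2) ^ (-(m : ℝ) / 2) := by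
  apply Real.rpow_le_rpow_of_nonpos (by positivity)
  · have : σ ^ 2 ≤ v ^ 2 := pow_le_pow_left₀ hσ.le hv 2
    have hpi := Real.pi_pos
    nlinarith
  · have : (0 : ℝ) ≤ m := Nat.cast_nonneg m
    linarith

theorem cmpl_continuousOn_gauss (m : ℕ) :
    ContinuousOn (fun p : ℝ × E m => gauss m p.1 p.2) {p | 0 < p.1} := by
  unfold gauss
  apply ContinuousOn.mul
  · apply ContinuousOn.rpow_const
    · fun_prop
    · intro p hp
      left
      have hp' : 0 < p.1 := hp
      positivity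
  · apply Real.continuous_exp.comp_continuousOn
    apply ContinuousOn.div
    · fun_prop
    · fun_prop
    · intro p hp
      have hp' : 0 < p.1 := hp
      positivity

theorem cmpl_continuous_gauss (m : ℕ) (s : ℝ) : Continuous (gauss m s) := by
  unfold gauss
  fun_prop

theorem cmpl_gav_nonneg {m : ℕ} (ρ : Measure (E m)) (s : ℝ) (x : E m) : 0 ≤ gav ρ s x :=
  integral_nonneg fun _ => cmpl_gauss_nonneg m s _

theorem cmpl_integrable_gauss {m : ℕ} (ρ : Measure (E m)) [IsFiniteMeasure ρ] (s : ℝ) (x : E m) :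
    Integrable (fun y => gauss m s (y - x)) ρ := by
  refine Integrable.of_bound (C := (2 * Real.pi * s ^ 2) ^ (-(m : ℝ) / 2)) ?_ ?_
  · exact ((cmpl_continuous_gauss m s).comp (continuous_id.sub continuous_const)).aestronglyMeasurable
  · refine Eventually.of_forall fun y => ?_
    rw [Real.norm_of_nonneg (cmpl_gauss_nonneg m s _)]
    exact cmpl_gauss_le m s _

theorem cmpl_gav_le_mass {m : ℕ} (ρ : Measure (E m)) [IsFiniteMeasure ρ] (s : ℝ) (x : E m) :
    gav ρ s x ≤ (2 * Real.pi * s ^ 2) ^ (-(m : ℝ) / 2) * (ρ univ).toReal := by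
  unfold gav
  calc ∫ y, gauss m s (y - x) ∂ρ ≤ ∫ _y, (2 * Real.pi * s ^ 2) ^ (-(m : ℝ) / 2) ∂ρ :=
        integral_mono (cmpl_integrable_gauss ρ s x) (integrable_const _) fun y => cmpl_gauss_le m s _
    _ = (2 * Real.pi * s ^ 2) ^ (-(m : ℝ) / 2) * (ρ univ).toReal := by
        rw [integral_const, smul_eq_mul, mul_comm]
        rfl

/-- monotonicity of Gaussian averages in the measure. -/
theorem cmpl_gav_mono {m : ℕ} {ρ ρ' : Measure (E m)} [IsFiniteMeasure ρ'] (h : ρ ≤ ρ') (s : ℝ) (x : E m) :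
    gav ρ s x ≤ gav ρ' s x :=
  integral_mono_measure h (Eventually.of_forall fun _ => cmpl_gauss_nonneg m s _)
    (cmpl_integrable_gauss ρ' s x)

theorem cmpl_gav_smul {m : ℕ} (ρ : Measure (E m)) (c : ℝ≥0∞) (s : ℝ) (x : E m) :
    gav (c • ρ) s x = c.toReal * gav ρ s x := by
  unfold gav
  rw [integral_smul_measure, smul_eq_mul]

/-- Gaussian average of a measure with density `χ`. -/
theorem cmpl_gav_withDensity {m : ℕ} (ρ : Measure (E m)) {χ : E m → ℝ} (hχ : Measurable χ)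
    (h0 : ∀ y, 0 ≤ χ y) (s : ℝ) (x : E m) :
    gav (ρ.withDensity fun y => ENNReal.ofReal (χ y)) s x = ∫ y, Sys.ker χ s x y ∂ρ := by
  unfold gav Sys.ker
  rw [integral_withDensity_eq_integral_toReal_smul hχ.ennreal_ofReal
    (Eventually.of_forall fun _ => ENNReal.ofReal_lt_top)]
  refine integral_congr_ae (Eventually.of_forall fun y => ?_)
  simp only [smul_eq_mul, ENNReal.toReal_ofReal (h0 y)]

/-! ### The truncated measures of a root -/

section Root

variable {m n : ℕ} {S : Sys m n} {Q : ℕ} {κ Cg T : ℝ} {χ : E m → ℝ}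

theorem cmpl_chi_continuous (hR : Root S Q κ Cg T χ) : Continuous χ := hR.cut.smooth.continuous

theorem cmpl_chi_zero (hR : Root S Q κ Cg T χ) {y : E m} (hy : y ∉ closedBall (0 : E m) 3) : χ y = 0 := by
  apply image_eq_zero_of_notMem_tsupport
  intro h
  have := hR.cut.supp h
  norm_num at this
  exact hy (by simpa using this)

theorem cmpl_K_subset (hR : Root S Q κ Cg T χ) : closedBall (0 : E m) 3 ⊆ S.Ω :=
  (closedBall_subset_ball (by norm_num)).trans hR.hyp.room

theorem cmpl_tau_K_le (hR : Root S Q κ Cg T χ) :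
    S.tau Q (closedBall (0 : E m) 3) ≤ ENNReal.ofReal (Real.exp (-T)) :=
  (measure_mono (closedBall_subset_ball (by norm_num))).trans hR.hyp.small

theorem cmpl_tauT_univ_le (hR : Root S Q κ Cg T χ) :
    S.tauT Q χ univ ≤ ENNReal.ofReal (Real.exp (-T)) := by
  unfold Sys.tauT
  rw [withDensity_apply _ MeasurableSet.univ, Measure.restrict_univ]
  calc ∫⁻ y, ENNReal.ofReal (χ y) ∂(S.tau Q)
      ≤ ∫⁻ y, (closedBall (0 : E m) 3).indicator (fun _ => (1 : ℝ≥0∞)) y ∂(S.tau Q) := by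
        apply lintegral_mono
        intro y
        by_cases hy : y ∈ closedBall (0 : E m) 3
        · rw [indicator_of_mem hy]
          exact ENNReal.ofReal_le_one.2 (hR.cut.le_one y)
        · simp [cmpl_chi_zero hR hy]
    _ = S.tau Q (closedBall (0 : E m) 3) := by
        rw [lintegral_indicator isClosed_closedBall.measurableSet, lintegral_one, Measure.restrict_apply_univ]
    _ ≤ _ := cmpl_tau_K_le hR

theorem cmpl_tauT_finite (hR : Root S Q κ Cg T χ) : IsFiniteMeasure (S.tauT Q χ) :=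
  ⟨lt_of_le_of_lt (cmpl_tauT_univ_le hR) ENNReal.ofReal_lt_top⟩

theorem cmpl_tauT_mass (hR : Root S Q κ Cg T χ) : (S.tauT Q χ univ).toReal ≤ Real.exp (-T) :=
  ENNReal.toReal_le_of_le_ofReal (Real.exp_pos _).le (cmpl_tauT_univ_le hR)

theorem cmpl_tauT_compl (hR : Root S Q κ Cg T χ) : S.tauT Q χ (closedBall (0 : E m) (4 * 1))ᶜ = 0 := by
  unfold Sys.tauT
  rw [withDensity_apply _ isClosed_closedBall.measurableSet.compl]
  apply setLIntegral_eq_zero isClosed_closedBall.measurableSet.compl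
  intro y hy
  have : y ∉ closedBall (0 : E m) 3 := fun h => hy (closedBall_subset_closedBall (by norm_num) h)
  simp [cmpl_chi_zero hR this]

/-- bounded measurable functions times `χ` are `τ`-integrable. -/
theorem cmpl_integrable_chi_mul (hR : Root S Q κ Cg T χ) {f : E m → ℝ} (hf : Measurable f) (C : ℝ)
    (hb : ∀ y, |f y| ≤ C) : Integrable (fun y => χ y * f y) (S.tau Q) := by
  have hsupp : Function.support (fun y => χ y * f y) ⊆ closedBall (0 : E m) 3 := by
    intro y hy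
    by_contra h
    exact hy (by simp [cmpl_chi_zero hR h])
  rw [← integrableOn_iff_integrable_of_support_subset hsupp]
  refine Measure.integrableOn_of_bounded (M := C) (lt_of_le_of_lt (cmpl_tau_K_le hR) ENNReal.ofReal_lt_top).ne
    ((cmpl_chi_continuous hR).measurable.mul hf).aestronglyMeasurable (Eventually.of_forall fun y => ?_)
  rw [Real.norm_eq_abs, abs_mul, abs_of_nonneg (hR.cut.nonneg y)]
  calc χ y * |f y| ≤ 1 * C := mul_le_mul (hR.cut.le_one y) (hb y) (abs_nonneg _) zero_le_one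
    _ = C := one_mul _

theorem cmpl_gav_tauT (hR : Root S Q κ Cg T χ) (s : ℝ) (x : E m) :
    gav (S.tauT Q χ) s x = S.tauav Q χ s x :=
  cmpl_gav_withDensity _ (cmpl_chi_continuous hR).measurable hR.cut.nonneg s x

/-- `L'_+ = χ · 2 M⁺`. -/
noncomputable def Sys.LpT (S : Sys m n) (Q : ℕ) (χ : E m → ℝ) : Measure (E m) :=
  ((2 : ℝ≥0∞) • S.Mpos Q).withDensity fun y => ENNReal.ofReal (χ y)

/-- `L'_- = χ (2 M⁻ + D + C_Q Λ)`. -/
noncomputable def Sys.LmT (S : Sys m n) (Q : ℕ) (CQ : ℝ) (χ : E m → ℝ) : Measure (E m) :=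
  ((2 : ℝ≥0∞) • S.Mneg Q + S.Dm + ENNReal.ofReal CQ • S.Lm).withDensity fun y => ENNReal.ofReal (χ y)

theorem cmpl_withDensity_mono {α : Type*} [MeasurableSpace α] {μ ν : Measure α} (h : μ ≤ ν) (f : α → ℝ≥0∞) :
    μ.withDensity f ≤ ν.withDensity f := by
  refine Measure.le_iff.2 fun s hs => ?_
  rw [withDensity_apply _ hs, withDensity_apply _ hs]
  exact lintegral_mono' (Measure.restrict_mono le_rfl h) le_rfl

theorem cmpl_Lp_add_Lm_le (hR : Root S Q κ Cg T χ) {CQ : ℝ} (hCQ : 0 ≤ CQ) :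
    S.LpT Q χ + S.LmT Q CQ χ ≤ ENNReal.ofReal (2 + CQ) • S.tauT Q χ := by
  unfold Sys.LpT Sys.LmT Sys.tauT
  rw [← withDensity_add_measure, ← withDensity_smul_measure]
  apply cmpl_withDensity_mono
  unfold Sys.tau
  rw [hR.hyp.valid.absM_eq Q, ENNReal.ofReal_add zero_le_two hCQ]
  refine Measure.le_iff.2 fun s _ => ?_
  simp only [Measure.coe_add, Measure.coe_smul, Pi.add_apply, Pi.smul_apply, smul_eq_mul]
  have h2 : ENNReal.ofReal 2 = 2 := by simp
  rw [h2]
  generalize S.Mpos Q s = a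
  generalize S.Mneg Q s = b
  generalize S.Dm s = c
  generalize S.Lm s = d
  generalize ENNReal.ofReal CQ = q
  calc 2 * a + (2 * b + c + q * d) = 2 * a + 2 * b + 1 * c + q * d := by ring
    _ ≤ 2 * a + 2 * b + (2 + q) * c + q * d + (q * a + q * b + 2 * d) := by
        refine le_trans ?_ le_self_add
        gcongr
        calc (1 : ℝ≥0∞) ≤ 2 := one_le_two
          _ ≤ 2 + q := le_self_add
    _ = (2 + q) * (a + b + c + d) := by ring

theorem cmpl_Mpos_le (hR : Root S Q κ Cg T χ) : S.Mpos Q ≤ S.tau Q := by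
  unfold Sys.tau
  rw [hR.hyp.valid.absM_eq Q, add_assoc, add_assoc]
  exact Measure.le_add_right le_rfl

theorem cmpl_Mneg_le (hR : Root S Q κ Cg T χ) : S.Mneg Q ≤ S.tau Q := by
  unfold Sys.tau
  rw [hR.hyp.valid.absM_eq Q, add_comm (S.Mpos Q), add_assoc, add_assoc]
  exact Measure.le_add_right le_rfl

theorem cmpl_Dm_le (S : Sys m n) (Q : ℕ) : S.Dm ≤ S.tau Q := by
  unfold Sys.tau
  rw [add_comm (S.absM Q), add_assoc]
  exact Measure.le_add_right le_rfl

theorem cmpl_Lm_le (S : Sys m n) (Q : ℕ) : S.Lm ≤ S.tau Q := by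
  unfold Sys.tau
  exact Measure.le_add_left le_rfl

theorem cmpl_integral_withDensity {α : Type*} [MeasurableSpace α] (ρ : Measure α) {χ : α → ℝ} (hχ : Measurable χ)
    (h0 : ∀ y, 0 ≤ χ y) (f : α → ℝ) :
    ∫ y, f y ∂(ρ.withDensity fun y => ENNReal.ofReal (χ y)) = ∫ y, χ y * f y ∂ρ := by
  rw [integral_withDensity_eq_integral_toReal_smul hχ.ennreal_ofReal
    (Eventually.of_forall fun _ => ENNReal.ofReal_lt_top)]
  refine integral_congr_ae (Eventually.of_forall fun y => ?_)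
  simp only [smul_eq_mul, ENNReal.toReal_ofReal (h0 y)]

/-- **Identification of `L' = L'_+ - L'_-`**: for bounded measurable `f`,
`∫ f dL'_+ - ∫ f dL'_- = ∫ χ f d(L - C_Q Λ)`. -/
theorem cmpl_int_L (hR : Root S Q κ Cg T χ) {CQ : ℝ} (hCQ : 0 ≤ CQ) {f : E m → ℝ} (hf : Measurable f) (C : ℝ)
    (hb : ∀ y, |f y| ≤ C) :
    (∫ y, f y ∂(S.LpT Q χ)) - ∫ y, f y ∂(S.LmT Q CQ χ)
      = S.intL Q (fun y => χ y * f y) - CQ * S.intLam (fun y => χ y * f y) := by
  have hV := hR.hyp.valid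
  have hχm := (cmpl_chi_continuous hR).measurable
  have hg : Measurable (fun y => χ y * f y) := hχm.mul hf
  have hint := cmpl_integrable_chi_mul hR hf C hb
  have hsupp : Function.support (fun y => χ y * f y) ⊆ closedBall (0 : E m) 3 := by
    intro y hy
    by_contra h
    exact hy (by simp [cmpl_chi_zero hR h])
  have hgb : ∀ y, |χ y * f y| ≤ C := by
    intro y
    rw [abs_mul, abs_of_nonneg (hR.cut.nonneg y)]
    calc χ y * |f y| ≤ 1 * C := mul_le_mul (hR.cut.le_one y) (hb y) (abs_nonneg _) zero_le_one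
      _ = C := one_mul _
  unfold Sys.LpT Sys.LmT
  rw [cmpl_integral_withDensity _ hχm hR.cut.nonneg, cmpl_integral_withDensity _ hχm hR.cut.nonneg]
  have i1 : Integrable (fun y => χ y * f y) (S.Mneg Q) := hint.mono_measure (cmpl_Mneg_le hR)
  have i2 : Integrable (fun y => χ y * f y) S.Dm := hint.mono_measure (cmpl_Dm_le S Q)
  have i3 : Integrable (fun y => χ y * f y) S.Lm := hint.mono_measure (cmpl_Lm_le S Q)
  rw [integral_add_measure ((i1.smul_measure (by simp)).add_measure i2) (i3.smul_measure ENNReal.ofReal_ne_top),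
    integral_add_measure (i1.smul_measure (by simp)) i2, integral_smul_measure, integral_smul_measure,
    integral_smul_measure]
  unfold Sys.intL
  rw [hV.intM_eq Q hg (isCompact_closedBall _ _) (cmpl_K_subset hR) hsupp C hgb, hV.intD_eq hg, hV.intLam_eq hg,
    ENNReal.toReal_ofReal hCQ]
  simp only [smul_eq_mul, ENNReal.toReal_ofNat]
  ring

theorem cmpl_gav_L (hR : Root S Q κ Cg T χ) {CQ : ℝ} (hCQ : 0 ≤ CQ) (s : ℝ) (x : E m) :
    gav (S.LpT Q χ) s x - gav (S.LmT Q CQ χ) s x = S.Lav Q χ s x - CQ * S.Lamav χ s x := by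
  have h := cmpl_int_L hR hCQ (f := fun y => gauss m s (y - x))
    ((cmpl_continuous_gauss m s).comp (continuous_id.sub continuous_const)).measurable
    ((2 * Real.pi * s ^ 2) ^ (-(m : ℝ) / 2)) (fun y => by
      rw [abs_of_nonneg (cmpl_gauss_nonneg m s _)]
      exact cmpl_gauss_le m s _)
  exact h

theorem cmpl_int_w (hR : Root S Q κ Cg T χ) {CQ : ℝ} (hCQ : 0 ≤ CQ) {w : E m → ℝ} (hw : IsWeight w 0 1) :
    (∫ y, w y ∂(S.LpT Q χ)) - ∫ y, w y ∂(S.LmT Q CQ χ) = S.intL Q w - CQ * S.intLam w := by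
  have hwc : Continuous w := by
    have : LipschitzWith 1 w := by
      apply LipschitzWith.of_dist_le_mul
      intro y y'
      have := hw.lip y y'
      simpa [Real.dist_eq, dist_eq_norm] using this
    exact this.continuous
  have h := cmpl_int_L hR hCQ (f := w) hwc.measurable 1 (fun y => by
    rw [abs_of_nonneg (hw.nonneg y)]
    exact hw.le_one y)
  have e : (fun y => χ y * w y) = w := by
    funext y
    by_cases hy : w y = 0
    · rw [hy, mul_zero]
    · have : y ∈ ball (0 : E m) 1 := hw.supp hy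
      rw [hR.cut.eq_one y (ball_subset_ball (by norm_num) this), one_mul]
  rw [e] at h
  exact h

/-- joint continuity of `(v, x) ↦ τ_v(x)` on `v ≥ σ > 0`. -/
theorem cmpl_continuousOn_tauav (hR : Root S Q κ Cg T χ) {σ : ℝ} (hσ : 0 < σ) :
    ContinuousOn (fun p : ℝ × E m => S.tauav Q χ p.1 p.2) {p | σ ≤ p.1} := by
  unfold Sys.tauav Sys.ker
  apply continuousOn_of_dominated (bound := fun y => χ y * (2 * Real.pi * σ ^ 2) ^ (-(m : ℝ) / 2))
  · intro p _
    exact ((cmpl_chi_continuous hR).mul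
      ((cmpl_continuous_gauss m p.1).comp (continuous_id.sub continuous_const))).aestronglyMeasurable
  · intro p hp
    refine Eventually.of_forall fun y => ?_
    rw [Real.norm_of_nonneg (mul_nonneg (hR.cut.nonneg y) (cmpl_gauss_nonneg m _ _))]
    exact mul_le_mul_of_nonneg_left ((cmpl_gauss_le m _ _).trans (cmpl_gmax_anti m hσ hp)) (hR.cut.nonneg y)
  · exact cmpl_integrable_chi_mul hR measurable_const _ (fun _ => le_rfl)
  · refine Eventually.of_forall fun y => ?_
    apply continuousOn_const.mul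
    have h1 : ContinuousOn (fun p : ℝ × E m => (p.1, y - p.2)) {p | σ ≤ p.1} := by fun_prop
    exact (cmpl_continuousOn_gauss m).comp h1 (fun p hp => lt_of_lt_of_le hσ hp)

theorem cmpl_tauav_le_mass (hR : Root S Q κ Cg T χ) {ρ v : ℝ} (hρ : 0 < ρ) (hv : ρ ≤ v) (x : E m) :
    S.tauav Q χ v x ≤ (2 * Real.pi * ρ ^ 2) ^ (-(m : ℝ) / 2) * Real.exp (-T) := by
  have := cmpl_tauT_finite hR
  rw [← cmpl_gav_tauT hR]
  refine (cmpl_gav_le_mass _ v x).trans ?_
  exact mul_le_mul (cmpl_gmax_anti m hρ hv) (cmpl_tauT_mass hR) ENNReal.toReal_nonneg (by positivity)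

end Root

/-! ### Measurability of `chainEnd` -/

theorem cmpl_cube_countable (m : ℕ) : Countable (Cube m) := by
  have : Function.Injective (fun c : Cube m => (c.gen, c.pos)) := by
    intro c c' h
    cases c
    cases c'
    simp only [Prod.mk.injEq] at h
    obtain ⟨h1, h2⟩ := h
    subst h1
    subst h2
    rfl
  exact this.countable

theorem cmpl_measurableSet_cube {m : ℕ} (g : Fin m → Fin 3) (c : Cube m) : MeasurableSet (c.set g) := by
  have : c.set g = ⋂ i, {y : E m | c.lo g i ≤ y i ∧ y i < c.lo g i + c.side} := by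
    ext y
    simp [Cube.set]
  rw [this]
  refine MeasurableSet.iInter fun i => ?_
  have hm : Measurable (fun y : E m => y i) := (EuclideanSpace.proj i).continuous.measurable
  exact (measurableSet_le measurable_const hm).inter (measurableSet_lt hm measurable_const)

theorem cmpl_measurableSet_chainEnd {m : ℕ} (g : Fin m → Fin 3) (ν : Measure (E m)) (Mk : Set (Cube m)) (Sf : ℝ)
    (N : ℕ) : MeasurableSet (chainEnd g ν Mk Sf N) := by
  have := cmpl_cube_countable m
  have : chainEnd g ν Mk Sf N = ⋃ c ∈ {c : Cube m | ∃ W, IsChain g ν Mk Sf N W ∧ W (N - 1) = c}, c.set g := by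
    ext y
    simp only [chainEnd, mem_iUnion, mem_ofPred_eq, exists_prop]
    constructor
    · rintro ⟨W, hW, hy⟩
      exact ⟨_, ⟨W, hW, rfl⟩, hy⟩
    · rintro ⟨c, ⟨W, hW, rfl⟩, hy⟩
      exact ⟨W, hW, hy⟩
  rw [this]
  exact MeasurableSet.biUnion (Set.to_countable _) fun c _ => cmpl_measurableSet_cube g c

theorem cmpl_subset_chainEnd {m : ℕ} {g : Fin m → Fin 3} {ν : Measure (E m)} {Mk : Set (Cube m)} {Sf : ℝ}
    {N : ℕ} {W : ℕ → Cube m} (hW : IsChain g ν Mk Sf N W) : (W (N - 1)).set g ⊆ chainEnd g ν Mk Sf N := by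
  intro y hy
  simp only [chainEnd, mem_iUnion, exists_prop]
  exact ⟨W, hW, hy⟩

/-! ### Numerical facts on `F_Q(T)` -/

theorem cmpl_rate_F (Q : ℕ) (K : ℝ) : ∀ᶠ T in atTop, K ≤ FQ Q T := (FQ_tendsto Q).eventually_ge_atTop K

theorem cmpl_etaT_pos (Q : ℕ) (T : ℝ) : 0 < etaT Q T := Real.exp_pos _

theorem cmpl_rhoT_pos (Q : ℕ) {T : ℝ} (hT : 0 < T) : 0 < rhoT Q T := by
  unfold rhoT
  have := cmpl_etaT_pos Q T
  positivity

theorem cmpl_log_rhoT (Q : ℕ) {T : ℝ} (hT : 0 < T) : Real.log (rhoT Q T) = -(8 * FQ Q T + 2 * Real.log T) := by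
  unfold rhoT etaT
  rw [Real.log_div (by positivity) (by positivity), Real.log_pow, Real.log_pow, Real.log_exp]
  push_cast
  ring

/-- `C ρ^{-m} d < e^{-a0}`: total mass bound at the top scale. -/
theorem cmpl_rate_top (m Q : ℕ) (hQ : 1 ≤ Q) :
    ∀ᶠ T in atTop, (2 * Real.pi * rhoT Q T ^ 2) ^ (-(m : ℝ) / 2) * Real.exp (-T) < dstT Q T := by
  have h1 : ∀ᶠ T in atTop, Real.log T ^ 1 / FQ Q T < 1 :=
    (log_pow_div_FQ Q 1).eventually (gt_mem_nhds one_pos)
  have h2 : ∀ᶠ T in atTop, FQ Q T ^ 2 / T < 1 / (10 * (m : ℝ) + 2) :=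
    (FQ_pow_div Q hQ 2).eventually (gt_mem_nhds (by positivity))
  filter_upwards [h1, h2, cmpl_rate_F Q 1, eventually_ge_atTop 1] with T h1 h2 hF hT
  have hT0 : 0 < T := by linarith
  have hF0 : 0 < FQ Q T := by linarith
  have hρ := cmpl_rhoT_pos Q hT0
  have hm0 : (0 : ℝ) ≤ m := Nat.cast_nonneg m
  rw [pow_one, div_lt_one hF0] at h1
  rw [div_lt_div_iff₀ hT0 (by positivity), one_mul] at h2
  have e1 : (2 * Real.pi * rhoT Q T ^ 2) ^ (-(m : ℝ) / 2) ≤ (rhoT Q T ^ 2) ^ (-(m : ℝ) / 2) := by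
    apply Real.rpow_le_rpow_of_nonpos (by positivity)
    · have : (1 : ℝ) ≤ 2 * Real.pi := by linarith [Real.pi_gt_three]
      have h0 : 0 ≤ rhoT Q T ^ 2 := by positivity
      nlinarith
    · linarith
  have e2 : (rhoT Q T ^ 2) ^ (-(m : ℝ) / 2) = Real.exp ((m : ℝ) * (8 * FQ Q T + 2 * Real.log T)) := by
    rw [← Real.rpow_natCast (rhoT Q T) 2, ← Real.rpow_mul hρ.le, Real.rpow_def_of_pos hρ, cmpl_log_rhoT Q hT0]
    congr 1
    push_cast
    ring
  calc (2 * Real.pi * rhoT Q T ^ 2) ^ (-(m : ℝ) / 2) * Real.exp (-T)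
      ≤ Real.exp ((m : ℝ) * (8 * FQ Q T + 2 * Real.log T)) * Real.exp (-T) := by
        rw [← e2]
        exact mul_le_mul_of_nonneg_right e1 (Real.exp_pos _).le
    _ = Real.exp ((m : ℝ) * (8 * FQ Q T + 2 * Real.log T) - T) := by
        rw [← Real.exp_add]
        congr 1
    _ < dstT Q T := by
        unfold dstT a0T
        apply Real.exp_lt_exp.2
        have h3 : FQ Q T ≤ FQ Q T ^ 2 := by nlinarith
        have h4 : (m : ℝ) * (8 * FQ Q T + 2 * Real.log T) ≤ (m : ℝ) * (10 * FQ Q T ^ 2) :=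
          mul_le_mul_of_nonneg_left (by linarith) hm0
        nlinarith

theorem cmpl_exp_small {A F : ℝ} (h3 : 3 ≤ F) (hF : 4 * A ≤ F) :
    A * Real.exp (-(F ^ 2)) ≤ Real.exp (-2 * F) / 4 := by
  have h1 : F + 1 ≤ Real.exp F := Real.add_one_le_exp F
  have h2 : Real.exp (-2 * F) = Real.exp F * Real.exp (-(3 * F)) := by
    rw [← Real.exp_add]
    congr 1
    ring
  have h4 : Real.exp (-(F ^ 2)) ≤ Real.exp (-(3 * F)) := Real.exp_le_exp.2 (by nlinarith)
  have h5 : 0 < Real.exp (-(3 * F)) := Real.exp_pos _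
  have h6 : 0 < Real.exp (-(F ^ 2)) := Real.exp_pos _
  rw [h2]
  by_cases hA : 0 ≤ A
  · have : A * Real.exp (-(F ^ 2)) ≤ A * Real.exp (-(3 * F)) := mul_le_mul_of_nonneg_left h4 hA
    have h7 : 4 * A * Real.exp (-(3 * F)) ≤ Real.exp F * Real.exp (-(3 * F)) :=
      mul_le_mul_of_nonneg_right (by linarith) h5.le
    linarith
  · have : A * Real.exp (-(F ^ 2)) ≤ 0 := mul_nonpos_of_nonpos_of_nonneg (by linarith) h6.le
    have h7 : 0 < Real.exp F * Real.exp (-(3 * F)) := by positivity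
    linarith

theorem cmpl_band_small {B F : ℝ} (hF : 1 ≤ F) (hB : F ^ 30 ≤ B) :
    Real.exp (-B ^ (1 / 8 : ℝ)) ≤ Real.exp (-(F ^ 2)) := by
  apply Real.exp_le_exp.2
  have h0 : 0 ≤ F := by linarith
  have h1 : F ^ 16 ≤ B := (pow_le_pow_right₀ hF (by norm_num)).trans hB
  have h2 : (F ^ 16) ^ (1 / 8 : ℝ) ≤ B ^ (1 / 8 : ℝ) := Real.rpow_le_rpow (by positivity) h1 (by norm_num)
  have h3 : (F ^ 16) ^ (1 / 8 : ℝ) = F ^ 2 := by
    rw [← Real.rpow_natCast F 16, ← Real.rpow_mul h0, ← Real.rpow_natCast F 2]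
    norm_num
  linarith

end Claimed.Agent.R322.Sx
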