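import Claimed.Agent.R322.Sx.StageDefs

/-!
# R322 / Sx / Init : initialization at a threshold or a side (AE Lemma 5.3)

`𝒜_0` = a majority list on `B_{s0}(x)`; `S_h = exp(CSh · b_Q(a0))`.  Dichotomy `grouping_or_diam`:

* (A) `s̲ = s0`, or `𝒜_0` has two groups separated by `S_h s0 √d_*`: wells = distinct entries of `𝒜_0`,
  `U(s0) ≤ C I(s0)` (`U_le_of_list`, `Δ = 0`), `Z(s0) ≤ a0^{-Pe} s0² d_*` (`init_Z`; `Z(s0) = 0` if
  `s̲ = s0`), `k0` a small constant;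
* (B) `s̲ < s0` and `diam 𝒜_0 ≤ Q S_h s0 √d_*`: one common well, `surplus`, `k0 = c S_h^{-4}`.

`Q = 1` is not special: (B) with the same `S_h` (the loss is absorbed by the bands).
The scales `v ∈ [s̲, s0]` are controlled with density `d_*` (`ctl_pre`), `lev d_* = a0`;
`I(s0) = s0² e^{-a(s0)}`, `|a(s0) - a0| ≤ C`.
Order of constants: the thresholds for `C_Q` come first (they do not depend on the constant `C` of
`EnvOut`, which depends on `C_Q`).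
-/

set_option autoImplicit false

namespace Claimed.Agent.R322.Sx

open MeasureTheory Set Metric Filter Topology
open scoped ENNReal NNReal InnerProductSpace

variable {m n Q : ℕ}

/-- along a walk of the graph `‖A i - A j‖ < G` the distance grows by at most `G` per step. -/
theorem ini_walk_dist {n Q : ℕ} (A : Fin Q → E n) (G : ℝ) (Gr : SimpleGraph (Fin Q))
    (hGr : ∀ i j, Gr.Adj i j → ‖A i - A j‖ ≤ G) {i j : Fin Q} (w : Gr.Walk i j) :
    ‖A i - A j‖ ≤ w.length * G := by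
  induction w with
  | nil => simp
  | @cons u v w' h p ih =>
    have h1 := hGr _ _ h
    have h2 : ‖A u - A w'‖ ≤ ‖A u - A v‖ + ‖A v - A w'‖ := by
      have : A u - A w' = (A u - A v) + (A v - A w') := by abel
      rw [this]
      exact norm_add_le _ _
    simp only [SimpleGraph.Walk.length_cons, Nat.cast_add, Nat.cast_one]
    nlinarith

/-- either two groups separated by `G`, or diameter at most `Q G` (components of the graph
`‖A i - A j‖ < G`). -/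
theorem grouping_or_diam {n Q : ℕ} (A : Fin Q → E n) (G : ℝ) (hG : 0 ≤ G) :
    (∃ grp : Fin Q → Fin Q, (∃ i j, grp i ≠ grp j) ∧ Sys.Separated A grp G) ∨
      ∀ i j, ‖A i - A j‖ ≤ Q * G := by
  classical
  let Gr : SimpleGraph (Fin Q) :=
    { Adj := fun i j => i ≠ j ∧ ‖A i - A j‖ < G
      symm := ⟨fun i j h => ⟨h.1.symm, by rw [norm_sub_rev]; exact h.2⟩⟩
      loopless := ⟨fun i h => h.1 rfl⟩ }
  by_cases hc : ∀ i j, Gr.Reachable i j
  · right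
    intro i j
    obtain ⟨p, hp⟩ := (hc i j).exists_isPath
    have h1 := ini_walk_dist A G Gr (fun i j h => h.2.le) p
    have h2 : p.length < Fintype.card (Fin Q) := hp.length_lt
    rw [Fintype.card_fin] at h2
    have h3 : (p.length : ℝ) ≤ Q := by exact_mod_cast h2.le
    exact h1.trans (mul_le_mul_of_nonneg_right h3 hG)
  · left
    push Not at hc
    obtain ⟨i, j, hij⟩ := hc
    refine ⟨fun i => (Gr.connectedComponentMk i).out, ⟨i, j, ?_⟩, ?_⟩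
    · intro h
      apply hij
      have h1 := congrArg Gr.connectedComponentMk h
      simp only [SimpleGraph.connectedComponentMk] at h1
      rw [Quot.out_eq, Quot.out_eq] at h1
      exact SimpleGraph.ConnectedComponent.exact h1
    · intro i j h
      by_contra hlt
      push Not at hlt
      apply h
      have hne : i ≠ j := by
        rintro rfl
        exact h rfl
      have hadj : Gr.Adj i j := ⟨hne, hlt⟩
      have : Gr.connectedComponentMk i = Gr.connectedComponentMk j :=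
        SimpleGraph.ConnectedComponent.sound hadj.reachable
      show (Gr.connectedComponentMk i).out = (Gr.connectedComponentMk j).out
      rw [this]

theorem ini_fibMatch_mono {n Q : ℕ} {Fb : Multiset (E n)} {A : Fin Q → E n} {r r' : ℝ}
    (h : Sys.FibMatch Fb A r) (hr : r ≤ r') : Sys.FibMatch Fb A r' := by
  obtain ⟨L, hL, hb⟩ := h
  exact ⟨L, hL, fun j => (hb j).trans hr⟩

/-- a majority list stays one for a larger local bound. -/
theorem Fix.IsMaj.mono {Cg : ℝ} {F : Fix m n Q Cg} {S : Sys m n} {x : E m} {s d d' : ℝ}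
    {A : Fin Q → E n} (h : F.IsMaj S x s d A) (hs : 0 ≤ s) (hd : d ≤ d') : F.IsMaj S x s d' A := by
  unfold Fix.IsMaj Sys.IsMajority at h ⊢
  refine le_trans (measure_mono ?_) h
  rintro y ⟨hy, hn⟩
  refine ⟨hy, fun hm => hn (ini_fibMatch_mono hm ?_)⟩
  exact mul_le_mul_of_nonneg_left (Real.sqrt_le_sqrt hd) (mul_nonneg F.Cmaj_pos.le hs)

/-! ### toolbox -/

theorem ini_gauss_nonneg (m : ℕ) (s : ℝ) (z : E m) : 0 ≤ gauss m s z := by
  unfold gauss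
  have : 0 ≤ 2 * Real.pi * s ^ 2 := by positivity
  exact mul_nonneg (Real.rpow_nonneg this _) (Real.exp_pos _).le

theorem ini_ker_nonneg {κ Cg : ℝ} (P : PD m n Q) (h : P.Ok κ Cg) (v : ℝ) (y : E m) :
    0 ≤ Sys.ker P.χ v P.x y :=
  mul_nonneg (h.root.cut.nonneg y) (ini_gauss_nonneg m v _)

theorem ini_Lamv_nonneg {κ Cg : ℝ} (P : PD m n Q) (h : P.Ok κ Cg) (v : ℝ) : 0 ≤ P.Lamv v :=
  integral_nonneg fun q => mul_nonneg (ini_ker_nonneg P h v q.1) (h.root.hyp.valid.lam_nonneg q)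

theorem ini_tau_nonneg {κ Cg : ℝ} (P : PD m n Q) (h : P.Ok κ Cg) (v : ℝ) : 0 ≤ P.tau v :=
  integral_nonneg fun y => ini_ker_nonneg P h v y

theorem ini_Rv_nonneg {κ Cg : ℝ} (P : PD m n Q) (h : P.Ok κ Cg) (v : ℝ) : 0 ≤ P.Rv v :=
  integral_nonneg fun q => mul_nonneg (ini_ker_nonneg P h v q.1) (h.root.hyp.valid.B_nonneg q _)

theorem ini_Dfar_nonneg {κ Cg : ℝ} (P : PD m n Q) (h : P.Ok κ Cg) (A : Fin Q → E n) (ϱ v : ℝ) :
    0 ≤ P.Dfar A ϱ v :=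
  integral_nonneg fun q => mul_nonneg (ini_ker_nonneg P h v q.1)
    (Set.indicator_nonneg (fun q _ => h.root.hyp.valid.e_nonneg q) q)

theorem ini_lev_dst (P : PD m n Q) : lev P.dst = P.a0 := by
  simp [lev, PD.dst, dstT, PD.a0]

theorem ini_dst_pos (P : PD m n Q) : 0 < P.dst := Real.exp_pos _

theorem ini_η_pos (P : PD m n Q) : 0 < P.η := Real.exp_pos _

theorem ini_d_pos (P : PD m n Q) : 0 < P.d := Real.exp_pos _

theorem ini_a0_tendsto (Q : ℕ) : Tendsto (a0T Q) atTop atTop :=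
  (tendsto_pow_atTop two_ne_zero).comp (FQ_tendsto Q)

theorem ini_dst_tendsto (Q : ℕ) : Tendsto (dstT Q) atTop (𝓝 0) :=
  Real.tendsto_exp_neg_atTop_nhds_zero.comp (ini_a0_tendsto Q)

/-- `ρ ≤ 1` for large `T`. -/
theorem ini_rho_le_one (Q : ℕ) : ∀ᶠ T : ℝ in atTop, rhoT Q T ≤ 1 := by
  filter_upwards [(FQ_tendsto Q).eventually_ge_atTop 0, eventually_ge_atTop (1 : ℝ)] with T h1 h2
  unfold rhoT etaT
  rw [div_le_one (by positivity)]
  have h3 : Real.exp (-2 * FQ Q T) ≤ 1 := Real.exp_le_one_iff.2 (by linarith)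
  calc Real.exp (-2 * FQ Q T) ^ 4 ≤ 1 ^ 4 := pow_le_pow_left₀ (Real.exp_pos _).le h3 4
    _ = 1 := one_pow 4
    _ ≤ T ^ 2 := one_le_pow₀ h2

/-- comparison of two functions through their derivatives. -/
theorem ini_sub_le_of_deriv_le {f f' g g' : ℝ → ℝ} {a b : ℝ} (hab : a ≤ b)
    (hf : ∀ x ∈ Icc a b, HasDerivAt f (f' x) x) (hg : ∀ x ∈ Icc a b, HasDerivAt g (g' x) x)
    (h : ∀ x ∈ Icc a b, f' x ≤ g' x) : f b - f a ≤ g b - g a := by
  have hd : ∀ x ∈ Icc a b, HasDerivAt (fun x => g x - f x) (g' x - f' x) x :=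
    fun x hx => (hg x hx).sub (hf x hx)
  have hmono : MonotoneOn (fun x => g x - f x) (Icc a b) := by
    apply monotoneOn_of_deriv_nonneg (convex_Icc a b)
    · exact fun x hx => (hd x hx).continuousAt.continuousWithinAt
    · exact fun x hx => (hd x (interior_subset hx)).differentiableAt.differentiableWithinAt
    · intro x hx
      rw [(hd x (interior_subset hx)).deriv]
      linarith [h x (interior_subset hx)]
  have := hmono (left_mem_Icc.2 hab) (right_mem_Icc.2 hab) hab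
  simp only at this
  linarith

/-- transport of a grouping along a matching. -/
theorem ini_separated_transport {n Q : ℕ} {A A' : Fin Q → E n} {r G : ℝ}
    (hM : Sys.Matched A' A r) (grp : Fin Q → Fin Q) (hg : ∃ i j, grp i ≠ grp j)
    (hS : Sys.Separated A grp G) :
    ∃ grp' : Fin Q → Fin Q, (∃ i j, grp' i ≠ grp' j) ∧ Sys.Separated A' grp' (G - 2 * r) := by
  obtain ⟨σ, hσ⟩ := hM
  refine ⟨fun j => grp (σ j), ?_, ?_⟩
  · obtain ⟨i, j, hij⟩ := hg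
    exact ⟨σ.symm i, σ.symm j, by simpa using hij⟩
  · intro i j hij
    have h1 := hS (σ i) (σ j) hij
    have h2 : ‖A (σ i) - A (σ j)‖ ≤ ‖A' i - A (σ i)‖ + ‖A' i - A' j‖ + ‖A' j - A (σ j)‖ := by
      have : A (σ i) - A (σ j) = -(A' i - A (σ i)) + (A' i - A' j) + (A' j - A (σ j)) := by abel
      rw [this]
      refine (norm_add_le _ _).trans ?_
      refine add_le_add_left ((norm_add_le _ _).trans ?_) _
      rw [norm_neg]
    have := hσ i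
    have := hσ j
    linarith

/-- the density hypothesis of `concentric_match` below the threshold. -/
theorem ini_den (m n Q : ℕ) (hm : 1 ≤ m) (hQ : 1 ≤ Q) (κ Cg : ℝ) (F : Fix m n Q Cg) :
    ∃ C T0 : ℝ, 0 < C ∧ ∀ P : PD m n Q, P.Ok κ Cg → T0 ≤ P.T → ∀ r, P.sb ≤ r → r ≤ P.s0 →
      ball P.x (F.c * r) ⊆ P.S.Ω ∧
      P.S.tau Q (ball P.x (F.c * r)) ≤ ENNReal.ofReal (C * P.dst * r ^ m) := by
  obtain ⟨Tpre, hpre⟩ := ctl_pre m n Q hm hQ κ Cg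
  obtain ⟨Cb, Tb, hCb, hball⟩ := ctl_ball m n Q hm hQ κ Cg 1 0 le_rfl le_rfl
  have hc1 : 1 ≤ F.c := by linarith [F.c_gt]
  refine ⟨Cb * F.c ^ m, max (max Tpre Tb) (max 1 F.c), by positivity, ?_⟩
  intro P hOk hT r hr1 hr2
  have hT1 : Tpre ≤ P.T := le_trans (le_trans (le_max_left _ _) (le_max_left _ _)) hT
  have hT2 : Tb ≤ P.T := le_trans (le_trans (le_max_right _ _) (le_max_left _ _)) hT
  have hT3 : 1 ≤ P.T := le_trans (le_trans (le_max_left _ _) (le_max_right _ _)) hT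
  have hT4 : F.c ≤ P.T := le_trans (le_trans (le_max_right _ _) (le_max_right _ _)) hT
  have hctl := hpre P hOk hT1 r hr1 hr2
  have hr0 : 0 < r := hctl.v_pos
  have hroom : F.c * r ≤ P.ρ := by
    refine le_trans ?_ hctl.room
    rw [mul_comm]
    apply mul_le_mul_of_nonneg_left _ hr0.le
    calc F.c ≤ P.T := hT4
      _ = P.T ^ 1 := (pow_one _).symm
      _ ≤ P.T ^ 4 := pow_le_pow_right₀ hT3 (by norm_num)
  obtain ⟨h1, h2⟩ := hball P hOk hT2 r P.dst hctl F.c hc1 hroom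
  refine ⟨h1.trans ((ball_subset_ball (by norm_num)).trans hOk.root.hyp.room), h2.trans ?_⟩
  apply ENNReal.ofReal_le_ofReal
  rw [Real.rpow_zero, mul_pow]
  apply le_of_eq
  ring

/-- AE Lemma 5.3, separated groups: `Z(s0) ≤ a0^{-Pe} s0² d_*`. -/
theorem init_Z (m n Q : ℕ) (hm : 1 ≤ m) (hQ : 1 ≤ Q)
    (ih : ∀ q : ℕ, 1 ≤ q → q < Q → SignedAt m n q) (κ Cg : ℝ) (hκ : 0 < κ) (F : Fix m n Q Cg)
    (Pe : ℝ) (hPe : 0 < Pe) :
    ∃ CQ1 : ℝ, ∀ Cl : ℝ, 1 ≤ Cl → ∃ CSh T0 : ℝ, 0 < CSh ∧ ∀ P : PD m n Q, P.Ok κ Cg →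
      CQ1 ≤ P.CQ → T0 ≤ P.T → ∀ A : Fin Q → E n, F.IsMaj P.S P.x P.s0 (Cl * P.dst) A →
      ∀ grp : Fin Q → Fin Q, (∃ i j, grp i ≠ grp j) →
      Sys.Separated A grp (Real.exp (CSh * bQ Q P.a0) * P.s0 * Real.sqrt P.dst) →
      P.Z P.s0 ≤ P.a0 ^ (-Pe) * (P.s0 ^ 2 * P.dst) := by
  by_cases hQ2 : 2 ≤ Q
  swap
  · refine ⟨0, fun Cl _ => ⟨1, 0, one_pos, fun P _ _ _ A _ grp hg _ => ?_⟩⟩
    obtain ⟨i, j, hij⟩ := hg
    have hQ1 : Q = 1 := by omega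
    subst hQ1
    exact absurd (Subsingleton.elim _ _) hij
  obtain ⟨CQ, hCQ, hsep⟩ := sep_gauss m n Q hm hQ2 ih κ Cg hκ F 0 Pe le_rfl hPe
  refine ⟨CQ, fun Cl hCl => ?_⟩
  obtain ⟨Tpre, hpre⟩ := ctl_pre m n Q hm hQ κ Cg
  obtain ⟨Cl1, Tl, hCl1, hlist⟩ := ctl_list m n Q hm hQ κ Cg F 1 0 le_rfl le_rfl
  obtain ⟨Cd, Td, hCd, hden⟩ := ini_den m n Q hm hQ κ Cg F
  obtain ⟨Cl2, hCl2⟩ : ∃ Cl2 : ℝ, Cl2 = max (max Cl Cl1) Cd := ⟨_, rfl⟩
  have h2a : Cl ≤ Cl2 := hCl2 ▸ le_trans (le_max_left _ _) (le_max_left _ _)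
  have h2b : Cl1 ≤ Cl2 := hCl2 ▸ le_trans (le_max_right _ _) (le_max_left _ _)
  have h2c : Cd ≤ Cl2 := hCl2 ▸ le_max_right _ _
  have h2d : 1 ≤ Cl2 := hCl.trans h2a
  obtain ⟨CS2, Ts, hCS2, hsg⟩ := hsep 1 Cl2 le_rfl h2d
  obtain ⟨L, hL⟩ : ∃ L : ℝ, L = 10 + 16 * F.Cmaj * Real.sqrt Cl2 := ⟨_, rfl⟩
  have hL10 : 10 ≤ L := by
    rw [hL]
    have := F.Cmaj_pos
    have := Real.sqrt_nonneg Cl2
    nlinarith [mul_nonneg F.Cmaj_pos.le (Real.sqrt_nonneg Cl2)]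
  have hlogL : 0 < Real.log L := Real.log_pos (by linarith)
  -- large `T`
  have hev : ∀ᶠ T : ℝ in atTop, rhoT Q T ≤ 1 ∧ 1 ≤ a0T Q T ∧ Cl2 * dstT Q T ≤ F.d0 := by
    have h3 : Tendsto (fun T => Cl2 * dstT Q T) atTop (𝓝 (Cl2 * 0)) :=
      (ini_dst_tendsto Q).const_mul Cl2
    rw [mul_zero] at h3
    filter_upwards [ini_rho_le_one Q, (ini_a0_tendsto Q).eventually_ge_atTop 1,
      h3.eventually_le_const F.d0_pos] with T h1 h2 h3
    exact ⟨h1, h2, h3⟩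
  obtain ⟨Te, hTe⟩ := eventually_atTop.1 hev
  refine ⟨CS2 + Real.log L, max (max (max Tpre Tl) (max Td Ts)) Te, by linarith, ?_⟩
  intro P hOk hPCQ hT A hA grp hg hSep
  have hT1 : Tpre ≤ P.T :=
    le_trans (le_trans (le_trans (le_max_left _ _) (le_max_left _ _)) (le_max_left _ _)) hT
  have hT2 : Tl ≤ P.T :=
    le_trans (le_trans (le_trans (le_max_right _ _) (le_max_left _ _)) (le_max_left _ _)) hT
  have hT3 : Td ≤ P.T :=
    le_trans (le_trans (le_trans (le_max_left _ _) (le_max_right _ _)) (le_max_left _ _)) hT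
  have hT4 : Ts ≤ P.T :=
    le_trans (le_trans (le_trans (le_max_right _ _) (le_max_right _ _)) (le_max_left _ _)) hT
  obtain ⟨hρ1, ha01, hd0⟩ := hTe P.T (le_trans (le_max_right _ _) hT)
  have hρ1 : P.ρ ≤ 1 := hρ1
  have ha01 : 1 ≤ P.a0 := ha01
  have hd0 : Cl2 * P.dst ≤ F.d0 := hd0
  have hdst := ini_dst_pos P
  have hs0 : 0 < P.s0 := lt_of_lt_of_le hOk.sb_pos hOk.sb_le
  have hb1 : 1 ≤ bQ Q P.a0 := rt_bQ_nonneg Q ha01
  obtain ⟨c0, hc0⟩ : ∃ c0 : ℝ, c0 = P.a0 ^ (-Pe) * P.dst := ⟨_, rfl⟩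
  have hc0' : 0 ≤ c0 := by
    rw [hc0]
    exact mul_nonneg (Real.rpow_nonneg (by linarith) _) hdst.le
  -- the pointwise bound
  have hpt : ∀ v ∈ Icc P.sb P.s0, P.fst v ≤ c0 := by
    intro v hv
    have hctl := hpre P hOk hT1 v hv.1 hv.2
    have hv0 : 0 < v := hctl.v_pos
    obtain ⟨Av, hAv⟩ := hlist P hOk hT2 v P.dst hctl
    have hAv1 : F.IsMaj P.S P.x v (Cl2 * P.dst) Av :=
      Fix.IsMaj.mono (d := Cl1 * P.dst) hAv.maj hv0.le
        (mul_le_mul_of_nonneg_right h2b hdst.le)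
    have hA1 : F.IsMaj P.S P.x P.s0 (Cl2 * P.dst) A :=
      Fix.IsMaj.mono hA hs0.le (mul_le_mul_of_nonneg_right h2a hdst.le)
    have hM : Sys.Matched Av A (8 * F.Cmaj * P.s0 * Real.sqrt (Cl2 * P.dst)) := by
      refine concentric_match F hOk.root.hyp.valid hOk.root.hyp.Cg_le hv0 hv.2
        (hOk.s0_lt.le.trans hρ1) (by positivity) hd0 ?_ hAv1 hA1
      intro r hr1 hr2
      obtain ⟨h1, h2⟩ := hden P hOk hT3 r (hv.1.trans hr1) hr2
      refine ⟨h1, h2.trans (ENNReal.ofReal_le_ofReal ?_)⟩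
      have hr0 : 0 < r := lt_of_lt_of_le hv0 hr1
      exact mul_le_mul_of_nonneg_right (mul_le_mul_of_nonneg_right h2c hdst.le) (by positivity)
    obtain ⟨grp', hg', hSep'⟩ := ini_separated_transport hM grp hg hSep
    have hSep2 : Sys.Separated Av grp'
        (10 * Real.exp (CS2 * bQ Q (lev P.dst)) * v * Real.sqrt P.dst) := by
      intro i j hij
      refine le_trans ?_ (hSep' i j hij)
      rw [ini_lev_dst, Real.sqrt_mul (by linarith)]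
      have hE : Real.exp (CS2 * bQ Q P.a0) * L ≤ Real.exp ((CS2 + Real.log L) * bQ Q P.a0) := by
        rw [add_mul, Real.exp_add]
        apply mul_le_mul_of_nonneg_left _ (Real.exp_pos _).le
        calc L = Real.exp (Real.log L) := (Real.exp_log (by linarith)).symm
          _ ≤ Real.exp (Real.log L * bQ Q P.a0) := by
            apply Real.exp_le_exp.2
            nlinarith
      have hE1 : 1 ≤ Real.exp (CS2 * bQ Q P.a0) := Real.one_le_exp (by positivity)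
      have hsq := Real.sqrt_nonneg P.dst
      have hsq2 := Real.sqrt_nonneg Cl2
      have hCm := F.Cmaj_pos
      have key : 10 * Real.exp (CS2 * bQ Q P.a0) * v + 2 * (8 * F.Cmaj * P.s0 * Real.sqrt Cl2)
          ≤ Real.exp ((CS2 + Real.log L) * bQ Q P.a0) * P.s0 := by
        have h1 : 10 * Real.exp (CS2 * bQ Q P.a0) * v ≤ 10 * Real.exp (CS2 * bQ Q P.a0) * P.s0 :=
          mul_le_mul_of_nonneg_left hv.2 (by positivity)
        have h2 : 16 * F.Cmaj * Real.sqrt Cl2 ≤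
            16 * F.Cmaj * Real.sqrt Cl2 * Real.exp (CS2 * bQ Q P.a0) :=
          le_mul_of_one_le_right (by positivity) hE1
        have h3 : Real.exp (CS2 * bQ Q P.a0) * L * P.s0
            ≤ Real.exp ((CS2 + Real.log L) * bQ Q P.a0) * P.s0 :=
          mul_le_mul_of_nonneg_right hE hs0.le
        have h4 := mul_le_mul_of_nonneg_right h2 hs0.le
        have h5 : Real.exp (CS2 * bQ Q P.a0) * L * P.s0 = 10 * Real.exp (CS2 * bQ Q P.a0) * P.s0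
            + 16 * F.Cmaj * Real.sqrt Cl2 * Real.exp (CS2 * bQ Q P.a0) * P.s0 := by
          rw [hL]
          ring
        linarith
      have := mul_le_mul_of_nonneg_right key hsq
      nlinarith
    have hfin := hsg P hOk hT4 v P.dst hctl Av hAv1 grp' hg' hSep2
    rw [ini_lev_dst] at hfin
    have hD := ini_Dfar_nonneg P hOk Av
      (Real.exp (CS2 * bQ Q P.a0) * v * Real.sqrt P.dst) v
    have hlog : 0 ≤ Real.log P.a0 ^ 2 / P.a0 := by positivity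
    have hLam := ini_Lamv_nonneg P hOk v
    have htau := ini_tau_nonneg P hOk v
    have hη := ini_η_pos P
    have hd := ini_d_pos P
    have h5 : P.fst v ≤ P.Lv v - P.CQ * P.Lamv v := by
      unfold PD.fst PD.Lp PD.Lv
      have : 0 ≤ P.η / 4 * (P.tau v + P.d) := by positivity
      linarith
    have h6 : CQ * P.Lamv v ≤ P.CQ * P.Lamv v := mul_le_mul_of_nonneg_right hPCQ hLam
    have h7 := mul_nonneg hlog hD
    rw [hc0]
    linarith
  -- integration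
  have hint := ini_sub_le_of_deriv_le (f := P.Z) (f' := fun v => P.Zdot v / v)
    (g := fun v => c0 * v ^ 2 / 2) (g' := fun v => c0 * v) hOk.sb_le
    (fun v hv => P.hasDerivAt_Z hOk (lt_of_lt_of_le hOk.sb_pos hv.1))
    (fun v _ => by
      have := ((hasDerivAt_pow 2 v).const_mul c0).div_const 2
      exact this.congr_deriv (by norm_num; ring))
    (fun v hv => by
      have hv0 : 0 < v := lt_of_lt_of_le hOk.sb_pos hv.1
      simp only [PD.Zdot]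
      rw [div_le_iff₀ hv0]
      have := mul_le_mul_of_nonneg_left (hpt v hv) (by positivity : 0 ≤ v ^ 2)
      nlinarith)
  have hZsb : P.Z P.sb = 0 := by simp [PD.Z]
  rw [hZsb] at hint
  have hsb := hOk.sb_pos
  have : P.a0 ^ (-Pe) * (P.s0 ^ 2 * P.dst) = c0 * P.s0 ^ 2 := by rw [hc0]; ring
  rw [this]
  nlinarith [mul_nonneg hc0' (sq_nonneg P.sb), mul_nonneg hc0' (sq_nonneg P.s0)]

theorem ini_gauss_le (m : ℕ) (s : ℝ) (z : E m) :
    gauss m s z ≤ (2 * Real.pi * s ^ 2) ^ (-(m : ℝ) / 2) := by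
  unfold gauss
  have h0 : 0 ≤ 2 * Real.pi * s ^ 2 := by positivity
  have h1 : Real.exp (-‖z‖ ^ 2 / (2 * s ^ 2)) ≤ 1 := by
    apply Real.exp_le_one_iff.2
    apply div_nonpos_of_nonpos_of_nonneg <;> [simp; positivity]
  exact mul_le_of_le_one_right (Real.rpow_nonneg h0 _) h1

theorem ini_gauss_continuous (m : ℕ) (s : ℝ) : Continuous fun z : E m => gauss m s z := by
  unfold gauss
  fun_prop

theorem ini_ker_continuous {κ Cg : ℝ} (P : PD m n Q) (h : P.Ok κ Cg) (v : ℝ) :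
    Continuous (Sys.ker P.χ v P.x) := by
  unfold Sys.ker
  exact h.root.cut.smooth.continuous.mul
    ((ini_gauss_continuous m v).comp (continuous_id.sub continuous_const))

theorem ini_ker_support {κ Cg : ℝ} (P : PD m n Q) (h : P.Ok κ Cg) (v : ℝ) :
    Function.support (Sys.ker P.χ v P.x) ⊆ closedBall (0 : E m) 3 := by
  intro y hy
  have h1 : P.χ y ≠ 0 := fun h0 => hy (by simp [Sys.ker, h0])
  have h2 := h.root.cut.supp (subset_tsupport _ h1)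
  norm_num at h2
  simpa using h2

/-- `M_v ≤ |M|_v`. -/
theorem ini_abs_Mv_le {κ Cg : ℝ} (P : PD m n Q) (h : P.Ok κ Cg) (v : ℝ) :
    |P.Mv v| ≤ P.absMv v := by
  have h1 := h.root.hyp.valid.abs_intM_le Q (ini_ker_continuous P h v).measurable
    (isCompact_closedBall (0 : E m) 3)
    ((closedBall_subset_ball (by norm_num)).trans h.root.hyp.room) (ini_ker_support P h v)
    ((2 * Real.pi * v ^ 2) ^ (-(m : ℝ) / 2)) (fun y => by
      rw [abs_of_nonneg (ini_ker_nonneg P h v y)]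
      unfold Sys.ker
      calc P.χ y * gauss m v (y - P.x) ≤ 1 * gauss m v (y - P.x) :=
            mul_le_mul_of_nonneg_right (h.root.cut.le_one y) (ini_gauss_nonneg m v _)
        _ = gauss m v (y - P.x) := one_mul _
        _ ≤ _ := ini_gauss_le m v _)
  refine h1.trans (le_of_eq ?_)
  unfold PD.absMv Sys.absMav
  congr 1
  funext y
  exact abs_of_nonneg (ini_ker_nonneg P h v y)

/-- the algebra of the Cauchy-Schwarz step. -/
theorem ini_flux_alg {c2 CU X Y fl U R : ℝ} (hc2 : 0 < c2) (hCU : 1 ≤ CU) (hX : 0 < X)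
    (hY : 0 ≤ Y) (hfl : c2 / 2 * X ≤ fl) (hcs : fl ^ 2 ≤ U * R) (hU : U ≤ CU * (X + Y))
    (hR : 0 ≤ R) : c2 ^ 2 / (4 * CU) * (X ^ 2 / (X + Y)) ≤ R := by
  have hsq : (c2 / 2 * X) ^ 2 ≤ fl ^ 2 := pow_le_pow_left₀ (by positivity) hfl 2
  have h7 : (c2 / 2 * X) ^ 2 ≤ CU * (X + Y) * R :=
    hsq.trans (hcs.trans (mul_le_mul_of_nonneg_right hU hR))
  have hCU0 : 0 < CU := by linarith
  have : c2 ^ 2 / (4 * CU) * (X ^ 2 / (X + Y)) = (c2 / 2 * X) ^ 2 / (CU * (X + Y)) := by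
    field_simp
    ring
  rw [this, div_le_iff₀ (by positivity)]
  linarith

/-- retained flux below the threshold (AE Lemma 5.3, case `s̲ < s0/2`): at a scale
`v ∈ [s̲, s0]` with `A(v) ≥ c1 v² d_*`, for one well `b` within `Δ` of all entries of a list
at the scale `v`:  `v² R_v + v² Λ_v ≥ c v² d_* · (v² d_* / (v² d_* + Δ²))`. -/
theorem surplus_flux (m n Q : ℕ) (hm : 1 ≤ m) (hQ : 1 ≤ Q) (κ Cg : ℝ) (hκ : 0 < κ)
    (F : Fix m n Q Cg) (Cl Cw cp c1 : ℝ) (hCl : 1 ≤ Cl) (hCw : 1 ≤ Cw) (hcp : 0 < cp)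
    (hcp' : cp ≤ 1 / 4) (hc1 : 0 < c1) :
    ∃ c T0 : ℝ, 0 < c ∧ ∀ P : PD m n Q, P.Ok κ Cg → T0 ≤ P.T → ∀ v, P.sb ≤ v → v ≤ P.s0 →
      c1 * (v ^ 2 * P.dst) ≤ P.A v →
      ∀ (A : Fin Q → E n) (b : E n) (Δ : ℝ) (Γ0 : E n → ℝ), WellFn {b} Cw cp Γ0 →
      F.IsMaj P.S P.x v (Cl * P.dst) A → 0 ≤ Δ →
      Δ ^ 2 ≤ Real.sqrt P.T * (v ^ 2 * P.dst) → (∀ j, ‖A j - b‖ ≤ Δ) →
      c * (v ^ 2 * P.dst) ^ 2 / (v ^ 2 * P.dst + Δ ^ 2) ≤ v ^ 2 * P.Rv v + v ^ 2 * P.Lamv v := by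
  obtain ⟨Tpre, hpre⟩ := ctl_pre m n Q hm hQ κ Cg
  obtain ⟨C0, hC0, hws⟩ := ctl_wscalar m n Q hm hQ κ Cg hκ
  obtain ⟨Tw, hws⟩ := hws 1 0 1 le_rfl le_rfl
  obtain ⟨CU, TU, hCU, hU⟩ := U_le_of_list m n Q hm hQ κ Cg F 1 0 Cl Cw cp le_rfl le_rfl hCl hCw
  obtain ⟨Cv, hCv, hvec⟩ := exists_wellVec n Cw cp hCw hcp hcp'
  obtain ⟨Cf, Tf, hCf, hfl⟩ := flux_lower m n Q hm hQ κ Cg hκ F 1 0 Cw cp Cv 1 le_rfl le_rfl hCw
    hcp hcp' hCv
  obtain ⟨c2, hc2⟩ : ∃ c2 : ℝ, c2 = c1 / (4 * C0) := ⟨_, rfl⟩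
  have hc2pos : 0 < c2 := by rw [hc2]; positivity
  obtain ⟨CU', hCU'⟩ : ∃ CU' : ℝ, CU' = max CU 1 := ⟨_, rfl⟩
  have hCU1 : 1 ≤ CU' := hCU' ▸ le_max_right _ _
  have hCU2 : CU ≤ CU' := hCU' ▸ le_max_left _ _
  -- large `T`
  have hev : ∀ᶠ T : ℝ in atTop, 1 ≤ T ∧ CU' * (1 + Real.sqrt T) ≤ T ∧ 2 / c1 ≤ a0T Q T ∧
      2 / c2 ≤ a0T Q T ∧ 1 ≤ a0T Q T := by
    have h1 : ∀ᶠ T : ℝ in atTop, CU' * (1 + Real.sqrt T) ≤ T := by
      filter_upwards [eventually_ge_atTop ((2 * CU') ^ 2), eventually_ge_atTop (1 : ℝ)] with T hT hT1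
      have hs : 2 * CU' ≤ Real.sqrt T := Real.le_sqrt_of_sq_le hT
      have hs1 : 1 ≤ Real.sqrt T := by
        rw [Real.one_le_sqrt]
        exact hT1
      have hsq : Real.sqrt T * Real.sqrt T = T := Real.mul_self_sqrt (by linarith)
      nlinarith
    filter_upwards [eventually_ge_atTop (1 : ℝ), h1,
      (ini_a0_tendsto Q).eventually_ge_atTop (2 / c1),
      (ini_a0_tendsto Q).eventually_ge_atTop (2 / c2),
      (ini_a0_tendsto Q).eventually_ge_atTop 1] with T h1 h2 h3 h4 h5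
    exact ⟨h1, h2, h3, h4, h5⟩
  obtain ⟨Te, hTe⟩ := eventually_atTop.1 hev
  refine ⟨min c2 (c2 ^ 2 / (4 * CU')), max (max (max Tpre Tw) (max TU Tf)) Te,
    lt_min hc2pos (by positivity), ?_⟩
  intro P hOk hT v hv1 hv2 hAv A b Δ Γ0 hΓ hA hΔ hΔT hAb
  have hT1 : Tpre ≤ P.T :=
    le_trans (le_trans (le_trans (le_max_left _ _) (le_max_left _ _)) (le_max_left _ _)) hT
  have hT2 : Tw ≤ P.T :=
    le_trans (le_trans (le_trans (le_max_right _ _) (le_max_left _ _)) (le_max_left _ _)) hT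
  have hT3 : TU ≤ P.T :=
    le_trans (le_trans (le_trans (le_max_left _ _) (le_max_right _ _)) (le_max_left _ _)) hT
  have hT4 : Tf ≤ P.T :=
    le_trans (le_trans (le_trans (le_max_right _ _) (le_max_right _ _)) (le_max_left _ _)) hT
  obtain ⟨hTone, hTk, ha1, ha2, ha3⟩ := hTe P.T (le_trans (le_max_right _ _) hT)
  have ha1 : 2 / c1 ≤ P.a0 := ha1
  have ha2 : 2 / c2 ≤ P.a0 := ha2
  have ha3 : 1 ≤ P.a0 := ha3
  have ha0 : 0 < P.a0 := by linarith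
  have hctl := hpre P hOk hT1 v hv1 hv2
  have hv0 : 0 < v := hctl.v_pos
  have hdst := ini_dst_pos P
  obtain ⟨X, hX⟩ : ∃ X : ℝ, X = v ^ 2 * P.dst := ⟨_, rfl⟩
  have hXpos : 0 < X := by rw [hX]; positivity
  obtain ⟨Y, hY⟩ : ∃ Y : ℝ, Y = Δ ^ 2 := ⟨_, rfl⟩
  have hYnn : 0 ≤ Y := by rw [hY]; positivity
  rw [← hX] at hAv hΔT ⊢
  rw [← hY] at hΔT ⊢
  have hR := ini_Rv_nonneg P hOk v
  have hLam := ini_Lamv_nonneg P hOk v
  have hv2pos : 0 < v ^ 2 := by positivity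
  have hinv : P.a0 ^ (-(1 : ℝ)) = P.a0⁻¹ := Real.rpow_neg_one _
  -- `D + Λ ≥ 2 c2 d_*`
  have hDL : 2 * c2 * P.dst ≤ P.Dv v + P.Lamv v := by
    have h1 := hws P hOk hT2 v P.dst hctl
    rw [ini_lev_dst, hinv] at h1
    have h2 := (le_abs_self _).trans (ini_abs_Mv_le P hOk v)
    have h3 : c1 * P.dst ≤ P.Mv v := by
      have : c1 * X = v ^ 2 * (c1 * P.dst) := by rw [hX]; ring
      rw [this] at hAv
      exact le_of_mul_le_mul_left hAv hv2pos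
    have h4 : P.a0⁻¹ ≤ c1 / 2 := by
      rw [inv_le_comm₀ ha0 (by positivity)]
      simpa using ha1
    have h5 : P.a0⁻¹ * P.dst ≤ c1 / 2 * P.dst := mul_le_mul_of_nonneg_right h4 hdst.le
    have h6 : c1 / 2 * P.dst ≤ C0 * (P.Dv v + P.Lamv v) := by linarith
    have h7 : 2 * c2 * P.dst = (c1 / 2 * P.dst) / C0 := by
      rw [hc2]
      field_simp
      ring
    rw [h7, div_le_iff₀ hC0]
    linarith
  have hfrac : X ^ 2 / (X + Y) ≤ X := by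
    rw [div_le_iff₀ (by positivity)]
    have := mul_nonneg hXpos.le hYnn
    nlinarith
  have hfrac0 : 0 ≤ X ^ 2 / (X + Y) := by positivity
  rw [mul_div_assoc]
  by_cases hcase : c2 * P.dst ≤ P.Lamv v
  · -- the geometric term pays
    have h1 : c2 * X ≤ v ^ 2 * P.Lamv v := by
      have := mul_le_mul_of_nonneg_left hcase hv2pos.le
      rw [hX]
      linarith
    calc min c2 (c2 ^ 2 / (4 * CU')) * (X ^ 2 / (X + Y)) ≤ c2 * (X ^ 2 / (X + Y)) :=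
          mul_le_mul_of_nonneg_right (min_le_left _ _) hfrac0
      _ ≤ c2 * X := mul_le_mul_of_nonneg_left hfrac hc2pos.le
      _ ≤ v ^ 2 * P.Rv v + v ^ 2 * P.Lamv v := by
          have := mul_nonneg hv2pos.le hR
          linarith
  · -- the flux pays
    push Not at hcase
    have hD : c2 * P.dst ≤ P.Dv v := by linarith
    have hne : ({b} : Finset (E n)).Nonempty := Finset.singleton_nonempty b
    obtain ⟨V, hV⟩ := hvec {b} Γ0 hne hΓ v hv0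
    have hNear : NearW A {b} Δ := fun j => ⟨b, Finset.mem_singleton_self b, hAb j⟩
    have hUle := hU P hOk hT3 v P.dst hctl {b} Γ0 hΓ A hA Δ hΔ hNear
    rw [← hX, ← hY] at hUle
    have hUle' : P.U Γ0 v ≤ CU' * (X + Y) :=
      hUle.trans (mul_le_mul_of_nonneg_right hCU2 (by positivity))
    have hsT : 0 ≤ Real.sqrt P.T := Real.sqrt_nonneg _
    obtain ⟨k, hk⟩ : ∃ k : ℝ, k = 1 / (CU' * (1 + Real.sqrt P.T)) := ⟨_, rfl⟩
    have hden : 0 < CU' * (1 + Real.sqrt P.T) := by positivity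
    have hk1 : 1 / P.T ≤ k := by
      rw [hk]
      exact one_div_le_one_div_of_le hden hTk
    have hk2 : k ≤ 1 := by
      rw [hk, div_le_one hden]
      exact one_le_mul_of_one_le_of_one_le hCU1 (by linarith)
    have hUk : P.U Γ0 v ≤ v ^ 2 * P.dst / k := by
      rw [← hX, hk, div_div_eq_mul_div, div_one]
      refine hUle'.trans ?_
      have : X + Y ≤ (1 + Real.sqrt P.T) * X := by linarith
      calc CU' * (X + Y) ≤ CU' * ((1 + Real.sqrt P.T) * X) :=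
            mul_le_mul_of_nonneg_left this (by linarith)
        _ = X * (CU' * (1 + Real.sqrt P.T)) := by ring
    have hflux := hfl P hOk hT4 v P.dst hctl {b} Γ0 V hne hΓ hV k hk1 hk2 hUk
    rw [PD.Dtr_single, ini_lev_dst, hinv, ← hX] at hflux
    have h4 : P.a0⁻¹ ≤ c2 / 2 := by
      rw [inv_le_comm₀ ha0 (by positivity)]
      simpa using ha2
    have hfl2 : c2 / 2 * X ≤ P.flux V v := by
      have h5 : P.a0⁻¹ * X ≤ c2 / 2 * X := mul_le_mul_of_nonneg_right h4 hXpos.le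
      have h6 : c2 * X ≤ v ^ 2 * P.Dv v := by
        have := mul_le_mul_of_nonneg_left hD hv2pos.le
        rw [hX]
        linarith
      linarith
    have hcs := flux_cs P hOk hv0 hΓ.smooth.continuous hV
    have hRR : 0 ≤ v ^ 2 * P.Rv v := mul_nonneg hv2pos.le hR
    have h8 := ini_flux_alg hc2pos hCU1 hXpos hYnn hfl2 hcs hUle' hRR
    calc min c2 (c2 ^ 2 / (4 * CU')) * (X ^ 2 / (X + Y))
        ≤ c2 ^ 2 / (4 * CU') * (X ^ 2 / (X + Y)) :=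
          mul_le_mul_of_nonneg_right (min_le_right _ _) hfrac0
      _ ≤ v ^ 2 * P.Rv v := h8
      _ ≤ v ^ 2 * P.Rv v + v ^ 2 * P.Lamv v := le_add_of_nonneg_right (mul_nonneg hv2pos.le hLam)


/-- `b_Q(a0) = o(log T)`. -/
theorem ini_bQ_a0_div_log (Q : ℕ) (hQ : 1 ≤ Q) :
    Tendsto (fun T => bQ Q (a0T Q T) / Real.log T) atTop (𝓝 0) := by
  obtain ⟨q, rfl⟩ : ∃ q, Q = q + 1 := ⟨Q - 1, by omega⟩
  obtain ⟨w0, _, h⟩ := rt_bQ_le q
  obtain ⟨w1, _, hD2⟩ := rt_D2 (2 * q + 1) 2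
  obtain ⟨x0, hmono⟩ := bQ_monotoneOn (q + 1)
  have hL := rt_L_tendsto (2 * q + 1 + 1)
  have hs : Tendsto (fun T => Real.sqrt (Real.log^[2 * q + 1 + 1] T)) atTop atTop :=
    Real.tendsto_sqrt_atTop.comp hL
  have ha : Tendsto (fun T => 1624 * Real.sqrt (Real.log^[2 * q + 1 + 1] T)) atTop atTop :=
    hs.const_mul_atTop (by norm_num)
  have hab : ∀ᶠ T in atTop,
      4 * (1624 * Real.sqrt (Real.log^[2 * q + 1 + 1] T)) ≤ Real.log^[2 * q + 1 + 1] T := by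
    filter_upwards [hs.eventually_ge_atTop (4 * 1624), hL.eventually_ge_atTop 0] with T h2 h3
    have := Real.mul_self_sqrt h3
    nlinarith [Real.sqrt_nonneg (Real.log^[2 * q + 1 + 1] T)]
  have hr := rt_ratio (2 * q) _ _ ha hab
  refine squeeze_zero' ?_ ?_ hr
  · filter_upwards [eventually_ge_atTop 1, (ini_a0_tendsto (q + 1)).eventually_ge_atTop 1]
      with T hT hT2
    exact div_nonneg (le_trans zero_le_one (rt_bQ_nonneg _ hT2)) (Real.log_nonneg hT)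
  · filter_upwards [rt_ev_E_L (2 * q + 1 + 1), hs.eventually_ge_atTop w0,
      hs.eventually_ge_atTop w1, hs.eventually_ge_atTop 0,
      (ini_a0_tendsto (q + 1)).eventually_ge_atTop x0] with T h1 h2 h3 h4 h5
    have hlog : Real.log T = Real.exp^[2 * q + 1] (Real.log^[2 * q + 1 + 1] T) := by
      conv_lhs => rw [← h1]
      rw [rt_E_succ, Real.log_exp]
    rw [hlog]
    refine div_le_div_of_nonneg_right ?_ (rt_E_pos _ _).le
    have h6 : a0T (q + 1) T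
        ≤ Real.exp^[2 * q + 1 + 1] (4 * Real.sqrt (Real.log^[2 * q + 1 + 1] T)) := by
      unfold a0T
      rw [rt_FQ_eq]
      refine (hD2 _ h3).trans (le_of_eq ?_)
      norm_num
    have h7 := hmono (mem_Ici.2 h5) (mem_Ici.2 (h5.trans h6)) h6
    refine h7.trans ((h _ (by linarith)).trans (le_of_eq ?_))
    congr 1
    ring

/-- `exp(C b_Q(a0))` is below every power of `T`: the form used for the common well. -/
theorem ini_Sh_rate (Q : ℕ) (hQ : 1 ≤ Q) (C B : ℝ) :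
    ∀ᶠ T : ℝ in atTop, B * Real.exp (C * bQ Q (a0T Q T)) ≤ Real.sqrt T := by
  have h1 := (ini_bQ_a0_div_log Q hQ).const_mul C
  rw [mul_zero] at h1
  have h2 : ∀ᶠ T : ℝ in atTop, B ≤ Real.exp (Real.log T / 4) := by
    have : Tendsto (fun T : ℝ => Real.exp (Real.log T / 4)) atTop atTop :=
      Real.tendsto_exp_atTop.comp (Real.tendsto_log_atTop.atTop_div_const (by norm_num))
    exact this.eventually_ge_atTop B
  filter_upwards [h1.eventually_le_const (show (0 : ℝ) < 1 / 4 by norm_num), h2,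
    eventually_gt_atTop (1 : ℝ)] with T h3 h4 h5
  have hlog : 0 < Real.log T := Real.log_pos h5
  have h6 : C * bQ Q (a0T Q T) ≤ Real.log T / 4 := by
    have : C * (bQ Q (a0T Q T) / Real.log T) * Real.log T ≤ 1 / 4 * Real.log T :=
      mul_le_mul_of_nonneg_right h3 hlog.le
    have e : C * (bQ Q (a0T Q T) / Real.log T) * Real.log T = C * bQ Q (a0T Q T) := by
      field_simp
    linarith
  have h7 : Real.sqrt T = Real.exp (Real.log T / 4) * Real.exp (Real.log T / 4) := by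
    rw [← Real.exp_add, Real.sqrt_eq_rpow, Real.rpow_def_of_pos (by linarith)]
    congr 1
    ring
  rw [h7]
  exact mul_le_mul h4 (Real.exp_le_exp.2 h6) (Real.exp_pos _).le (Real.exp_pos _).le


theorem ini_Dv_nonneg {κ Cg : ℝ} (P : PD m n Q) (h : P.Ok κ Cg) (v : ℝ) : 0 ≤ P.Dv v :=
  integral_nonneg fun q => mul_nonneg (ini_ker_nonneg P h v q.1) (h.root.hyp.valid.e_nonneg q)

/-- `|M|_v ≤ τ_v`. -/
theorem ini_absMv_le_tau {κ Cg : ℝ} (P : PD m n Q) (h : P.Ok κ Cg) (v : ℝ) :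
    P.absMv v ≤ P.tau v :=
  integral_mono_measure (ctl_absM_le P.S Q)
    (Eventually.of_forall fun y => ini_ker_nonneg P h v y) (ctl_ker_integrable h.root v P.x)

/-- `M_v ≤ d_*` on `[s̲, ρ]`. -/
theorem ini_Mv_le_dst {κ Cg : ℝ} (P : PD m n Q) (h : P.Ok κ Cg) {v : ℝ} (h1 : P.sb ≤ v)
    (h2 : v ≤ P.ρ) : P.Mv v ≤ P.dst :=
  (le_abs_self _).trans ((ini_abs_Mv_le P h v).trans ((ini_absMv_le_tau P h v).trans (h.thr v h1 h2)))

/-- `(f_*)_v ≤ 2 d_*` on `[s̲, ρ]`. -/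
theorem ini_fst_le {κ Cg : ℝ} (P : PD m n Q) (h : P.Ok κ Cg) (hCQ : 0 ≤ P.CQ) {v : ℝ}
    (h1 : P.sb ≤ v) (h2 : v ≤ P.ρ) : P.fst v ≤ 2 * P.dst := by
  have hM := ini_Mv_le_dst P h h1 h2
  have hD := ini_Dv_nonneg P h v
  have hL := mul_nonneg hCQ (ini_Lamv_nonneg P h v)
  have hm : 0 ≤ P.η / 4 * (P.tau v + P.d) :=
    mul_nonneg (by have := ini_η_pos P; positivity)
      (add_nonneg (ini_tau_nonneg P h v) (ini_d_pos P).le)
  have e : P.fst v = 2 * P.Mv v - P.Dv v - P.CQ * P.Lamv v - P.η / 4 * (P.tau v + P.d) := rfl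
  rw [e]
  linarith

/-- `I(s0)` is comparable to `s0² d_*`. -/
theorem ini_I_s0 {κ Cg C : ℝ} (P : PD m n Q) (h : P.Ok κ Cg) (hE : EnvOut P C) :
    Real.exp (-|C|) * (P.s0 ^ 2 * P.dst) ≤ P.I P.s0 ∧
      P.I P.s0 ≤ Real.exp |C| * (P.s0 ^ 2 * P.dst) := by
  have hs0 : 0 < P.s0 := lt_of_lt_of_le h.sb_pos h.sb_le
  have h1 := P.exp_neg_a h hs0
  have h2 := abs_le.1 hE.a_s0
  have h3 := le_abs_self C
  have hd : P.dst = Real.exp (-P.a0) := rfl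
  rw [← h1, hd]
  have hsq : 0 ≤ P.s0 ^ 2 := by positivity
  constructor
  · calc Real.exp (-|C|) * (P.s0 ^ 2 * Real.exp (-P.a0))
        = P.s0 ^ 2 * Real.exp (-|C| + -P.a0) := by rw [Real.exp_add]; ring
      _ ≤ P.s0 ^ 2 * Real.exp (-P.a P.s0) :=
        mul_le_mul_of_nonneg_left (Real.exp_le_exp.2 (by linarith)) hsq
  · calc P.s0 ^ 2 * Real.exp (-P.a P.s0) ≤ P.s0 ^ 2 * Real.exp (|C| + -P.a0) :=
        mul_le_mul_of_nonneg_left (Real.exp_le_exp.2 (by linarith)) hsq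
      _ = Real.exp |C| * (P.s0 ^ 2 * Real.exp (-P.a0)) := by rw [Real.exp_add]; ring

/-- `Z(s0) - Z(v) ≤ d_* (s0² - v²)`. -/
theorem ini_Z_drop {κ Cg : ℝ} (P : PD m n Q) (h : P.Ok κ Cg) (hCQ : 0 ≤ P.CQ) {v : ℝ}
    (h1 : P.sb ≤ v) (h2 : v ≤ P.s0) : P.Z P.s0 - P.Z v ≤ P.dst * (P.s0 ^ 2 - v ^ 2) := by
  have hv0 : 0 < v := lt_of_lt_of_le h.sb_pos h1
  have := ini_sub_le_of_deriv_le (f := P.Z) (f' := fun r => P.Zdot r / r)
    (g := fun r => P.dst * r ^ 2) (g' := fun r => P.dst * (2 * r)) h2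
    (fun r hr => P.hasDerivAt_Z h (lt_of_lt_of_le hv0 hr.1))
    (fun r _ => by
      have := (hasDerivAt_pow 2 r).const_mul P.dst
      exact this.congr_deriv (by norm_num))
    (fun r hr => by
      have hr0 : 0 < r := lt_of_lt_of_le hv0 hr.1
      simp only [PD.Zdot]
      rw [div_le_iff₀ hr0]
      have := mul_le_mul_of_nonneg_left
        (ini_fst_le P h hCQ (h1.trans hr.1) (hr.2.trans h.s0_lt.le)) (by positivity : 0 ≤ r ^ 2)
      nlinarith)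
  linarith

/-- growth of `A - Z` on an interval on which `Ȧ - Ż ≥ g0`. -/
theorem ini_growth {κ Cg : ℝ} (P : PD m n Q) (h : P.Ok κ Cg) {s1 g0 : ℝ} (h0 : 0 < s1)
    (h1 : s1 ≤ P.s0) (hg0 : 0 ≤ g0) (hg : ∀ v ∈ Icc s1 P.s0, g0 ≤ P.Adot v - P.Zdot v) :
    g0 * (P.s0 - s1) / P.s0 ≤ (P.A P.s0 - P.Z P.s0) - (P.A s1 - P.Z s1) := by
  have hs0 : 0 < P.s0 := lt_of_lt_of_le h0 h1
  have := ini_sub_le_of_deriv_le (f := fun r => g0 / P.s0 * r) (f' := fun _ => g0 / P.s0)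
    (g := fun r => P.A r - P.Z r) (g' := fun r => P.Adot r / r - P.Zdot r / r) h1
    (fun r _ => by
      have := (hasDerivAt_id r).const_mul (g0 / P.s0)
      exact this.congr_deriv (by simp))
    (fun r hr => (P.hasDerivAt_A h (lt_of_lt_of_le h0 hr.1)).sub
      (P.hasDerivAt_Z h (lt_of_lt_of_le h0 hr.1)))
    (fun r hr => by
      have hr0 : 0 < r := lt_of_lt_of_le h0 hr.1
      rw [← sub_div]
      calc g0 / P.s0 ≤ g0 / r := div_le_div_of_nonneg_left hg0 hr0 hr.2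
        _ ≤ _ := div_le_div_of_nonneg_right (hg r hr) hr0.le)
  have e : g0 * (P.s0 - s1) / P.s0 = g0 / P.s0 * P.s0 - g0 / P.s0 * s1 := by ring
  rw [e]
  exact this

/-- the case `s̲` close to `s0`: `A(s0) ≤ (s0/s̲)² (A(s0) - Z(s0))`. -/
theorem ini_case_near {κ Cg : ℝ} (P : PD m n Q) (h : P.Ok κ Cg) (hB : Bank P) (hCQ : 0 ≤ P.CQ) :
    P.A P.s0 / P.s0 ^ 2 ≤ (P.A P.s0 - P.Z P.s0) / P.sb ^ 2 := by
  have hsb := h.sb_pos
  have hs0 : 0 < P.s0 := lt_of_lt_of_le h.sb_pos h.sb_le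
  have := ini_sub_le_of_deriv_le (f := fun r => P.A r / r ^ 2)
    (f' := fun r => (P.Adot r / r * r ^ 2 - P.A r * (2 * r)) / (r ^ 2) ^ 2)
    (g := fun r => (P.A r - P.Z r) / P.sb ^ 2)
    (g' := fun r => (P.Adot r / r - P.Zdot r / r) / P.sb ^ 2) h.sb_le
    (fun r hr => by
      have hr0 : 0 < r := lt_of_lt_of_le hsb hr.1
      have h2 := (hasDerivAt_pow 2 r)
      have := (P.hasDerivAt_A h hr0).div h2 (by positivity)
      exact this.congr_deriv (by norm_num))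
    (fun r hr => ((P.hasDerivAt_A h (lt_of_lt_of_le hsb hr.1)).sub
      (P.hasDerivAt_Z h (lt_of_lt_of_le hsb hr.1))).div_const _)
    (fun r hr => by
      have hr0 : 0 < r := lt_of_lt_of_le hsb hr.1
      have hρ : r ≤ P.ρ := hr.2.trans h.s0_lt.le
      have hu := hB.upper r hr.1 hρ
      have hre := hB.retained r hr.1 hρ
      have hL : 0 ≤ P.CQ * r ^ 2 * P.Lamv r :=
        mul_nonneg (mul_nonneg hCQ (by positivity)) (ini_Lamv_nonneg P h r)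
      have h1 : P.Adot r - 2 * P.A r ≤ P.Adot r - P.Zdot r := by linarith
      have h0 : 0 ≤ P.Adot r - P.Zdot r := by
        have hR : 0 ≤ r ^ 2 * P.Rv r := mul_nonneg (by positivity) (ini_Rv_nonneg P h r)
        have hm : 0 ≤ P.η / 8 * r ^ 2 * (P.tau r + P.d) :=
          mul_nonneg (mul_nonneg (by have := ini_η_pos P; positivity) (by positivity))
            (add_nonneg (ini_tau_nonneg P h r) (ini_d_pos P).le)
        linarith
      have e1 : (P.Adot r / r * r ^ 2 - P.A r * (2 * r)) / (r ^ 2) ^ 2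
          = (P.Adot r - 2 * P.A r) / r ^ 3 := by
        field_simp
      have e2 : (P.Adot r / r - P.Zdot r / r) / P.sb ^ 2
          = (P.Adot r - P.Zdot r) / (r * P.sb ^ 2) := by
        field_simp
      rw [e1, e2]
      calc (P.Adot r - 2 * P.A r) / r ^ 3 ≤ (P.Adot r - P.Zdot r) / r ^ 3 :=
            div_le_div_of_nonneg_right h1 (by positivity)
        _ ≤ (P.Adot r - P.Zdot r) / (r * P.sb ^ 2) := by
            apply div_le_div_of_nonneg_left h0 (by positivity)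
            have : P.sb ^ 2 ≤ r ^ 2 := pow_le_pow_left₀ hsb.le hr.1 2
            nlinarith)
  have hZsb : P.Z P.sb = 0 := by simp [PD.Z]
  simp only [hZsb, sub_zero] at this
  linarith


theorem ini_matched_mono {n Q : ℕ} {A A' : Fin Q → E n} {r r' : ℝ} (h : Sys.Matched A A' r)
    (hr : r ≤ r') : Sys.Matched A A' r' := by
  obtain ⟨σ, hσ⟩ := h
  exact ⟨σ, fun j => (hσ j).trans hr⟩

/-- a list at a scale `v ∈ [s0/2, s0]`, matched to the list at `s0`. -/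
theorem ini_list_near (m n Q : ℕ) (hm : 1 ≤ m) (hQ : 1 ≤ Q) (κ Cg : ℝ) (F : Fix m n Q Cg)
    (Cl : ℝ) (hCl : 1 ≤ Cl) :
    ∃ Cl1 Cm T0 : ℝ, 1 ≤ Cl1 ∧ 0 ≤ Cm ∧ ∀ P : PD m n Q, P.Ok κ Cg → T0 ≤ P.T →
      ∀ v, P.sb ≤ v → v ≤ P.s0 → P.s0 ≤ 2 * v →
      ∀ A : Fin Q → E n, F.IsMaj P.S P.x P.s0 (Cl * P.dst) A →
      ∃ Av : Fin Q → E n, F.IsMaj P.S P.x v (Cl1 * P.dst) Av ∧
        Sys.Matched Av A (Cm * P.s0 * Real.sqrt P.dst) := by
  obtain ⟨Tpre, hpre⟩ := ctl_pre m n Q hm hQ κ Cg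
  obtain ⟨Cl1, Tl, hCl1, hlist⟩ := ctl_list m n Q hm hQ κ Cg F 1 0 le_rfl le_rfl
  obtain ⟨Te, hTe⟩ := eventually_atTop.1 (ini_rho_le_one Q)
  have hCm := F.Cmaj_pos
  refine ⟨Cl1, F.Cmaj * (Real.sqrt Cl1 + Real.sqrt Cl), max (max Tpre Tl) Te, hCl1,
    by positivity, ?_⟩
  intro P hOk hT v hv1 hv2 hv3 A hA
  have hT1 : Tpre ≤ P.T := le_trans (le_trans (le_max_left _ _) (le_max_left _ _)) hT
  have hT2 : Tl ≤ P.T := le_trans (le_trans (le_max_right _ _) (le_max_left _ _)) hT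
  have hρ1 : P.ρ ≤ 1 := hTe P.T (le_trans (le_max_right _ _) hT)
  have hctl := hpre P hOk hT1 v hv1 hv2
  have hv0 : 0 < v := hctl.v_pos
  have hs0 : 0 < P.s0 := lt_of_lt_of_le hv0 hv2
  have hs01 : P.s0 ≤ 1 := hOk.s0_lt.le.trans hρ1
  obtain ⟨Av, hAv⟩ := hlist P hOk hT2 v P.dst hctl
  refine ⟨Av, hAv.maj, ?_⟩
  have hsub : ∀ r, r ≤ 1 → ball P.x r ⊆ P.S.Ω := fun r hr =>
    (hOk.ball_sub hr).trans ((ball_subset_ball (by norm_num)).trans hOk.root.hyp.room)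
  have hadj : Adjacent P.x P.x v P.s0 := by
    refine ⟨hv0, hs0, by linarith, hv3, ?_⟩
    rw [sub_self, norm_zero]
    have : 0 < min v P.s0 := lt_min hv0 hs0
    positivity
  have hM := F.matching hOk.root.hyp.valid hadj (hsub v (hv2.trans hs01)) (hsub _ hs01)
    (show F.IsMaj P.S P.x v (Cl1 * P.dst) Av from hAv.maj) hA
  refine ini_matched_mono hM ?_
  rw [Real.sqrt_mul (by linarith), Real.sqrt_mul (by linarith)]
  have h1 := Real.sqrt_nonneg P.dst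
  have h2 := Real.sqrt_nonneg Cl1
  have h3 : v * (Real.sqrt Cl1 * Real.sqrt P.dst) ≤ P.s0 * (Real.sqrt Cl1 * Real.sqrt P.dst) :=
    mul_le_mul_of_nonneg_right hv2 (by positivity)
  have h4 := mul_le_mul_of_nonneg_left h3 hCm.le
  nlinarith

theorem ini_alg_frac {cf X0 Xv D2 B : ℝ} (hcf : 0 < cf) (hX0 : 0 < X0) (h1 : X0 / 4 ≤ Xv)
    (h2 : Xv ≤ X0) (hD : D2 = B ^ 2 * X0) :
    cf * X0 / (16 * (1 + B ^ 2)) ≤ cf * Xv ^ 2 / (Xv + D2) := by
  have hXv : 0 < Xv := by linarith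
  have hB : 0 ≤ B ^ 2 := sq_nonneg B
  have hD0 : 0 ≤ D2 := by rw [hD]; positivity
  rw [div_le_div_iff₀ (by positivity) (by positivity)]
  have h3 : Xv + D2 ≤ X0 * (1 + B ^ 2) := by rw [hD]; nlinarith
  have h4 : X0 ^ 2 ≤ 16 * Xv ^ 2 := by nlinarith
  calc cf * X0 * (Xv + D2) ≤ cf * X0 * (X0 * (1 + B ^ 2)) :=
        mul_le_mul_of_nonneg_left h3 (by positivity)
    _ = cf * (1 + B ^ 2) * X0 ^ 2 := by ring
    _ ≤ cf * (1 + B ^ 2) * (16 * Xv ^ 2) := mul_le_mul_of_nonneg_left h4 (by positivity)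
    _ = cf * Xv ^ 2 * (16 * (1 + B ^ 2)) := by ring

/-- AE Lemma 5.3, common well: the moment. -/
theorem ini_surplus_U (m n Q : ℕ) (hm : 1 ≤ m) (hQ : 1 ≤ Q) (κ Cg : ℝ)
    (F : Fix m n Q Cg) (C Cl Cw cp CSh : ℝ) (hCl : 1 ≤ Cl) (hCw : 1 ≤ Cw) (hCSh : 0 < CSh) :
    ∃ C1 T0 : ℝ, 0 < C1 ∧ ∀ P : PD m n Q, P.Ok κ Cg → EnvOut P C → T0 ≤ P.T →
      ∀ A : Fin Q → E n, F.IsMaj P.S P.x P.s0 (Cl * P.dst) A →
      (∀ i j, ‖A i - A j‖ ≤ Q * (Real.exp (CSh * bQ Q P.a0) * P.s0 * Real.sqrt P.dst)) →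
      ∀ (j0 : Fin Q) (Γ0 : E n → ℝ), WellFn {A j0} Cw cp Γ0 →
      P.U Γ0 P.s0 ≤ C1 * Real.exp (2 * CSh * bQ Q P.a0) * P.I P.s0 := by
  obtain ⟨Tpre, hpre⟩ := ctl_pre m n Q hm hQ κ Cg
  obtain ⟨CU, TU, hCU, hU⟩ := U_le_of_list m n Q hm hQ κ Cg F 1 0 Cl Cw cp le_rfl le_rfl hCl hCw
  obtain ⟨Te, hTe⟩ := eventually_atTop.1 ((ini_a0_tendsto Q).eventually_ge_atTop 1)
  refine ⟨CU * (1 + (Q : ℝ) ^ 2) * Real.exp |C|, max (max Tpre TU) Te, by positivity, ?_⟩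
  intro P hOk hE hT A hA hdiam j0 Γ0 hΓ
  have hT1 : Tpre ≤ P.T := le_trans (le_trans (le_max_left _ _) (le_max_left _ _)) hT
  have hT2 : TU ≤ P.T := le_trans (le_trans (le_max_right _ _) (le_max_left _ _)) hT
  have ha0 : 1 ≤ P.a0 := hTe P.T (le_trans (le_max_right _ _) hT)
  have hb1 : 1 ≤ bQ Q P.a0 := rt_bQ_nonneg Q ha0
  have hctl := hpre P hOk hT1 P.s0 hOk.sb_le le_rfl
  have hs0 : 0 < P.s0 := hctl.v_pos
  have hdst := ini_dst_pos P
  obtain ⟨Sh, hSh⟩ : ∃ Sh : ℝ, Sh = Real.exp (CSh * bQ Q P.a0) := ⟨_, rfl⟩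
  have hSh1 : 1 ≤ Sh := by rw [hSh]; exact Real.one_le_exp (by positivity)
  have hSh2 : Real.exp (2 * CSh * bQ Q P.a0) = Sh ^ 2 := by
    rw [hSh, sq, ← Real.exp_add]
    congr 1
    ring
  rw [← hSh] at hdiam
  rw [hSh2]
  have hΔ0 : 0 ≤ (Q : ℝ) * (Sh * P.s0 * Real.sqrt P.dst) := by positivity
  have h1 := hU P hOk hT2 P.s0 P.dst hctl {A j0} Γ0 hΓ A hA _ hΔ0
    (fun j => ⟨A j0, Finset.mem_singleton_self _, hdiam j j0⟩)
  obtain ⟨X0, hX0⟩ : ∃ X0 : ℝ, X0 = P.s0 ^ 2 * P.dst := ⟨_, rfl⟩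
  have hX0pos : 0 < X0 := by rw [hX0]; positivity
  have e : ((Q : ℝ) * (Sh * P.s0 * Real.sqrt P.dst)) ^ 2 = (Q : ℝ) ^ 2 * Sh ^ 2 * X0 := by
    rw [hX0, mul_pow, mul_pow, mul_pow, Real.sq_sqrt hdst.le]
    ring
  rw [e, ← hX0] at h1
  have h2 := (ini_I_s0 P hOk hE).1
  rw [← hX0] at h2
  have h3 : X0 ≤ Real.exp |C| * P.I P.s0 := by
    have := mul_le_mul_of_nonneg_left h2 (Real.exp_pos |C|).le
    rw [← mul_assoc, ← Real.exp_add, add_neg_cancel, Real.exp_zero, one_mul] at this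
    exact this
  have hSq : 1 ≤ Sh ^ 2 := one_le_pow₀ hSh1
  calc P.U Γ0 P.s0 ≤ CU * (X0 + (Q : ℝ) ^ 2 * Sh ^ 2 * X0) := h1
    _ ≤ CU * ((1 + (Q : ℝ) ^ 2) * Sh ^ 2 * X0) := by
        apply mul_le_mul_of_nonneg_left _ hCU.le
        nlinarith
    _ ≤ CU * ((1 + (Q : ℝ) ^ 2) * Sh ^ 2 * (Real.exp |C| * P.I P.s0)) := by
        apply mul_le_mul_of_nonneg_left _ hCU.le
        exact mul_le_mul_of_nonneg_left h3 (by positivity)
    _ = CU * (1 + (Q : ℝ) ^ 2) * Real.exp |C| * Sh ^ 2 * P.I P.s0 := by ring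

theorem ini_alg_B {q Cm Sh B : ℝ} (hq : 0 ≤ q) (hCm : 0 ≤ Cm) (hSh : 1 ≤ Sh) (hB0 : 0 ≤ B)
    (hB : B ≤ (q + Cm) * Sh) : 1 + B ^ 2 ≤ (1 + q + Cm) ^ 2 * Sh ^ 2 := by
  have h1 : B ^ 2 ≤ ((q + Cm) * Sh) ^ 2 := pow_le_pow_left₀ hB0 hB 2
  have h2 : 1 ≤ Sh ^ 2 := one_le_pow₀ hSh
  have h3 : 0 ≤ (q + Cm) * Sh ^ 2 := by positivity
  nlinarith

theorem ini_alg_B' {q Cm Sh : ℝ} (_hq : 0 ≤ q) (hCm : 0 ≤ Cm) (hSh : 1 ≤ Sh) :
    q * Sh + Cm ≤ (q + Cm) * Sh := by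
  nlinarith

theorem ini_alg_mu {c3 s0 v : ℝ} (_hc3 : 0 < c3) (hc3' : c3 ≤ 1 / 2) (hs0 : 0 < s0)
    (h4 : (1 - c3 / 8) * s0 ≤ v) : s0 ≤ 2 * v ∧ s0 ^ 2 - v ^ 2 ≤ c3 / 4 * s0 ^ 2 := by
  have h5 : ((1 - c3 / 8) * s0) ^ 2 ≤ v ^ 2 := pow_le_pow_left₀ (by nlinarith) h4 2
  constructor
  · nlinarith
  · nlinarith [sq_nonneg (c3 * s0)]

theorem ini_alg_A {c3 X0 Xv Z0 Zv Av dr : ℝ} (hc3 : 0 < c3) (h1 : Z0 - Zv ≤ dr) (h2 : Zv ≤ Av)
    (h3 : dr ≤ c3 / 4 * X0) (h4 : c3 / 2 * X0 ≤ Z0) (h5 : Xv ≤ X0) : c3 / 4 * Xv ≤ Av := by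
  have := mul_le_mul_of_nonneg_left h5 (by positivity : 0 ≤ c3 / 4)
  linarith

/-- the retained flux on `[μ s0, s0]` when `Z(s0)` is a fixed fraction of `s0² d_*`. -/
theorem ini_surplus_far (m n Q : ℕ) (hm : 1 ≤ m) (hQ : 1 ≤ Q) (κ Cg : ℝ) (hκ : 0 < κ)
    (F : Fix m n Q Cg) (Cl Cw cp CSh c3 : ℝ) (hCl : 1 ≤ Cl)
    (hCw : 1 ≤ Cw) (hcp : 0 < cp) (hcp' : cp ≤ 1 / 4) (hCSh : 0 < CSh) (hc3 : 0 < c3)
    (hc3' : c3 ≤ 1 / 2) :
    ∃ c T0 : ℝ, 0 < c ∧ ∀ P : PD m n Q, P.Ok κ Cg → 1 ≤ P.CQ → Bank P → T0 ≤ P.T →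
      P.sb ≤ (1 - c3 / 8) * P.s0 → c3 / 2 * (P.s0 ^ 2 * P.dst) ≤ P.Z P.s0 →
      ∀ A : Fin Q → E n, F.IsMaj P.S P.x P.s0 (Cl * P.dst) A →
      (∀ i j, ‖A i - A j‖ ≤ Q * (Real.exp (CSh * bQ Q P.a0) * P.s0 * Real.sqrt P.dst)) →
      ∀ (j0 : Fin Q) (Γ0 : E n → ℝ), WellFn {A j0} Cw cp Γ0 →
      c * Real.exp (-(2 * CSh * bQ Q P.a0)) * (P.s0 ^ 2 * P.dst) ≤ P.A P.s0 - P.Z P.s0 := by
  obtain ⟨Cl1, Cm, Tn, hCl1, hCm, hnear⟩ := ini_list_near m n Q hm hQ κ Cg F Cl hCl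
  obtain ⟨cf, Tf, hcf, hflux⟩ := surplus_flux m n Q hm hQ κ Cg hκ F Cl1 Cw cp (c3 / 4) hCl1 hCw
    hcp hcp' (by positivity)
  have hev : ∀ᶠ T : ℝ in atTop, 1 ≤ a0T Q T ∧
      4 * ((Q : ℝ) + Cm) ^ 2 * Real.exp (2 * CSh * bQ Q (a0T Q T)) ≤ Real.sqrt T := by
    filter_upwards [(ini_a0_tendsto Q).eventually_ge_atTop 1,
      ini_Sh_rate Q hQ (2 * CSh) (4 * ((Q : ℝ) + Cm) ^ 2)] with T h1 h2
    exact ⟨h1, h2⟩
  obtain ⟨Te, hTe⟩ := eventually_atTop.1 hev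
  refine ⟨cf * c3 / (128 * (1 + (Q : ℝ) + Cm) ^ 2), max (max Tn Tf) Te, by positivity, ?_⟩
  intro P hOk hCQ hB hT hsb hZ0 A hA hdiam j0 Γ0 hΓ
  have hT1 : Tn ≤ P.T := le_trans (le_trans (le_max_left _ _) (le_max_left _ _)) hT
  have hT2 : Tf ≤ P.T := le_trans (le_trans (le_max_right _ _) (le_max_left _ _)) hT
  obtain ⟨ha0, hrate⟩ := hTe P.T (le_trans (le_max_right _ _) hT)
  have ha0 : 1 ≤ P.a0 := ha0
  have hrate : 4 * ((Q : ℝ) + Cm) ^ 2 * Real.exp (2 * CSh * bQ Q P.a0) ≤ Real.sqrt P.T := hrate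
  have hb1 : 1 ≤ bQ Q P.a0 := rt_bQ_nonneg Q ha0
  have hs0 : 0 < P.s0 := lt_of_lt_of_le hOk.sb_pos hOk.sb_le
  have hdst := ini_dst_pos P
  obtain ⟨Sh, hSh⟩ : ∃ Sh : ℝ, Sh = Real.exp (CSh * bQ Q P.a0) := ⟨_, rfl⟩
  have hSh1 : 1 ≤ Sh := by rw [hSh]; exact Real.one_le_exp (by positivity)
  have hSh2 : Real.exp (2 * CSh * bQ Q P.a0) = Sh ^ 2 := by
    rw [hSh, sq, ← Real.exp_add]
    congr 1
    ring
  have hSh3 : Real.exp (-(2 * CSh * bQ Q P.a0)) = (Sh ^ 2)⁻¹ := by rw [Real.exp_neg, hSh2]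
  rw [← hSh] at hdiam
  rw [hSh2] at hrate
  rw [hSh3]
  obtain ⟨X0, hX0⟩ : ∃ X0 : ℝ, X0 = P.s0 ^ 2 * P.dst := ⟨_, rfl⟩
  have hX0pos : 0 < X0 := by rw [hX0]; positivity
  rw [← hX0] at hZ0 ⊢
  obtain ⟨s1, hs1⟩ : ∃ s1 : ℝ, s1 = (1 - c3 / 8) * P.s0 := ⟨_, rfl⟩
  rw [← hs1] at hsb
  have hs1pos : 0 < s1 := lt_of_lt_of_le hOk.sb_pos hsb
  have hs1le : s1 ≤ P.s0 := by
    rw [hs1]
    exact mul_le_of_le_one_left hs0.le (by linarith)
  obtain ⟨B, hBdef⟩ : ∃ B : ℝ, B = (Q : ℝ) * Sh + Cm := ⟨_, rfl⟩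
  have hQ0 : (0 : ℝ) ≤ Q := Nat.cast_nonneg Q
  have hB0 : 0 ≤ B := by rw [hBdef]; positivity
  have hBle : B ≤ ((Q : ℝ) + Cm) * Sh := by rw [hBdef]; exact ini_alg_B' hQ0 hCm hSh1
  obtain ⟨g0, hg0⟩ : ∃ g0 : ℝ, g0 = cf * X0 / (16 * (1 + B ^ 2)) := ⟨_, rfl⟩
  have hg0nn : 0 ≤ g0 := by rw [hg0]; positivity
  -- the differential inequality on `[s1, s0]`
  have hstep : ∀ v ∈ Icc s1 P.s0, g0 ≤ P.Adot v - P.Zdot v := by
    intro v hv
    have hv0 : 0 < v := lt_of_lt_of_le hs1pos hv.1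
    have hvsb : P.sb ≤ v := hsb.trans hv.1
    have hvρ : v ≤ P.ρ := hv.2.trans hOk.s0_lt.le
    have hmu := ini_alg_mu hc3 hc3' hs0 (hs1 ▸ hv.1 : (1 - c3 / 8) * P.s0 ≤ v)
    have hv2 : P.s0 ≤ 2 * v := hmu.1
    obtain ⟨Xv, hXv⟩ : ∃ Xv : ℝ, Xv = v ^ 2 * P.dst := ⟨_, rfl⟩
    have hXv1 : X0 / 4 ≤ Xv := by
      rw [hX0, hXv]
      have h1 : P.s0 ^ 2 ≤ (2 * v) ^ 2 := pow_le_pow_left₀ hs0.le hv2 2
      have h2 := mul_le_mul_of_nonneg_right h1 hdst.le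
      linarith
    have hXv2 : Xv ≤ X0 := by
      rw [hX0, hXv]
      exact mul_le_mul_of_nonneg_right (pow_le_pow_left₀ hv0.le hv.2 2) hdst.le
    -- `A(v) ≥ (c3/4) v² d_*`
    have hAv : c3 / 4 * (v ^ 2 * P.dst) ≤ P.A v := by
      have h1 := ini_Z_drop P hOk (by linarith) hvsb hv.2
      have h2 := hB.Z_le_A v hvsb hvρ
      have h3 : P.dst * (P.s0 ^ 2 - v ^ 2) ≤ c3 / 4 * X0 := by
        have := mul_le_mul_of_nonneg_left hmu.2 hdst.le
        rw [hX0]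
        linarith
      rw [← hXv]
      exact ini_alg_A hc3 h1 h2 h3 hZ0 hXv2
    obtain ⟨Av, hAvm, σ, hσ⟩ := hnear P hOk hT1 v hvsb hv.2 hv2 A hA
    obtain ⟨Δ, hΔ⟩ : ∃ Δ : ℝ, Δ = B * (P.s0 * Real.sqrt P.dst) := ⟨_, rfl⟩
    have hsq := Real.sqrt_nonneg P.dst
    have hΔ0 : 0 ≤ Δ := by rw [hΔ]; positivity
    have hΔ2 : Δ ^ 2 = B ^ 2 * X0 := by
      rw [hΔ, hX0, mul_pow, mul_pow, Real.sq_sqrt hdst.le]
    have hΔT : Δ ^ 2 ≤ Real.sqrt P.T * (v ^ 2 * P.dst) := by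
      rw [hΔ2, ← hXv]
      have h1 : B ^ 2 ≤ (((Q : ℝ) + Cm) * Sh) ^ 2 := pow_le_pow_left₀ hB0 hBle 2
      have h2 : 4 * B ^ 2 ≤ Real.sqrt P.T := by
        rw [mul_pow] at h1
        linarith
      calc B ^ 2 * X0 ≤ B ^ 2 * (4 * Xv) :=
            mul_le_mul_of_nonneg_left (by linarith) (sq_nonneg B)
        _ = 4 * B ^ 2 * Xv := by ring
        _ ≤ Real.sqrt P.T * Xv := mul_le_mul_of_nonneg_right h2 (by linarith)
    have hnearb : ∀ j, ‖Av j - A j0‖ ≤ Δ := by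
      intro j
      have h1 := hσ j
      have h2 := hdiam (σ j) j0
      have h3 : ‖Av j - A j0‖ ≤ ‖Av j - A (σ j)‖ + ‖A (σ j) - A j0‖ := by
        have : Av j - A j0 = (Av j - A (σ j)) + (A (σ j) - A j0) := by abel
        rw [this]
        exact norm_add_le _ _
      rw [hΔ, hBdef]
      linarith
    have hfl := hflux P hOk hT2 v hvsb hv.2 hAv Av (A j0) Δ Γ0 hΓ hAvm hΔ0 hΔT hnearb
    rw [← hXv] at hfl
    have hfr := ini_alg_frac hcf hX0pos hXv1 hXv2 hΔ2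
    have hre := hB.retained v hvsb hvρ
    have hLam := ini_Lamv_nonneg P hOk v
    have hv2pos : 0 < v ^ 2 := by positivity
    have h7 : v ^ 2 * P.Lamv v ≤ P.CQ * v ^ 2 * P.Lamv v := by
      have := mul_le_mul_of_nonneg_right hCQ (mul_nonneg hv2pos.le hLam)
      linarith
    have hmar : 0 ≤ P.η / 8 * v ^ 2 * (P.tau v + P.d) :=
      mul_nonneg (mul_nonneg (by have := ini_η_pos P; positivity) hv2pos.le)
        (add_nonneg (ini_tau_nonneg P hOk v) (ini_d_pos P).le)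
    rw [hg0]
    linarith
  have hgr := ini_growth P hOk hs1pos hs1le hg0nn hstep
  have hΦ1 : 0 ≤ P.A s1 - P.Z s1 := by
    have := hB.Z_le_A s1 hsb (hs1le.trans hOk.s0_lt.le)
    linarith
  have e1 : g0 * (P.s0 - s1) / P.s0 = g0 * (c3 / 8) := by
    rw [hs1]
    field_simp
    ring
  rw [e1] at hgr
  -- `1 + B² ≤ (1 + Q + Cm)² Sh²`
  have hB2 : 1 + B ^ 2 ≤ (1 + (Q : ℝ) + Cm) ^ 2 * Sh ^ 2 := ini_alg_B hQ0 hCm hSh1 hB0 hBle
  have hfinal : cf * c3 / (128 * (1 + (Q : ℝ) + Cm) ^ 2) * (Sh ^ 2)⁻¹ * X0 ≤ g0 * (c3 / 8) := by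
    rw [hg0]
    have e2 : cf * c3 / (128 * (1 + (Q : ℝ) + Cm) ^ 2) * (Sh ^ 2)⁻¹ * X0
        = cf * c3 * X0 / (128 * ((1 + (Q : ℝ) + Cm) ^ 2 * Sh ^ 2)) := by
      field_simp
    have e3 : cf * X0 / (16 * (1 + B ^ 2)) * (c3 / 8) = cf * c3 * X0 / (128 * (1 + B ^ 2)) := by
      field_simp
      ring
    rw [e2, e3]
    apply div_le_div_of_nonneg_left (by positivity) (by positivity)
    linarith
  linarith

/-- AE Lemma 5.3, common well: the surplus of `I` over `Z`. -/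
theorem ini_surplus_low (m n Q : ℕ) (hm : 1 ≤ m) (hQ : 1 ≤ Q) (κ Cg : ℝ) (hκ : 0 < κ)
    (F : Fix m n Q Cg) (C Cl Cw cp CSh : ℝ) (hCl : 1 ≤ Cl)
    (hCw : 1 ≤ Cw) (hcp : 0 < cp) (hcp' : cp ≤ 1 / 4) (hCSh : 0 < CSh) :
    ∃ c1 T0 : ℝ, 0 < c1 ∧ ∀ P : PD m n Q, P.Ok κ Cg → 1 ≤ P.CQ → Bank P →
      EnvOut P C → T0 ≤ P.T →
      ∀ A : Fin Q → E n, F.IsMaj P.S P.x P.s0 (Cl * P.dst) A →
      (∀ i j, ‖A i - A j‖ ≤ Q * (Real.exp (CSh * bQ Q P.a0) * P.s0 * Real.sqrt P.dst)) →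
      ∀ (j0 : Fin Q) (Γ0 : E n → ℝ), WellFn {A j0} Cw cp Γ0 →
      c1 * Real.exp (-(2 * CSh * bQ Q P.a0)) * P.I P.s0 ≤ P.I P.s0 - P.Z P.s0 := by
  obtain ⟨c3, hc3def⟩ : ∃ c3 : ℝ, c3 = Real.exp (-|C|) / 2 := ⟨_, rfl⟩
  have hc3 : 0 < c3 := by rw [hc3def]; positivity
  have hc3' : c3 ≤ 1 / 2 := by
    rw [hc3def]
    have : Real.exp (-|C|) ≤ 1 := Real.exp_le_one_iff.2 (by simp)
    linarith
  obtain ⟨cF, TF, hcF, hfar⟩ := ini_surplus_far m n Q hm hQ κ Cg hκ F Cl Cw cp CSh c3 hCl hCw hcp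
    hcp' hCSh hc3 hc3'
  obtain ⟨Te, hTe⟩ := eventually_atTop.1 ((ini_a0_tendsto Q).eventually_ge_atTop 1)
  refine ⟨min (1 / 8) (min (c3 ^ 2) (cF * (2 * c3))), max TF Te,
    lt_min (by norm_num) (lt_min (by positivity) (by positivity)), ?_⟩
  intro P hOk hCQ hB hE hT A hA hdiam j0 Γ0 hΓ
  have hT1 : TF ≤ P.T := le_trans (le_max_left _ _) hT
  have ha0 : 1 ≤ P.a0 := hTe P.T (le_trans (le_max_right _ _) hT)
  have hb1 : 1 ≤ bQ Q P.a0 := rt_bQ_nonneg Q ha0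
  have hs0 : 0 < P.s0 := lt_of_lt_of_le hOk.sb_pos hOk.sb_le
  have hdst := ini_dst_pos P
  obtain ⟨Ee, hEe⟩ : ∃ Ee : ℝ, Ee = Real.exp (-(2 * CSh * bQ Q P.a0)) := ⟨_, rfl⟩
  have hEe0 : 0 < Ee := by rw [hEe]; exact Real.exp_pos _
  have hEe1 : Ee ≤ 1 := by
    rw [hEe]
    apply Real.exp_le_one_iff.2
    have : 0 ≤ 2 * CSh * bQ Q P.a0 := by positivity
    linarith
  have hfar' := hfar P hOk hCQ hB hT1
  rw [← hEe] at hfar' ⊢
  obtain ⟨X0, hX0⟩ : ∃ X0 : ℝ, X0 = P.s0 ^ 2 * P.dst := ⟨_, rfl⟩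
  have hX0pos : 0 < X0 := by rw [hX0]; positivity
  rw [← hX0] at hfar'
  obtain ⟨hI1, hI2⟩ := ini_I_s0 P hOk hE
  rw [← hX0] at hI1 hI2
  have hI1' : 2 * c3 * X0 ≤ P.I P.s0 := by
    rw [hc3def]
    linarith
  have hI2' : 2 * c3 * P.I P.s0 ≤ X0 := by
    have := mul_le_mul_of_nonneg_left hI2 (Real.exp_pos (-|C|)).le
    rw [← mul_assoc, ← Real.exp_add, neg_add_cancel, Real.exp_zero, one_mul] at this
    rw [hc3def]
    linarith
  have hIpos : 0 < P.I P.s0 := P.I_pos hOk hs0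
  have hIA : P.A P.s0 ≤ P.I P.s0 := P.I_ge_A hOk hs0 hOk.s0_lt.le
  have hZA : P.Z P.s0 ≤ P.A P.s0 := hB.Z_le_A P.s0 hOk.sb_le hOk.s0_lt.le
  obtain ⟨c1, hc1⟩ : ∃ c1 : ℝ, c1 = min (1 / 8) (min (c3 ^ 2) (cF * (2 * c3))) := ⟨_, rfl⟩
  rw [← hc1]
  have hc1a : c1 ≤ 1 / 8 := hc1 ▸ min_le_left _ _
  have hc1b : c1 ≤ c3 ^ 2 := hc1 ▸ le_trans (min_le_right _ _) (min_le_left _ _)
  have hc1c : c1 ≤ cF * (2 * c3) := hc1 ▸ le_trans (min_le_right _ _) (min_le_right _ _)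
  have hc1pos : 0 < c1 := by
    rw [hc1]
    exact lt_min (by norm_num) (lt_min (by positivity) (by positivity))
  -- it suffices to have a fixed fraction of `I`
  have hsuff : ∀ c : ℝ, c1 ≤ c → c * P.I P.s0 ≤ P.I P.s0 - P.Z P.s0 →
      c1 * Ee * P.I P.s0 ≤ P.I P.s0 - P.Z P.s0 := by
    intro c hc h
    refine le_trans ?_ h
    apply mul_le_mul_of_nonneg_right _ hIpos.le
    calc c1 * Ee ≤ c1 * 1 := mul_le_mul_of_nonneg_left hEe1 hc1pos.le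
      _ = c1 := mul_one _
      _ ≤ c := hc
  by_cases h1 : P.A P.s0 ≤ P.I P.s0 / 2
  · exact hsuff (1 / 8) hc1a (by linarith)
  push Not at h1
  by_cases h2 : P.sb ≤ (1 - c3 / 8) * P.s0
  · by_cases h3 : c3 / 2 * X0 ≤ P.A P.s0 - P.Z P.s0
    · refine hsuff (c3 ^ 2) hc1b ?_
      have : c3 ^ 2 * P.I P.s0 = c3 / 2 * (2 * c3 * P.I P.s0) := by ring
      rw [this]
      have := mul_le_mul_of_nonneg_left hI2' (by positivity : 0 ≤ c3 / 2)
      linarith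
    · push Not at h3
      have hZ0 : c3 / 2 * X0 ≤ P.Z P.s0 := by linarith
      have h4 := hfar' h2 hZ0 A hA hdiam j0 Γ0 hΓ
      have h5 : c1 * Ee * P.I P.s0 ≤ cF * Ee * X0 := by
        calc c1 * Ee * P.I P.s0 ≤ cF * (2 * c3) * Ee * P.I P.s0 :=
              mul_le_mul_of_nonneg_right (mul_le_mul_of_nonneg_right hc1c hEe0.le) hIpos.le
          _ = cF * Ee * (2 * c3 * P.I P.s0) := by ring
          _ ≤ cF * Ee * X0 := mul_le_mul_of_nonneg_left hI2' (by positivity)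
      linarith
  · push Not at h2
    refine hsuff (1 / 8) hc1a ?_
    have h3 := ini_case_near P hOk hB (by linarith)
    have hsb := hOk.sb_pos
    have h4 : P.s0 ≤ 2 * P.sb := by nlinarith
    have h5 : P.s0 ^ 2 ≤ 4 * P.sb ^ 2 := by
      have := pow_le_pow_left₀ hs0.le h4 2
      linarith
    have hΦ : 0 ≤ P.A P.s0 - P.Z P.s0 := by linarith
    have h6 : P.A P.s0 ≤ 4 * (P.A P.s0 - P.Z P.s0) := by
      rw [div_le_div_iff₀ (by positivity) (by positivity)] at h3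
      have h7 : (P.A P.s0 - P.Z P.s0) * P.s0 ^ 2 ≤ (P.A P.s0 - P.Z P.s0) * (4 * P.sb ^ 2) :=
        mul_le_mul_of_nonneg_left h5 hΦ
      have h8 : P.A P.s0 * P.sb ^ 2 ≤ 4 * (P.A P.s0 - P.Z P.s0) * P.sb ^ 2 := by linarith
      exact le_of_mul_le_mul_right h8 (by positivity)
    linarith

/-- AE Lemma 5.3, common well: the moment and the surplus of `I` over `Z`. -/
theorem surplus (m n Q : ℕ) (hm : 1 ≤ m) (hQ : 1 ≤ Q) (κ Cg : ℝ) (hκ : 0 < κ)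
    (F : Fix m n Q Cg) (K C Cl Cw cp CSh : ℝ) (hK : 2 * (m : ℝ) + 100 < K) (hCl : 1 ≤ Cl)
    (hCw : 1 ≤ Cw) (hcp : 0 < cp) (hcp' : cp ≤ 1 / 4) (hCSh : 0 < CSh) :
    ∃ c1 C1 T0 : ℝ, 0 < c1 ∧ 0 < C1 ∧ ∀ P : PD m n Q, P.K = K → P.Ok κ Cg → 1 ≤ P.CQ → Bank P →
      EnvOut P C → T0 ≤ P.T → P.sb < P.s0 →
      ∀ A : Fin Q → E n, F.IsMaj P.S P.x P.s0 (Cl * P.dst) A →
      (∀ i j, ‖A i - A j‖ ≤ Q * (Real.exp (CSh * bQ Q P.a0) * P.s0 * Real.sqrt P.dst)) →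
      ∀ (j0 : Fin Q) (Γ0 : E n → ℝ), WellFn {A j0} Cw cp Γ0 →
      P.U Γ0 P.s0 ≤ C1 * Real.exp (2 * CSh * bQ Q P.a0) * P.I P.s0 ∧
      c1 * Real.exp (-(2 * CSh * bQ Q P.a0)) * P.I P.s0 ≤ P.I P.s0 - P.Z P.s0 := by
  obtain ⟨C1, T1, hC1, hU⟩ := ini_surplus_U m n Q hm hQ κ Cg F C Cl Cw cp CSh hCl hCw hCSh
  obtain ⟨c1, T2, hc1, hL⟩ := ini_surplus_low m n Q hm hQ κ Cg hκ F C Cl Cw cp CSh hCl hCw hcp
    hcp' hCSh
  refine ⟨c1, C1, max T1 T2, hc1, hC1, ?_⟩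
  intro P _ hOk hCQ hB hE hT _ A hA hdiam j0 Γ0 hΓ
  exact ⟨hU P hOk hE (le_trans (le_max_left _ _) hT) A hA hdiam j0 Γ0 hΓ,
    hL P hOk hCQ hB hE (le_trans (le_max_right _ _) hT) A hA hdiam j0 Γ0 hΓ⟩

/-- **AE Lemma 5.3 (initialization).** -/
theorem init (m n Q : ℕ) (hm : 1 ≤ m) (hQ : 1 ≤ Q)
    (ih : ∀ q : ℕ, 1 ≤ q → q < Q → SignedAt m n q) (κ Cg : ℝ) (hκ : 0 < κ) (F : Fix m n Q Cg)
    (K Cw cp P0 : ℝ) (hK : 2 * (m : ℝ) + 100 < K) (hCw : 1 ≤ Cw) (hcp : 0 < cp)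
    (hcp' : cp ≤ 1 / 4) (hP0 : 0 < P0)
    (hwf : ∀ W : Finset (E n), W.Nonempty → W.card ≤ Q → ∃ Γ0 : E n → ℝ, WellFn W Cw cp Γ0) :
    ∃ CQ1 : ℝ, ∀ C : ℝ, ∃ Cl0 : ℝ, ∀ Cl kmax : ℝ, Cl0 ≤ Cl → 0 < kmax → ∃ Ck0 T0 : ℝ,
      0 ≤ Ck0 ∧ ∀ Ce CS1 : ℝ, 0 ≤ Ce →
      ∀ P : PD m n Q, P.K = K → P.Ok κ Cg → CQ1 ≤ P.CQ → Bank P → EnvOut P C → T0 ≤ P.T →
      ∃ (W : Finset (E n)) (Γ0 : E n → ℝ) (k0 : ℝ),
        PreSt P F ⟨Cl, Cw, cp, Ce, CS1, kmax, P0⟩ P.s0 W Γ0 k0 ∧ k0 ≤ kmax ∧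
        Real.exp (-(Ck0 * (1 + bQ Q P.a0))) ≤ k0 := by
  classical
  obtain ⟨CQz, hZ⟩ := init_Z m n Q hm hQ ih κ Cg hκ F (P0 + 2) (by linarith)
  obtain ⟨Tp, hpre⟩ := ctl_pre m n Q hm hQ κ Cg
  obtain ⟨Cl', Tli, hCl', hlist⟩ := ctl_list m n Q hm hQ κ Cg F 1 0 le_rfl le_rfl
  obtain ⟨CSh, Tz, hCSh, hZ⟩ := hZ Cl' hCl'
  obtain ⟨CU, TU, hCU, hU⟩ :=
    U_le_of_list m n Q hm hQ κ Cg F 1 0 Cl' Cw cp le_rfl le_rfl hCl' hCw
  refine ⟨max CQz 1, fun C => ?_⟩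
  obtain ⟨c1, C1, Ts, hc1, hC1, hsur⟩ :=
    surplus m n Q hm hQ κ Cg hκ F K C Cl' Cw cp CSh hK hCl' hCw hcp hcp' hCSh
  refine ⟨Cl' * Real.exp C, fun Cl kmax hCl hkmax => ?_⟩
  have heC : 0 < Real.exp C := Real.exp_pos C
  set km : ℝ := min kmax (1 / 16) with hkm
  have hkmpos : 0 < km := lt_min hkmax (by norm_num)
  set kA : ℝ := min km (1 / (2 * CU * Real.exp C)) with hkA
  have hkApos : 0 < kA := lt_min hkmpos (by positivity)
  set κB : ℝ := min km (c1 / C1) with hκB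
  have hκBpos : 0 < κB := lt_min hkmpos (by positivity)
  set κ0 : ℝ := min kA κB with hκ0
  have hκ0pos : 0 < κ0 := lt_min hkApos hκBpos
  set Ck0 : ℝ := max (max (-Real.log κ0) (4 * CSh)) 0 with hCk0
  have hCk0a : -Real.log κ0 ≤ Ck0 := (le_max_left _ _).trans (le_max_left _ _)
  have hCk0b : 4 * CSh ≤ Ck0 := (le_max_right _ _).trans (le_max_left _ _)
  have hCk00 : 0 ≤ Ck0 := le_max_right _ _
  obtain ⟨Ta, hTa⟩ := Filter.eventually_atTop.1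
    ((ini_a0_tendsto Q).eventually_ge_atTop (max (3 + C) (4 * Real.exp C)))
  refine ⟨Ck0, max (max (max Tp Tli) (max Tz TU)) (max Ts Ta), hCk00, fun Ce CS1 hCe P hPK hok hCQ
    hBank hEnv hT => ?_⟩
  have hTp : Tp ≤ P.T := (((le_max_left _ _).trans (le_max_left _ _)).trans (le_max_left _ _)).trans hT
  have hTli : Tli ≤ P.T :=
    (((le_max_right _ _).trans (le_max_left _ _)).trans (le_max_left _ _)).trans hT
  have hTz : Tz ≤ P.T := (((le_max_left _ _).trans (le_max_right _ _)).trans (le_max_left _ _)).trans hT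
  have hTU : TU ≤ P.T :=
    (((le_max_right _ _).trans (le_max_right _ _)).trans (le_max_left _ _)).trans hT
  have hTs : Ts ≤ P.T := ((le_max_left _ _).trans (le_max_right _ _)).trans hT
  have hTa' : Ta ≤ P.T := ((le_max_right _ _).trans (le_max_right _ _)).trans hT
  have hC0 : 0 ≤ C := (abs_nonneg _).trans hEnv.a_s0
  have ha0 : max (3 + C) (4 * Real.exp C) ≤ P.a0 := hTa P.T hTa'
  have ha03 : 3 + C ≤ P.a0 := (le_max_left _ _).trans ha0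
  have ha04 : 4 * Real.exp C ≤ P.a0 := (le_max_right _ _).trans ha0
  have ha0pos : 0 < P.a0 := by linarith
  have hs0pos : 0 < P.s0 := lt_of_lt_of_le hok.sb_pos hok.sb_le
  obtain ⟨has1, has2⟩ := abs_le.1 hEnv.a_s0
  have has3 : 3 ≤ P.a P.s0 := by linarith
  have hb1 : 1 ≤ bQ Q P.a0 := rt_bQ_nonneg Q (by linarith)
  have hctl : P.Ctl 1 0 P.s0 P.dst := hpre P hok hTp P.s0 hok.sb_le le_rfl
  obtain ⟨A, hAw⟩ := hlist P hok hTli P.s0 P.dst hctl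
  have hA : F.IsMaj P.S P.x P.s0 (Cl' * P.dst) A := hAw.maj
  have hdst : P.dst = Real.exp (-P.a0) := rfl
  have hI : P.s0 ^ 2 * Real.exp (-P.a P.s0) = P.I P.s0 := P.exp_neg_a hok hs0pos
  have hIpos : 0 < P.I P.s0 := P.I_pos hok hs0pos
  have hde : P.dst ≤ Real.exp C * Real.exp (-P.a P.s0) := by
    rw [hdst, ← Real.exp_add]
    exact Real.exp_le_exp.2 (by linarith)
  have hdI : P.s0 ^ 2 * P.dst ≤ Real.exp C * P.I P.s0 := by
    rw [← hI]
    have := mul_le_mul_of_nonneg_left hde (sq_nonneg P.s0)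
    linarith
  have hAl : P.IsList F Cl P.s0 A := by
    refine Fix.IsMaj.mono (F := F) hA hs0pos.le ?_
    have h1 := mul_le_mul_of_nonneg_left hde (by linarith : (0 : ℝ) ≤ Cl')
    have h2 := mul_le_mul_of_nonneg_right hCl (Real.exp_pos (-P.a P.s0)).le
    linarith
  have hZ0 : 0 ≤ P.Z P.s0 := hBank.Z_nonneg P.s0 hok.sb_le hok.s0_lt.le
  have hmem : P.s0 ∈ P.path := ⟨le_rfl, hEnv.s0_lt.le⟩
  have hexpk : Real.exp (-Ck0) ≤ κ0 := by
    rw [← Real.exp_log hκ0pos]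
    exact Real.exp_le_exp.2 (by linarith)
  have heps : ∀ k : ℝ, 0 ≤ P.eps Ce k P.s0 := by
    intro k
    unfold PD.eps
    positivity
  -- numerical facts
  set x : ℝ := P.a0 ^ (-(P0 + 2)) with hx
  have hxpos : 0 < x := Real.rpow_pos_of_pos ha0pos _
  have hx2 : x ≤ (P.a0 ^ 2)⁻¹ := by
    have h1 : x ≤ P.a0 ^ (-2 : ℝ) :=
      Real.rpow_le_rpow_of_exponent_le (by linarith) (by linarith)
    have h2 : P.a0 ^ (-2 : ℝ) = (P.a0 ^ 2)⁻¹ := by
      rw [Real.rpow_neg ha0pos.le]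
      norm_num
    rwa [h2] at h1
  have hnum1 : (1 + P.a0 + C) * (x * Real.exp C) ≤ 1 / 2 := by
    have h1 : x * Real.exp C ≤ (P.a0 ^ 2)⁻¹ * (P.a0 / 4) :=
      mul_le_mul hx2 (by linarith) heC.le (by positivity)
    have h2 : (P.a0 ^ 2)⁻¹ * (P.a0 / 4) = 1 / (4 * P.a0) := by
      field_simp
    have h3 : (1 + P.a0 + C) * (x * Real.exp C) ≤ (2 * P.a0) * (1 / (4 * P.a0)) := by
      rw [← h2]
      exact mul_le_mul (by linarith) h1 (by positivity) (by positivity)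
    have h4 : (2 * P.a0) * (1 / (4 * P.a0)) = 1 / 2 := by
      field_simp
      norm_num
    linarith
  have hnum2 : x * Real.exp C ≤ (P.a0 / 2) ^ (-P0) := by
    have h1 : x = P.a0 ^ (-P0) * P.a0 ^ (-2 : ℝ) := by
      rw [hx, ← Real.rpow_add ha0pos]
      congr 1
      ring
    have h2 : P.a0 ^ (-2 : ℝ) = (P.a0 ^ 2)⁻¹ := by
      rw [Real.rpow_neg ha0pos.le]
      norm_num
    have h3 : (P.a0 ^ 2)⁻¹ * Real.exp C ≤ 1 := by
      rw [inv_mul_le_iff₀ (by positivity)]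
      have h6 : P.a0 ≤ P.a0 ^ 2 := le_self_pow₀ (by linarith) two_ne_zero
      linarith
    have h4 : P.a0 ^ (-P0) ≤ (P.a0 / 2) ^ (-P0) :=
      Real.rpow_le_rpow_of_nonpos (by linarith) (by linarith) (by linarith)
    have h5 : 0 < P.a0 ^ (-P0) := Real.rpow_pos_of_pos ha0pos _
    calc x * Real.exp C = P.a0 ^ (-P0) * ((P.a0 ^ 2)⁻¹ * Real.exp C) := by rw [h1, h2]; ring
      _ ≤ P.a0 ^ (-P0) * 1 := mul_le_mul_of_nonneg_left h3 h5.le
      _ ≤ (P.a0 / 2) ^ (-P0) := by rw [mul_one]; exact h4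
  -- case (A)
  have caseA : P.Z P.s0 ≤ x * (P.s0 ^ 2 * P.dst) →
      ∃ (W : Finset (E n)) (Γ0 : E n → ℝ) (k0 : ℝ),
        PreSt P F ⟨Cl, Cw, cp, Ce, CS1, kmax, P0⟩ P.s0 W Γ0 k0 ∧ k0 ≤ kmax ∧
        Real.exp (-(Ck0 * (1 + bQ Q P.a0))) ≤ k0 := by
    intro hZs
    have hZI : P.Z P.s0 ≤ x * Real.exp C * P.I P.s0 := by
      have := mul_le_mul_of_nonneg_left hdI hxpos.le
      linarith
    set W : Finset (E n) := Finset.univ.image A with hW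
    have hWne : W.Nonempty := ⟨A ⟨0, hQ⟩, Finset.mem_image_of_mem _ (Finset.mem_univ _)⟩
    have hWcard : W.card ≤ Q := Finset.card_image_le.trans (by simp)
    obtain ⟨Γ0, hΓ0⟩ := hwf W hWne hWcard
    have hNear : NearW A W 0 := fun j =>
      ⟨A j, Finset.mem_image_of_mem _ (Finset.mem_univ _), by simp⟩
    have hUs := hU P hok hTU P.s0 P.dst hctl W Γ0 hΓ0 A hA 0 le_rfl hNear
    have hkA16 : kA ≤ 1 / 16 := (min_le_left _ _).trans (min_le_right _ _)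
    have hkAmax : kA ≤ kmax := (min_le_left _ _).trans (min_le_left _ _)
    refine ⟨W, Γ0, kA, ?_, hkAmax, ?_⟩
    · refine
        { mem := hmem
          ne := hWne
          card := hWcard
          wf := hΓ0
          k_pos := hkApos
          k_le := by show kA ≤ 2 * kmax; linarith
          bar := ?_
          rep := ⟨A, hAl, fun b hb => ?_⟩
          hist := fun _ => ⟨?_, fun s hs => absurd hs.2 (not_lt.2 hs.1)⟩ }
      · unfold PD.Bar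
        have hal := (alf_bounds W.card hkApos hkA16 has3).2.1
        have h1 : kA * P.U Γ0 P.s0 ≤ P.I P.s0 / 2 := by
          have h2 : P.U Γ0 P.s0 ≤ CU * Real.exp C * P.I P.s0 := by
            have h7 := mul_le_mul_of_nonneg_left hdI hCU.le
            have h8 : ((0 : ℝ)) ^ 2 = 0 := by norm_num
            rw [h8, add_zero] at hUs
            linarith
          have h3 : kA * (CU * Real.exp C) ≤ 1 / 2 := by
            have h4 : kA ≤ 1 / (2 * CU * Real.exp C) := min_le_right _ _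
            have h5 := mul_le_mul_of_nonneg_right h4 (by positivity : 0 ≤ CU * Real.exp C)
            have h6 : 1 / (2 * CU * Real.exp C) * (CU * Real.exp C) = 1 / 2 := by
              field_simp
            linarith
          calc kA * P.U Γ0 P.s0 ≤ kA * (CU * Real.exp C * P.I P.s0) :=
                mul_le_mul_of_nonneg_left h2 hkApos.le
            _ = kA * (CU * Real.exp C) * P.I P.s0 := by ring
            _ ≤ 1 / 2 * P.I P.s0 := mul_le_mul_of_nonneg_right h3 hIpos.le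
            _ = P.I P.s0 / 2 := by ring
        have h2 : alf W.card kA (P.a P.s0) * P.Z P.s0 ≤ P.I P.s0 / 2 := by
          calc alf W.card kA (P.a P.s0) * P.Z P.s0 ≤ (1 + P.a0 + C) * P.Z P.s0 :=
                mul_le_mul_of_nonneg_right (by linarith) hZ0
            _ ≤ (1 + P.a0 + C) * (x * Real.exp C * P.I P.s0) :=
                mul_le_mul_of_nonneg_left hZI (by linarith)
            _ = (1 + P.a0 + C) * (x * Real.exp C) * P.I P.s0 := by ring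
            _ ≤ 1 / 2 * P.I P.s0 := mul_le_mul_of_nonneg_right hnum1 hIpos.le
            _ = P.I P.s0 / 2 := by ring
        linarith
      · obtain ⟨j, _, rfl⟩ := Finset.mem_image.1 hb
        exact ⟨j, by simpa using heps kA⟩
      · exact hZI.trans (mul_le_mul_of_nonneg_right hnum2 hIpos.le)
    · have h0 : 0 ≤ Ck0 * bQ Q P.a0 := mul_nonneg hCk00 (by linarith)
      have h1 : Real.exp (-(Ck0 * (1 + bQ Q P.a0))) ≤ Real.exp (-Ck0) :=
        Real.exp_le_exp.2 (by linarith)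
      exact (h1.trans hexpk).trans (min_le_left _ _)
  by_cases hsb : P.sb = P.s0
  · refine caseA ?_
    have : P.Z P.s0 = 0 := by
      unfold PD.Z
      rw [hsb, intervalIntegral.integral_same]
    rw [this]
    have := ini_dst_pos P
    positivity
  have hsblt : P.sb < P.s0 := lt_of_le_of_ne hok.sb_le hsb
  rcases grouping_or_diam A (Real.exp (CSh * bQ Q P.a0) * P.s0 * Real.sqrt P.dst)
    (by positivity) with ⟨grp, h2, hsep⟩ | hdiam
  · exact caseA (hZ P hok ((le_max_left _ _).trans hCQ) hTz A hA grp h2 hsep)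
  -- case (B)
  set j0 : Fin Q := ⟨0, hQ⟩ with hj0
  obtain ⟨Γ0, hΓ0⟩ := hwf {A j0} (Finset.singleton_nonempty _) (by simpa using hQ)
  obtain ⟨hUs, hsp⟩ := hsur P hPK hok ((le_max_right _ _).trans hCQ) hBank hEnv hTs hsblt A hA hdiam
    j0 Γ0 hΓ0
  set e4 : ℝ := Real.exp (-(4 * CSh * bQ Q P.a0)) with he4
  have he4pos : 0 < e4 := Real.exp_pos _
  have he41 : e4 ≤ 1 := by
    have h0 : 0 ≤ 4 * CSh * bQ Q P.a0 := mul_nonneg (by linarith) (by linarith)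
    exact Real.exp_le_one_iff.2 (by linarith)
  set kB : ℝ := min km (c1 / C1 * e4) with hkB
  have hkBpos : 0 < kB := lt_min hkmpos (by positivity)
  have hkB16 : kB ≤ 1 / 16 := (min_le_left _ _).trans (min_le_right _ _)
  have hkBmax : kB ≤ kmax := (min_le_left _ _).trans (min_le_left _ _)
  refine ⟨{A j0}, Γ0, kB, ?_, hkBmax, ?_⟩
  · refine
      { mem := hmem
        ne := Finset.singleton_nonempty _
        card := by simpa using hQ
        wf := hΓ0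
        k_pos := hkBpos
        k_le := by show kB ≤ 2 * kmax; linarith
        bar := ?_
        rep := ⟨A, hAl, fun b hb => ?_⟩
        hist := fun h => absurd h (by simp) }
    · unfold PD.Bar
      have hal := (alf_bounds ({A j0} : Finset (E n)).card hkBpos hkB16 has3).2.2 (by simp)
      have h1 : alf ({A j0} : Finset (E n)).card kB (P.a P.s0) * P.Z P.s0 ≤ P.Z P.s0 := by
        have : alf ({A j0} : Finset (E n)).card kB (P.a P.s0) ≤ 1 := by linarith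
        exact mul_le_of_le_one_left hZ0 this
      have h2 : kB * P.U Γ0 P.s0 ≤ c1 * Real.exp (-(2 * CSh * bQ Q P.a0)) * P.I P.s0 := by
        have h3 : kB ≤ c1 / C1 * e4 := min_le_right _ _
        have h4 : 0 ≤ C1 * Real.exp (2 * CSh * bQ Q P.a0) * P.I P.s0 := by positivity
        have h5 : e4 * Real.exp (2 * CSh * bQ Q P.a0) = Real.exp (-(2 * CSh * bQ Q P.a0)) := by
          rw [he4, ← Real.exp_add]
          congr 1
          ring
        calc kB * P.U Γ0 P.s0 ≤ kB * (C1 * Real.exp (2 * CSh * bQ Q P.a0) * P.I P.s0) :=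
              mul_le_mul_of_nonneg_left hUs hkBpos.le
          _ ≤ c1 / C1 * e4 * (C1 * Real.exp (2 * CSh * bQ Q P.a0) * P.I P.s0) :=
              mul_le_mul_of_nonneg_right h3 h4
          _ = c1 * (e4 * Real.exp (2 * CSh * bQ Q P.a0)) * P.I P.s0 := by
              field_simp
          _ = c1 * Real.exp (-(2 * CSh * bQ Q P.a0)) * P.I P.s0 := by rw [h5]
      linarith
    · rw [Finset.mem_singleton.1 hb]
      exact ⟨j0, by simpa using heps kB⟩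
  · have h1 : Real.exp (-(Ck0 * (1 + bQ Q P.a0))) = Real.exp (-Ck0) * Real.exp (-(Ck0 * bQ Q P.a0)) := by
      rw [← Real.exp_add]
      congr 1
      ring
    have h2 : Real.exp (-(Ck0 * bQ Q P.a0)) ≤ e4 := by
      have h0 := mul_le_mul_of_nonneg_right hCk0b (by linarith : (0 : ℝ) ≤ bQ Q P.a0)
      exact Real.exp_le_exp.2 (by linarith)
    have h3 : κ0 * e4 ≤ kB := by
      refine le_min ?_ ?_
      · have : κ0 ≤ km := (min_le_right _ _).trans (min_le_left _ _)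
        exact (mul_le_of_le_one_right hκ0pos.le he41).trans this
      · have : κ0 ≤ c1 / C1 := (min_le_right _ _).trans (min_le_right _ _)
        exact mul_le_mul_of_nonneg_right this he4pos.le
    rw [h1]
    exact (mul_le_mul hexpk h2 (Real.exp_pos _).le hκ0pos.le).trans h3

end Claimed.Agent.R322.Sx
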