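import Claimed.Agent.R322.Sx.Bottom
import Claimed.Agent.R322.Sx.Chain
import Claimed.Agent.R322.Sx.Trunc
import Claimed.Agent.R322.Pack031

/-!
# R322 / Sx / Main : the signed-excess theorem (AE Theorem 3.1) for valid sheeted systems

`signed_step` = "Completion of the proof of Theorem 3.1" (end of AE Section 6).  Ingredients:
`exists_fix`, `contact_local` (with the continuation set `contSet`), `bottom`, `path_chain`,
`packed_witnesses`, `charge`.  Plan: fix `F`; `C_Q = max` of the two `CQ0`; `charge` with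
`c = 1`, `C = 2 + C_Q` gives `L0`; take `T` large.  If `srcMass ≤ η d`, restore the margin
(`ν(X) ≤ C d`, `(C+1) η ≤ e^{-F}`).  Otherwise, for every bottom `σb`, `contact_local` gives `σ̂`, `𝒮`;
split `𝒮` into the contacts with a threshold equality on the outward vertical (each is a `PD.Ok`, so
its centre is charged to `chainEnd` of its band and grid) and the others (they are bottom points:
`entrance_contSet`), use `Measure.le_map_apply` for outer measures, and let `σb → 0`.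
`signed` is what the rest of the row uses.
-/

set_option autoImplicit false

namespace Claimed.Agent.R322.Sx

open MeasureTheory Set Metric Filter Topology
open scoped ENNReal NNReal InnerProductSpace

/-- the continuation set of AE Section 5.1: continue downwards from `ρ` while `τ_s(x) ≤ d_*`, down to
the bottom `σb`. -/
def contSet {m n : ℕ} (S : Sys m n) (Q : ℕ) (χ : E m → ℝ) (σb ρ dst : ℝ) : Set (E m × ℝ) :=
  {z | σb ≤ z.2 ∧ ∀ v, z.2 ≤ v → v ≤ ρ → S.tauav Q χ v z.1 ≤ dst}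

theorem isContinuation_contSet {m n : ℕ} {S : Sys m n} {Q : ℕ} {κ Cg T : ℝ} {χ : E m → ℝ}
    (hR : Root S Q κ Cg T χ) {σb ρ dst : ℝ} (hσ : 0 < σb) (hρ : σb < ρ)
    (htop : ∀ x, S.tauav Q χ ρ x ≤ dst) :
    IsContinuation σb ρ (contSet S Q χ σb ρ dst) := by
  refine ⟨hσ, hρ, ?_, fun z hz => hz.1, ?_, ?_⟩
  · -- closedness
    have hf := cmpl_continuousOn_tauav hR hσ
    have hg : ∀ t : ℝ, Continuous (fun z : E m × ℝ => S.tauav Q χ (max σb (min (z.2 + t) ρ)) z.1) := by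
      intro t
      have h1 : Continuous (fun z : E m × ℝ => ((max σb (min (z.2 + t) ρ), z.1) : ℝ × E m)) := by fun_prop
      exact hf.comp_continuous h1 (fun z => show σb ≤ max σb (min (z.2 + t) ρ) from le_max_left _ _)
    have hset : contSet S Q χ σb ρ dst = {z : E m × ℝ | σb ≤ z.2} ∩
        ⋂ t ∈ Ici (0 : ℝ), {z : E m × ℝ | S.tauav Q χ (max σb (min (z.2 + t) ρ)) z.1 ≤ dst} := by
      ext z
      simp only [contSet, mem_ofPred_eq, mem_inter_iff, mem_iInter, mem_Ici]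
      constructor
      · rintro ⟨h1, h2⟩
        refine ⟨h1, fun t ht => ?_⟩
        have h3 : σb ≤ min (z.2 + t) ρ := le_min (by linarith) hρ.le
        rw [max_eq_right h3]
        rcases le_total (z.2 + t) ρ with h4 | h4
        · rw [min_eq_left h4]
          exact h2 _ (by linarith) h4
        · rw [min_eq_right h4]
          exact htop _
      · rintro ⟨h1, h2⟩
        refine ⟨h1, fun v hv hvρ => ?_⟩
        have h3 := h2 (v - z.2) (by linarith)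
        rw [add_sub_cancel, min_eq_left hvρ, max_eq_right (h1.trans hv)] at h3
        exact h3
    rw [hset]
    apply IsClosed.inter (isClosed_le continuous_const continuous_snd)
    exact isClosed_biInter fun t _ => isClosed_le (hg t) continuous_const
  · intro x s v hs hsv
    exact ⟨hs.1.trans hsv, fun v' hv' hv'ρ => hs.2 v' (hsv.trans hv') hv'ρ⟩
  · intro x s hs
    refine ⟨hρ.le.trans hs, fun v hv hvρ => ?_⟩
    have : v = ρ := le_antisymm hvρ (hs.trans hv)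
    rw [this]
    exact htop x

/-- A point of the entrance boundary without threshold equality on its outward vertical is a bottom
point (AE, before Lemma 5.1). -/
theorem entrance_contSet {m n : ℕ} {S : Sys m n} {Q : ℕ} {κ Cg T : ℝ} {χ : E m → ℝ}
    (hR : Root S Q κ Cg T χ) {σb ρ dst : ℝ} (hσ : 0 < σb) (hρ : σb < ρ) {z : E m × ℝ}
    (hz : z ∈ entrance (contSet S Q χ σb ρ dst))
    (hne : ∀ v, z.2 ≤ v → v ≤ ρ → S.tauav Q χ v z.1 ≠ dst) : z.2 = σb := by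
  obtain ⟨hzD, hzI⟩ := hz
  by_contra hcon
  have hlt : σb < z.2 := lt_of_le_of_ne hzD.1 (Ne.symm hcon)
  apply hzI
  rw [mem_interior_iff_mem_nhds]
  have hf := cmpl_continuousOn_tauav hR hσ
  have key : ∀ᶠ p : E m × ℝ in 𝓝 z, ∀ v ∈ Icc σb ρ, p.2 ≤ v → S.tauav Q χ v p.1 ≤ dst := by
    apply isCompact_Icc.eventually_forall_of_forall_eventually
    intro v hv
    rcases lt_or_ge v z.2 with hvz | hvz
    · -- eventually `p.2 > v'`
      have h1 : ∀ᶠ q : (E m × ℝ) × ℝ in 𝓝 (z, v), q.2 < q.1.2 := by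
        have hc : Continuous (fun q : (E m × ℝ) × ℝ => q.1.2 - q.2) := by fun_prop
        have : ∀ᶠ q : (E m × ℝ) × ℝ in 𝓝 (z, v), 0 < q.1.2 - q.2 :=
          hc.continuousAt.eventually (lt_mem_nhds (by simpa using hvz))
        filter_upwards [this] with q hq
        linarith
      filter_upwards [h1] with q hq hq'
      linarith
    · have hlt' : S.tauav Q χ v z.1 < dst := lt_of_le_of_ne (hzD.2 v hvz hv.2) (hne v hvz hv.2)
      have hnh : {p : ℝ × E m | σb ≤ p.1} ∈ 𝓝 ((v, z.1) : ℝ × E m) := by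
        have : IsOpen {p : ℝ × E m | σb < p.1} := isOpen_lt continuous_const continuous_fst
        exact Filter.mem_of_superset (this.mem_nhds (lt_of_lt_of_le hlt hvz)) (fun p hp => show σb ≤ p.1 from le_of_lt hp)
      have hcat : ContinuousAt (fun p : ℝ × E m => S.tauav Q χ p.1 p.2) (v, z.1) := hf.continuousAt hnh
      have hmap : ContinuousAt (fun q : (E m × ℝ) × ℝ => ((q.2, q.1.1) : ℝ × E m)) (z, v) := by fun_prop
      have hcomp : ContinuousAt (fun q : (E m × ℝ) × ℝ => S.tauav Q χ q.2 q.1.1) (z, v) :=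
        ContinuousAt.comp (f := fun q : (E m × ℝ) × ℝ => ((q.2, q.1.1) : ℝ × E m))
          (g := fun p : ℝ × E m => S.tauav Q χ p.1 p.2) hcat hmap
      have := hcomp.eventually (gt_mem_nhds hlt')
      filter_upwards [this] with q hq _
      exact hq.le
  have h2 : ∀ᶠ p : E m × ℝ in 𝓝 z, σb < p.2 := continuous_snd.continuousAt.eventually (lt_mem_nhds hlt)
  filter_upwards [key, h2] with p hp hp2
  exact ⟨hp2.le, fun v hv hvρ => hp v ⟨hp2.le.trans hv, hvρ⟩ hv⟩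

/-! ### Classes of contact centres -/

/-- the class of centres charged to a Borel set `Eb`: the hypotheses of `charge` (`c = 1`) with existential radii. -/
def chargeClass {m : ℕ} (h ν : Measure (E m)) (θ C L0 : ℝ) (Eb : Set (E m)) : Set (E m) :=
  {x | ∃ u s : ℝ, 0 < u ∧ u ≤ s ∧ 1 * θ ≤ gav ν s x ∧ gav ν (Real.sqrt 2 * s) x ≤ C * θ ∧
    gav h u x ≤ C * θ ∧ ball x (L0 * s) ⊆ Eb}

theorem cmpl_charge_class {m : ℕ} {C L0 C' : ℝ}
    (hcharge : ∀ (h ν : Measure (E m)), IsFiniteMeasure h → IsFiniteMeasure ν →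
      ∀ (θ : ℝ) (𝒞 Eb : Set (E m)) (u s : E m → ℝ), 0 < θ → MeasurableSet Eb →
      (∀ x ∈ 𝒞, 0 < u x ∧ u x ≤ s x ∧ 1 * θ ≤ gav ν (s x) x ∧
        gav ν (Real.sqrt 2 * s x) x ≤ C * θ ∧ gav h (u x) x ≤ C * θ ∧ ball x (L0 * s x) ⊆ Eb) →
      h 𝒞 ≤ ENNReal.ofReal C' * ν Eb)
    (h ν : Measure (E m)) (hh : IsFiniteMeasure h) (hν : IsFiniteMeasure ν) {θ : ℝ} (hθ : 0 < θ)
    {Eb : Set (E m)} (hE : MeasurableSet Eb) :
    h (chargeClass h ν θ C L0 Eb) ≤ ENNReal.ofReal C' * ν Eb := by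
  have hex : ∀ x, x ∈ chargeClass h ν θ C L0 Eb → ∃ u s : ℝ, 0 < u ∧ u ≤ s ∧ 1 * θ ≤ gav ν s x ∧
      gav ν (Real.sqrt 2 * s) x ≤ C * θ ∧ gav h u x ≤ C * θ ∧ ball x (L0 * s) ⊆ Eb := fun x hx => hx
  choose! u s hus using hex
  exact hcharge h ν hh hν θ _ Eb u s hθ hE hus

/-- the class of centres of bottom contacts: the hypotheses of `bottom`. -/
def botClass {m n : ℕ} (S : Sys m n) (Q : ℕ) (χ : E m → ℝ) (T CQ σb : ℝ) (h : Measure (E m)) : Set (E m) :=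
  {x | x ∈ ball (0 : E m) 1 ∧ gav h σb x ≤ S.Lav Q χ σb x - CQ * S.Lamav χ σb x ∧
    S.tauav Q χ σb x ≤ dstT Q T}

/-- union of the innermost witness cubes of the band `[B, 2B]` in the grid `g`. -/
def witEnd {m : ℕ} (ν : Measure (E m)) (B ε0 Cs cs c c' : ℝ) (g : Fin m → Fin 3) : Set (E m) :=
  chainEnd g ν (Marked g ν B ε0 Cs cs c) (Real.exp (B ^ (1 / 3 : ℝ) / 2)) ⌈c' * Real.sqrt B⌉₊

/-- the mass of the localized source of a root. -/
noncomputable def rootSrc {m n : ℕ} (S : Sys m n) (Q : ℕ) (χ w : E m → ℝ) (T CQ : ℝ) : ℝ :=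
  srcMass (S.tauT Q χ) (S.LpT Q χ) (S.LmT Q CQ χ) w 1 (Real.exp (-T)) (etaT Q T)

/-- the output of `contact_local` at one contact `z`. -/
structure IsContactPt {m n : ℕ} (S : Sys m n) (Q : ℕ) (χ w : E m → ℝ) (T CQ σb : ℝ) (h : Measure (E m))
    (z : E m × ℝ) : Prop where
  ent : z ∈ entrance (contSet S Q χ σb (rhoT Q T) (dstT Q T))
  wpos : 0 < w z.1
  ini : gav h z.2 z.1 + etaT Q T / 2 * (gav (S.tauT Q χ) z.2 z.1 + Real.exp (-T))
    ≤ gav (S.LpT Q χ) z.2 z.1 - gav (S.LmT Q CQ χ) z.2 z.1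
  cum : ∀ s : ℝ, z.2 ≤ s → s ≤ rhoT Q T →
    0 ≤ ∫ v in z.2..s, v * (gav (S.LpT Q χ) v z.1 - gav (S.LmT Q CQ χ) v z.1
      - etaT Q T / 2 * (gav (S.tauT Q χ) v z.1 + Real.exp (-T)))

section Core

variable {m n Q : ℕ} {S : Sys m n} {κ Cg T CQ σb : ℝ} {χ w : E m → ℝ} {h : Measure (E m)} {z : E m × ℝ}

theorem cmpl_gav_le_smul {ρ ρ' : Measure (E m)} [IsFiniteMeasure ρ'] {c : ℝ} (hc : 0 ≤ c)
    (hle : ρ ≤ ENNReal.ofReal c • ρ') (s : ℝ) (x : E m) : gav ρ s x ≤ c * gav ρ' s x := by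
  have h1 : gav ρ s x ≤ gav (ENNReal.ofReal c • ρ') s x :=
    integral_mono_measure hle (Eventually.of_forall fun _ => cmpl_gauss_nonneg m s _)
      ((cmpl_integrable_gauss ρ' s x).smul_measure ENNReal.ofReal_ne_top)
  rwa [cmpl_gav_smul, ENNReal.toReal_ofReal hc] at h1

/-- a contact with a threshold equality on its outward vertical is a `PD.Ok`. -/
theorem cmpl_ok (hR : Root S Q κ Cg T χ) (hw : IsWeight w 0 1) (hCQ : 0 ≤ CQ) (hσ : 0 < σb) (hT : 0 < T)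
    (htop : (2 * Real.pi * rhoT Q T ^ 2) ^ (-(m : ℝ) / 2) * Real.exp (-T) < dstT Q T)
    (hz : IsContactPt S Q χ w T CQ σb h z) (K : ℝ) {s0 : ℝ} (h1 : z.2 ≤ s0) (h2 : s0 ≤ rhoT Q T)
    (h3 : S.tauav Q χ s0 z.1 = dstT Q T) :
    (⟨S, T, CQ, K, χ, z.1, z.2, s0⟩ : PD m n Q).Ok κ Cg := by
  have hD := hz.ent.1
  refine ⟨hR, hw.supp (ne_of_gt hz.wpos), lt_of_lt_of_le hσ hD.1, h1, ?_, fun v hv hvρ => hD.2 v hv hvρ, h3, ?_, ?_⟩
  · refine lt_of_le_of_ne h2 fun he => ?_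
    have h4 := cmpl_tauav_le_mass hR (cmpl_rhoT_pos Q hT) le_rfl z.1
    change s0 = rhoT Q T at he
    rw [← he, h3] at h4
    rw [← he] at htop
    linarith
  · have h4 := hz.ini
    rw [cmpl_gav_tauT hR, cmpl_gav_L hR hCQ] at h4
    have h5 := cmpl_gav_nonneg h z.2 z.1
    change etaT Q T / 2 * (S.tauav Q χ z.2 z.1 + Real.exp (-T)) ≤ S.Lav Q χ z.2 z.1 - CQ * S.Lamav χ z.2 z.1
    linarith
  · intro s hs hsρ
    have h4 := hz.cum s hs hsρ
    have e : (fun v => v * (gav (S.LpT Q χ) v z.1 - gav (S.LmT Q CQ χ) v z.1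
        - etaT Q T / 2 * (gav (S.tauT Q χ) v z.1 + Real.exp (-T))))
        = fun v => v * (S.Lav Q χ v z.1 - CQ * S.Lamav χ v z.1
          - etaT Q T / 2 * (S.tauav Q χ v z.1 + Real.exp (-T))) := by
      funext v
      rw [cmpl_gav_tauT hR, cmpl_gav_L hR hCQ]
    rw [e] at h4
    exact h4

/-- every contact is a bottom contact or is charged to the witness cubes of a band and a grid. -/
theorem cmpl_classify (hR : Root S Q κ Cg T χ) (hw : IsWeight w 0 1) (hCQ : 0 ≤ CQ) (hσ : 0 < σb)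
    (hσρ : σb < rhoT Q T) (hT : 0 < T)
    (htop : (2 * Real.pi * rhoT Q T ^ 2) ^ (-(m : ℝ) / 2) * Real.exp (-T) < dstT Q T)
    (hz : IsContactPt S Q χ w T CQ σb h z) {K L0 ε0 Cs cs c c' : ℝ} (Bd : Fin Q → ℝ)
    (hpath : ∀ P : PD m n Q, P.T = T → P.CQ = CQ → P.K = K → P.Ok κ Cg →
      ∃ (i : Fin Q) (g : Fin m → Fin 3) (W : ℕ → Cube m),
        IsChain g (P.S.tauT Q P.χ) (Marked g (P.S.tauT Q P.χ) (Bd i) ε0 Cs cs c)
          (Real.exp (Bd i ^ (1 / 3 : ℝ) / 2)) ⌈c' * Real.sqrt (Bd i)⌉₊ W ∧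
        ball P.x (L0 * P.s0) ⊆ (W (⌈c' * Real.sqrt (Bd i)⌉₊ - 1)).set g) :
    z.1 ∈ botClass S Q χ T CQ σb h ∪ ⋃ (i : Fin Q), ⋃ (g : Fin m → Fin 3),
      chargeClass h (S.tauT Q χ) (dstT Q T) (2 + CQ) L0 (witEnd (S.tauT Q χ) (Bd i) ε0 Cs cs c c' g) := by
  have hfin := cmpl_tauT_finite hR
  have hD := hz.ent.1
  have hdst : 0 < dstT Q T := Real.exp_pos _
  have hη : 0 < etaT Q T := cmpl_etaT_pos Q T
  have hini := hz.ini
  have htau0 : 0 ≤ gav (S.tauT Q χ) z.2 z.1 := cmpl_gav_nonneg _ _ _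
  by_cases hex : ∃ v, z.2 ≤ v ∧ v ≤ rhoT Q T ∧ S.tauav Q χ v z.1 = dstT Q T
  · right
    obtain ⟨s0, h1, h2, h3⟩ := hex
    have hok := cmpl_ok hR hw hCQ hσ hT htop hz K h1 h2 h3
    obtain ⟨i, g, W, hW, hball⟩ := hpath _ rfl rfl rfl hok
    refine mem_iUnion.2 ⟨i, mem_iUnion.2 ⟨g, z.2, s0, lt_of_lt_of_le hσ hD.1, h1, ?_, ?_, ?_, ?_⟩⟩
    · rw [cmpl_gav_tauT hR, h3, one_mul]
    · rw [cmpl_gav_tauT hR]
      have h4 : S.tauav Q χ (Real.sqrt 2 * s0) z.1 ≤ dstT Q T := by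
        rcases le_total (Real.sqrt 2 * s0) (rhoT Q T) with h5 | h5
        · refine hD.2 _ ?_ h5
          have h6 : (1 : ℝ) ≤ Real.sqrt 2 := by
            rw [show (1 : ℝ) = Real.sqrt 1 by simp]
            exact Real.sqrt_le_sqrt (by norm_num)
          have h7 : 0 ≤ s0 := (hσ.le.trans hD.1).trans h1
          nlinarith
        · exact (cmpl_tauav_le_mass hR (cmpl_rhoT_pos Q hT) h5 z.1).trans htop.le
      nlinarith
    · have h4 : gav (S.LpT Q χ) z.2 z.1 ≤ (2 + CQ) * gav (S.tauT Q χ) z.2 z.1 :=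
        cmpl_gav_le_smul (by linarith) ((Measure.le_add_right le_rfl).trans (cmpl_Lp_add_Lm_le hR hCQ)) _ _
      have h5 : 0 ≤ gav (S.LmT Q CQ χ) z.2 z.1 := cmpl_gav_nonneg _ _ _
      have h6 : gav (S.tauT Q χ) z.2 z.1 ≤ dstT Q T := by
        rw [cmpl_gav_tauT hR]
        exact hD.2 _ le_rfl (h1.trans h2)
      have h7 : 0 ≤ etaT Q T / 2 * (gav (S.tauT Q χ) z.2 z.1 + Real.exp (-T)) := by positivity
      have h8 : (2 + CQ) * gav (S.tauT Q χ) z.2 z.1 ≤ (2 + CQ) * dstT Q T :=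
        mul_le_mul_of_nonneg_left h6 (by linarith)
      linarith
    · exact hball.trans (cmpl_subset_chainEnd hW)
  · left
    push Not at hex
    have hzb : z.2 = σb := entrance_contSet hR hσ hσρ hz.ent hex
    refine ⟨hw.supp (ne_of_gt hz.wpos), ?_, ?_⟩
    · rw [cmpl_gav_L hR hCQ, hzb] at hini
      rw [hzb] at htau0
      have h7 : 0 ≤ etaT Q T / 2 * (gav (S.tauT Q χ) σb z.1 + Real.exp (-T)) := by positivity
      linarith
    · have := hD.2 z.2 le_rfl (by rw [hzb]; exact hσρ.le)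
      rwa [hzb] at this

theorem cmpl_sum_const (Q m : ℕ) (X : ℝ) :
    ∑ _i : Fin Q, ∑ _g : Fin m → Fin 3, ENNReal.ofReal X = ENNReal.ofReal ((Q : ℝ) * 3 ^ m * X) := by
  simp only [Finset.sum_const, Finset.card_univ, Fintype.card_fin, Fintype.card_pi, Finset.prod_const,
    nsmul_eq_mul]
  rw [ENNReal.ofReal_mul (by positivity : 0 ≤ (Q : ℝ) * 3 ^ m), ENNReal.ofReal_mul (Nat.cast_nonneg Q),
    ENNReal.ofReal_natCast, mul_assoc]
  congr 2
  rw [← ENNReal.ofReal_natCast]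
  push_cast
  rfl

/-- **The localized source has mass at most `η d`** (AE, completion of the proof of Theorem 3.1), from the specialised
outputs of `bottom`, `contact_local`, `charge`, `path_chain`, `packed_witnesses` and the numerical inequalities. -/
theorem cmpl_core (hR : Root S Q κ Cg T χ) (hw : IsWeight w 0 1) (hCQ : 0 ≤ CQ) (hT : 0 < T)
    (htop : (2 * Real.pi * rhoT Q T ^ 2) ^ (-(m : ℝ) / 2) * Real.exp (-T) < dstT Q T)
    {K L0 C' Cb ε0 Cs cs c c' : ℝ} (hC' : 0 ≤ C')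
    (hbot : ∀ ε : ℝ, 0 < ε → ∃ σ1 : ℝ, 0 < σ1 ∧ ∀ σb : ℝ, 0 < σb → σb < σ1 →
      ∀ (h : Measure (E m)) (𝒞 : Set (E m)), IsFiniteMeasure h →
      (∀ x ∈ 𝒞, x ∈ ball (0 : E m) 1 ∧
        gav h σb x ≤ S.Lav Q χ σb x - CQ * S.Lamav χ σb x ∧ S.tauav Q χ σb x ≤ dstT Q T) →
      h 𝒞 ≤ ENNReal.ofReal (ε + Cb * dstT Q T * Real.exp (-T)))
    (hloc : ∀ (a : ℝ) (D₀ : Set (E m × ℝ)), IsContinuation a (rhoT Q T) D₀ → 0 < rootSrc S Q χ w T CQ →
      ∃ (σ : Measure (E m × ℝ)) (𝒮 : Set (E m × ℝ)), IsProbabilityMeasure σ ∧ IsCompact 𝒮 ∧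
        σ 𝒮ᶜ = 0 ∧ 𝒮 ⊆ entrance D₀ ∧ (∀ z ∈ 𝒮, 0 < w z.1) ∧
        ∀ z ∈ 𝒮,
          gav (ENNReal.ofReal (rootSrc S Q χ w T CQ) • σ.map Prod.fst) z.2 z.1
              + etaT Q T / 2 * (gav (S.tauT Q χ) z.2 z.1 + Real.exp (-T))
            ≤ gav (S.LpT Q χ) z.2 z.1 - gav (S.LmT Q CQ χ) z.2 z.1 ∧
          ∀ s : ℝ, z.2 ≤ s → s ≤ rhoT Q T →
            0 ≤ ∫ v in z.2..s, v * (gav (S.LpT Q χ) v z.1 - gav (S.LmT Q CQ χ) v z.1
              - etaT Q T / 2 * (gav (S.tauT Q χ) v z.1 + Real.exp (-T))))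
    (hcharge : ∀ (h ν : Measure (E m)), IsFiniteMeasure h → IsFiniteMeasure ν →
      ∀ (θ : ℝ) (𝒞 Eb : Set (E m)) (u s : E m → ℝ), 0 < θ → MeasurableSet Eb →
      (∀ x ∈ 𝒞, 0 < u x ∧ u x ≤ s x ∧ 1 * θ ≤ gav ν (s x) x ∧
        gav ν (Real.sqrt 2 * s x) x ≤ (2 + CQ) * θ ∧ gav h (u x) x ≤ (2 + CQ) * θ ∧
        ball x (L0 * s x) ⊆ Eb) →
      h 𝒞 ≤ ENNReal.ofReal C' * ν Eb)
    (Bd : Fin Q → ℝ)
    (hpath : ∀ P : PD m n Q, P.T = T → P.CQ = CQ → P.K = K → P.Ok κ Cg →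
      ∃ (i : Fin Q) (g : Fin m → Fin 3) (W : ℕ → Cube m),
        IsChain g (P.S.tauT Q P.χ) (Marked g (P.S.tauT Q P.χ) (Bd i) ε0 Cs cs c)
          (Real.exp (Bd i ^ (1 / 3 : ℝ) / 2)) ⌈c' * Real.sqrt (Bd i)⌉₊ W ∧
        ball P.x (L0 * P.s0) ⊆ (W (⌈c' * Real.sqrt (Bd i)⌉₊ - 1)).set g)
    (hpack : ∀ (i : Fin Q) (g : Fin m → Fin 3), S.tauT Q χ (witEnd (S.tauT Q χ) (Bd i) ε0 Cs cs c c' g)
      ≤ ENNReal.ofReal (Real.exp (-(FQ Q T ^ 2))) * S.tauT Q χ univ)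
    (hn1 : Cb * dstT Q T ≤ etaT Q T / 4)
    (hn2 : (Q : ℝ) * 3 ^ m * C' * Real.exp (-(FQ Q T ^ 2)) ≤ etaT Q T / 4) :
    rootSrc S Q χ w T CQ ≤ etaT Q T * Real.exp (-T) := by
  by_contra hcon
  push Not at hcon
  have hη : 0 < etaT Q T := cmpl_etaT_pos Q T
  have hd : 0 < Real.exp (-T) := Real.exp_pos _
  have hρ : 0 < rhoT Q T := cmpl_rhoT_pos Q hT
  have hdst : 0 < dstT Q T := Real.exp_pos _
  have hfinτ := cmpl_tauT_finite hR
  have hMs0 : 0 < rootSrc S Q χ w T CQ := lt_trans (by positivity) hcon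
  obtain ⟨σ1, hσ1, hb⟩ := hbot (etaT Q T * Real.exp (-T) / 4) (by positivity)
  obtain ⟨σb, hσbdef⟩ : ∃ σb : ℝ, σb = min σ1 (rhoT Q T) / 2 := ⟨_, rfl⟩
  have hmin : 0 < min σ1 (rhoT Q T) := lt_min hσ1 hρ
  have hσb0 : 0 < σb := by rw [hσbdef]; positivity
  have hσb1 : σb < σ1 := by
    have := min_le_left σ1 (rhoT Q T)
    rw [hσbdef]; linarith
  have hσbρ : σb < rhoT Q T := by
    have := min_le_right σ1 (rhoT Q T)
    rw [hσbdef]; linarith
  have hcont := isContinuation_contSet hR hσb0 hσbρ (dst := dstT Q T)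
    (fun x => (cmpl_tauav_le_mass hR hρ le_rfl x).trans htop.le)
  obtain ⟨σ, 𝒮, hprob, hcomp, hfull, hent, hwpos, hineq⟩ := hloc σb _ hcont hMs0
  obtain ⟨h, hh⟩ : ∃ h : Measure (E m), h = ENNReal.ofReal (rootSrc S Q χ w T CQ) • σ.map Prod.fst := ⟨_, rfl⟩
  rw [← hh] at hineq
  have hfin : IsFiniteMeasure h := by
    rw [hh]
    have : IsFiniteMeasure (σ.map Prod.fst) := inferInstance
    exact ⟨by
      rw [Measure.smul_apply, smul_eq_mul]
      exact ENNReal.mul_lt_top ENNReal.ofReal_lt_top (measure_lt_top _ _)⟩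
  have hpt : ∀ z ∈ 𝒮, IsContactPt S Q χ w T CQ σb h z :=
    fun z hz => ⟨hent hz, hwpos z hz, (hineq z hz).1, (hineq z hz).2⟩
  have hcover : Prod.fst '' 𝒮 ⊆ botClass S Q χ T CQ σb h ∪ ⋃ (i : Fin Q), ⋃ (g : Fin m → Fin 3),
      chargeClass h (S.tauT Q χ) (dstT Q T) (2 + CQ) L0 (witEnd (S.tauT Q χ) (Bd i) ε0 Cs cs c c' g) := by
    rintro x ⟨z, hz, rfl⟩
    exact cmpl_classify hR hw hCQ hσb0 hσbρ hT htop (hpt z hz) Bd hpath
  -- lower bound
  have hσS : 1 ≤ σ 𝒮 := by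
    have h1 : σ univ ≤ σ 𝒮 + σ 𝒮ᶜ := by
      rw [← union_compl_self 𝒮]
      exact measure_union_le _ _
    rw [hfull, add_zero, measure_univ] at h1
    exact h1
  have hlow : ENNReal.ofReal (rootSrc S Q χ w T CQ) ≤ h (Prod.fst '' 𝒮) := by
    rw [hh, Measure.smul_apply, smul_eq_mul]
    have h1 : σ 𝒮 ≤ σ.map Prod.fst (Prod.fst '' 𝒮) :=
      (measure_mono (subset_preimage_image _ _)).trans (Measure.le_map_apply measurable_fst.aemeasurable _)
    calc ENNReal.ofReal (rootSrc S Q χ w T CQ) = ENNReal.ofReal (rootSrc S Q χ w T CQ) * 1 := (mul_one _).symm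
      _ ≤ _ := mul_le_mul_right (hσS.trans h1) _
  -- upper bounds
  have hbotle : h (botClass S Q χ T CQ σb h)
      ≤ ENNReal.ofReal (etaT Q T * Real.exp (-T) / 4 + Cb * dstT Q T * Real.exp (-T)) :=
    hb σb hσb0 hσb1 h _ hfin (fun x hx => hx)
  have hcl : ∀ (i : Fin Q) (g : Fin m → Fin 3),
      h (chargeClass h (S.tauT Q χ) (dstT Q T) (2 + CQ) L0 (witEnd (S.tauT Q χ) (Bd i) ε0 Cs cs c c' g))
        ≤ ENNReal.ofReal (C' * (Real.exp (-(FQ Q T ^ 2)) * Real.exp (-T))) := by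
    intro i g
    refine (cmpl_charge_class hcharge h _ hfin hfinτ hdst (cmpl_measurableSet_chainEnd _ _ _ _ _)).trans ?_
    rw [ENNReal.ofReal_mul hC', ENNReal.ofReal_mul (Real.exp_pos _).le]
    exact mul_le_mul_right ((hpack i g).trans (mul_le_mul_right (cmpl_tauT_univ_le hR) _)) _
  have hup : h (Prod.fst '' 𝒮) ≤ ENNReal.ofReal (etaT Q T * Real.exp (-T) / 4 + Cb * dstT Q T * Real.exp (-T))
      + ∑ _i : Fin Q, ∑ _g : Fin m → Fin 3, ENNReal.ofReal (C' * (Real.exp (-(FQ Q T ^ 2)) * Real.exp (-T))) := by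
    refine (measure_mono hcover).trans ((measure_union_le _ _).trans (add_le_add hbotle ?_))
    refine (measure_iUnion_fintype_le _ _).trans (Finset.sum_le_sum fun i _ => ?_)
    exact (measure_iUnion_fintype_le _ _).trans (Finset.sum_le_sum fun g _ => hcl i g)
  have hX0 : 0 ≤ C' * (Real.exp (-(FQ Q T ^ 2)) * Real.exp (-T)) := by positivity
  have hsum := cmpl_sum_const Q m (C' * (Real.exp (-(FQ Q T ^ 2)) * Real.exp (-T)))
  rw [hsum] at hup
  have hfinal := hlow.trans hup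
  have hbig : ENNReal.ofReal (etaT Q T * Real.exp (-T) / 4 + Cb * dstT Q T * Real.exp (-T))
      + ENNReal.ofReal ((Q : ℝ) * 3 ^ m * (C' * (Real.exp (-(FQ Q T ^ 2)) * Real.exp (-T))))
      ≤ ENNReal.ofReal (etaT Q T * Real.exp (-T) / 2) + ENNReal.ofReal (etaT Q T * Real.exp (-T) / 4) := by
    apply add_le_add
    · apply ENNReal.ofReal_le_ofReal
      have := mul_le_mul_of_nonneg_right hn1 hd.le
      linarith
    · apply ENNReal.ofReal_le_ofReal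
      have := mul_le_mul_of_nonneg_right hn2 hd.le
      linarith
  rw [← ENNReal.ofReal_add (p := etaT Q T * Real.exp (-T) / 2) (by positivity) (by positivity)] at hbig
  have h3 := (ENNReal.ofReal_le_ofReal_iff (by positivity)).1 (hfinal.trans hbig)
  have h4 : 0 < etaT Q T * Real.exp (-T) := by positivity
  linarith

end Core

/-- Induction step = AE Sections 4, 5, 6. -/
theorem signed_step (m n Q : ℕ) (hm : 1 ≤ m) (hQ : 1 ≤ Q)
    (ih : ∀ q : ℕ, 1 ≤ q → q < Q → SignedAt m n q) : SignedAt m n Q := by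
  intro κ Cg hκ
  obtain ⟨F⟩ := exists_fix m n Q hm hQ Cg
  obtain ⟨CQb, Cb, T0b, hCb, hbot⟩ := bottom m n Q hm hQ κ Cg hκ
  obtain ⟨CQp, hpath0⟩ := path_chain m n Q hm hQ ih κ Cg hκ F
  obtain ⟨CQ, hCQdef⟩ : ∃ CQ : ℝ, CQ = max (max CQb CQp) 1 := ⟨_, rfl⟩
  have hCQ1 : 1 ≤ CQ := hCQdef ▸ le_max_right _ _
  have hCQb : CQb ≤ CQ := hCQdef ▸ (le_max_left _ _).trans (le_max_left _ _)
  have hCQp : CQp ≤ CQ := hCQdef ▸ (le_max_right _ _).trans (le_max_left _ _)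
  obtain ⟨K, ε0, Cs, cs, c, c', hε0, hcs, hc, hc', hpath⟩ := hpath0 CQ hCQp
  obtain ⟨L0, C', hL0, hC', hcharge⟩ := charge m hm 1 (2 + CQ) one_pos
  obtain ⟨T0p, hpath'⟩ := hpath L0
  obtain ⟨B0, hpack⟩ := packed_witnesses m ε0 Cs cs c c' hε0 hcs hc hc'
  obtain ⟨cl, T0l, hcl, hloc⟩ := contact_local m hm (2 + CQ) 0
  obtain ⟨χ, -, hχ⟩ := exists_isCutoff m (0 : E m) 2 1 one_pos
  have hev : ∀ᶠ T in atTop, T0b ≤ T ∧ T0p ≤ T ∧ T0l ≤ T ∧ 1 ≤ T ∧
      (2 * Real.pi * rhoT Q T ^ 2) ^ (-(m : ℝ) / 2) * Real.exp (-T) < dstT Q T ∧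
      3 ≤ FQ Q T ∧ 4 * Cb ≤ FQ Q T ∧ 4 * ((Q : ℝ) * 3 ^ m * C') ≤ FQ Q T ∧ B0 ≤ FQ Q T ∧ 1 / cl ≤ FQ Q T ∧
      2 + 16 ^ m ≤ FQ Q T := by
    filter_upwards [eventually_ge_atTop T0b, eventually_ge_atTop T0p, eventually_ge_atTop T0l,
      eventually_ge_atTop 1, cmpl_rate_top m Q hQ, cmpl_rate_F Q 3, cmpl_rate_F Q (4 * Cb),
      cmpl_rate_F Q (4 * ((Q : ℝ) * 3 ^ m * C')), cmpl_rate_F Q B0, cmpl_rate_F Q (1 / cl),
      cmpl_rate_F Q (2 + 16 ^ m)] with T h1 h2 h3 h4 h5 h6 h7 h8 h9 h10 h11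
    exact ⟨h1, h2, h3, h4, h5, h6, h7, h8, h9, h10, h11⟩
  obtain ⟨T0, hT0⟩ := eventually_atTop.1 hev
  refine ⟨CQ, T0, by linarith, fun S T hT hS w hw => ?_⟩
  obtain ⟨hTb, hTp, hTl, hT1, htop, hF3, hFb, hFc, hFB, hFl, hF16⟩ := hT0 T hT
  have hR : Root S Q κ Cg T χ := ⟨hS, hχ⟩
  have hCQ0 : 0 ≤ CQ := by linarith
  have hT0' : 0 < T := by linarith
  have hfin := cmpl_tauT_finite hR
  have hF1 : 1 ≤ FQ Q T := by linarith
  have hη : 0 < etaT Q T := cmpl_etaT_pos Q T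
  have hd : 0 < Real.exp (-T) := Real.exp_pos _
  obtain ⟨Bd, hBd, hP⟩ := hpath' T hTp
  have hexpF : FQ Q T + 1 ≤ Real.exp (FQ Q T) := Real.add_one_le_exp _
  have hη1 : etaT Q T < 1 := by
    unfold etaT
    exact Real.exp_lt_one_iff.2 (by linarith)
  have hηcl : etaT Q T ≤ cl := by
    have h1 : etaT Q T = (Real.exp (2 * FQ Q T))⁻¹ := by
      unfold etaT
      rw [← Real.exp_neg]
      congr 1
      ring
    have h2 : 1 / cl ≤ Real.exp (2 * FQ Q T) := by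
      have := Real.add_one_le_exp (2 * FQ Q T)
      linarith
    rw [h1]
    have h3 := inv_anti₀ (by positivity) h2
    rwa [one_div, inv_inv] at h3
  have hcore : rootSrc S Q χ w T CQ ≤ etaT Q T * Real.exp (-T) := by
    refine cmpl_core hR hw hCQ0 hT0' htop (K := K) (L0 := L0) (C' := C') (Cb := Cb) (ε0 := ε0) (Cs := Cs) (cs := cs)
      (c := c) (c' := c') hC'.le (hbot CQ hCQb S T χ hTb hR) ?_ hcharge Bd hP ?_ ?_ ?_
    · intro a D₀ hD hpos
      refine hloc (S.tauT Q χ) (S.LpT Q χ) (S.LmT Q CQ χ) w 0 1 (Real.exp (-T)) (etaT Q T) T (rhoT Q T) a D₀ hfin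
        (cmpl_Lp_add_Lm_le hR hCQ0) (cmpl_tauT_compl hR) hw one_pos hd hη hη1 hTl ?_ ?_ hD hpos
      · rw [zero_mul, Real.exp_zero, one_mul, one_pow, mul_one]
        exact cmpl_tauT_mass hR
      · unfold rhoT
        apply div_le_div_of_nonneg_right _ (by positivity)
        have h1 : etaT Q T ^ 2 ≤ cl := by nlinarith
        have h2 : 0 ≤ etaT Q T ^ 2 := by positivity
        nlinarith
    · intro i g
      have hB : B0 ≤ Bd i := hFB.trans ((le_self_pow₀ hF1 (by norm_num)).trans (hBd i))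
      refine (hpack (Bd i) g (S.tauT Q χ) _ hfin hB (Nat.le_ceil _)).trans ?_
      exact mul_le_mul_left (ENNReal.ofReal_le_ofReal (cmpl_band_small hF1 (hBd i))) _
    · exact cmpl_exp_small hF3 hFb
    · exact cmpl_exp_small hF3 hFc
  unfold rootSrc srcMass at hcore
  rw [cmpl_int_w hR hCQ0 hw] at hcore
  have hmass := cmpl_tauT_mass hR
  have h1 : etaT Q T * ((S.tauT Q χ univ).toReal + Real.exp (-T) * (16 * 1) ^ m)
      ≤ etaT Q T * (Real.exp (-T) + Real.exp (-T) * 16 ^ m) := by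
    apply mul_le_mul_of_nonneg_left _ hη.le
    rw [mul_one]
    linarith
  have h2 : etaT Q T = Real.exp (-(FQ Q T)) * Real.exp (-(FQ Q T)) := by
    unfold etaT
    rw [← Real.exp_add]
    congr 1
    ring
  have h3 : (2 + 16 ^ m) * Real.exp (-(FQ Q T)) ≤ 1 := by
    rw [Real.exp_neg, ← div_eq_mul_inv, div_le_one (Real.exp_pos _)]
    linarith
  have h4 : (2 + 16 ^ m) * etaT Q T ≤ Real.exp (-(FQ Q T)) := by
    rw [h2, ← mul_assoc]
    exact mul_le_of_le_one_left (Real.exp_pos _).le h3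
  have h5 := mul_le_mul_of_nonneg_right h4 hd.le
  linarith

/-- **AE Theorem 3.1 (signed excess).** -/
theorem signed (m n : ℕ) (hm : 1 ≤ m) : ∀ Q : ℕ, 1 ≤ Q → SignedAt m n Q := by
  intro Q
  induction Q using Nat.strong_induction_on with
  | _ Q ih => exact fun hQ => signed_step m n Q hm hQ fun q hq hlt => ih q hlt hq

end Claimed.Agent.R322.Sx
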