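import Claimed.Agent.R322.Sx.Sep
import Claimed.Agent.R322.Pack005

/-!
# R322 / Sx / Path : the root and path context of AE Sections 5-6

Everything in AE Sections 5 and 6.1-6.2 happens on ONE outward vertical `{x} × [sb, ρ]` above one
contact `(x, sb)` whose vertical contains a threshold equality at `s0 ≥ sb`.  `PD m n Q` bundles the
data; `PD.Ok κ Cg` the hypotheses (root hypotheses of AE Theorem 3.1, chart cutoff `χ = 1` on `B_2`
with support in `closedBall 0 3`, threshold control AE (5.3), and the two localized contact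
inequalities AE (4.8)-(4.9) furnished by `contact_local`).

Numerical parameters AE (5.1): `F = F_Q(T)`, `η = e^{-2F}`, `a0 = F²`, `d_* = e^{-a0}`,
`ρ = η⁴ T^{-2}`, `d = e^{-T}`.

All Gaussian averages are Euclidean, with the cutoff `χ`, centred at `x` (see `Defs.lean`).
`∫ … v² d log v = ∫ … v dv`.  A dot in the paper is `d/d log s = s d/ds`.
-/

set_option autoImplicit false

namespace Claimed.Agent.R322.Sx

open MeasureTheory Set Metric
open scoped ENNReal NNReal InnerProductSpace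

/-- `η = e^{-2 F_Q(T)}`. -/
noncomputable def etaT (Q : ℕ) (T : ℝ) : ℝ := Real.exp (-2 * FQ Q T)

/-- `a0 = F_Q(T)²`. -/
noncomputable def a0T (Q : ℕ) (T : ℝ) : ℝ := FQ Q T ^ 2

/-- `d_* = e^{-a0}`. -/
noncomputable def dstT (Q : ℕ) (T : ℝ) : ℝ := Real.exp (-(a0T Q T))

/-- `ρ = η⁴ T^{-2}`. -/
noncomputable def rhoT (Q : ℕ) (T : ℝ) : ℝ := etaT Q T ^ 4 / T ^ 2

/-- root hypotheses: AE Theorem 3.1 and the chart cutoff. -/
structure Root {m n : ℕ} (S : Sys m n) (Q : ℕ) (κ Cg T : ℝ) (χ : E m → ℝ) : Prop where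
  hyp : SignedHyp S Q κ Cg T
  cut : IsCutoff χ (0 : E m) 2 1

/-- the truncated measure `τ' = χ τ` (a finite measure on `E m`). -/
noncomputable def Sys.tauT {m n : ℕ} (S : Sys m n) (Q : ℕ) (χ : E m → ℝ) : Measure (E m) :=
  (S.tau Q).withDensity fun y => ENNReal.ofReal (χ y)

/-- data of one outward vertical. -/
structure PD (m n Q : ℕ) where
  /-- the system -/
  S : Sys m n
  /-- `d = e^{-T}` -/
  T : ℝ
  /-- the constant `C_Q` in the source -/
  CQ : ℝ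
  /-- the Gaussian exponent `K` of the envelope -/
  K : ℝ
  /-- chart cutoff -/
  χ : E m → ℝ
  /-- contact centre -/
  x : E m
  /-- contact (derivative) scale `s̲` -/
  sb : ℝ
  /-- threshold scale `s0 ≥ s̲` -/
  s0 : ℝ

namespace PD

variable {m n Q : ℕ} (P : PD m n Q)

noncomputable def d : ℝ := Real.exp (-P.T)
noncomputable def η : ℝ := etaT Q P.T
noncomputable def a0 : ℝ := a0T Q P.T
noncomputable def dst : ℝ := dstT Q P.T
noncomputable def ρ : ℝ := rhoT Q P.T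

/-- `τ_v(x)`. -/
noncomputable def tau (v : ℝ) : ℝ := P.S.tauav Q P.χ v P.x
/-- `D_v(x)`. -/
noncomputable def Dv (v : ℝ) : ℝ := P.S.Dav P.χ v P.x
/-- `Λ_v(x)`. -/
noncomputable def Lamv (v : ℝ) : ℝ := P.S.Lamav P.χ v P.x
/-- `M_v(x)`. -/
noncomputable def Mv (v : ℝ) : ℝ := P.S.Mav Q P.χ v P.x
/-- `|M|_v(x)`. -/
noncomputable def absMv (v : ℝ) : ℝ := P.S.absMav Q P.χ v P.x
/-- `R_v(x)`. -/
noncomputable def Rv (v : ℝ) : ℝ := P.S.Rav P.χ v P.x
/-- `(L - C_Q Λ)_v(x)`. -/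
noncomputable def Lp (v : ℝ) : ℝ := P.S.Lav Q P.χ v P.x - P.CQ * P.Lamv v
/-- `(f_*)_v(x)`, `f_* = L - C_Q Λ - (η/4)(τ + d dy)`, AE (5.4). -/
noncomputable def fst (v : ℝ) : ℝ := P.Lp v - P.η / 4 * (P.tau v + P.d)
/-- `A(s) = s² M_s`. -/
noncomputable def A (s : ℝ) : ℝ := s ^ 2 * P.Mv s
/-- `Z(s) = ∫_{s̲}^{s} v² (f_*)_v d log v`. -/
noncomputable def Z (s : ℝ) : ℝ := ∫ v in P.sb..s, v * P.fst v
/-- `J(s) = C_Q s² Λ_s + (η/4) s² (τ_s + d)`. -/
noncomputable def Jm (s : ℝ) : ℝ := P.CQ * s ^ 2 * P.Lamv s + P.η / 4 * s ^ 2 * (P.tau s + P.d)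
/-- the artificial endpoint term of AE (5.5). -/
noncomputable def Iend (s : ℝ) : ℝ :=
  (s / P.ρ) ^ P.K * (P.ρ ^ 2 * P.d * P.ρ ^ (-(2 * (m : ℝ) + 4)))
/-- the future envelope `I(s)`, AE (5.5). -/
noncomputable def I (s : ℝ) : ℝ :=
  max (sSup ((fun v => (s / v) ^ P.K * P.A v) '' Icc s P.ρ)) (P.Iend s)
/-- the level `a(s) = log (s² / I(s))`. -/
noncomputable def a (s : ℝ) : ℝ := Real.log (s ^ 2 / P.I s)
/-- the end of the path: first scale `s_* ≥ s0` with `a(s_*) = T/2`. -/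
noncomputable def sst : ℝ := sInf {s | s ∈ Icc P.s0 P.ρ ∧ P.a s = P.T / 2}

/-- hypotheses on one outward vertical. -/
structure Ok (κ Cg : ℝ) : Prop where
  root : Root P.S Q κ Cg P.T P.χ
  x_mem : P.x ∈ ball (0 : E m) 1
  sb_pos : 0 < P.sb
  sb_le : P.sb ≤ P.s0
  s0_lt : P.s0 < P.ρ
  /-- threshold control AE (5.3) -/
  thr : ∀ v, P.sb ≤ v → v ≤ P.ρ → P.tau v ≤ P.dst
  thr_eq : P.tau P.s0 = P.dst
  /-- AE (4.8) (without the term `h`) -/
  ini : P.η / 2 * (P.tau P.sb + P.d) ≤ P.Lp P.sb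
  /-- AE (4.9) -/
  cum : ∀ s, P.sb ≤ s → s ≤ P.ρ →
    0 ≤ ∫ v in P.sb..s, v * (P.Lp v - P.η / 2 * (P.tau v + P.d))

end PD

end Claimed.Agent.R322.Sx
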