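import Claimed.Agent.R322.Sx.Reverse.Cube
import Claimed.Agent.R322.Sx.Reverse.Pay

/-!
# R322 / Sx / Reverse : a controlled-density fraction (AE Lemma 6.2)

At a controlled scale `s` with density `δ ∈ [e^{-2B}, e^{-B}]`; `ν = P.S.tauT Q P.χ` (`= τ` inside `B_2`);
`k = B^{-ε0}`; `R_B = C1 √(log B)`.  Explicit exponents: `c_* = 6`, `C_* = 6m + 8`
(`p` with `σ = 1/2 - 1/p = 1/(2m + 2)`), constant `c = 1` in AE (6.9) (all constants and powers of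
`log B` are absorbed in `B^{ε0}`, `B ≥ B0`).

1. `V_moment` : `(∫ G_s |V|^p)^{1/p} ≤ C s √(δ/k)` (AE (6.12), (6.13)):
   `|V(ζ)| ≤ C dist(ζ, A) + max_j |V(A j)|`, `ctl_moment`, `entry_bound` for `f = |V|²`, `ctl_mass`.
2. `reverse_cube` : the cube `J` and AE (6.9).
3. `reverse_pay` : AE (6.14)-(6.16) and (6.10).  `H = J \ lowPart`; `|H| ≤ B^{ε0 - C_*} |J|` (maximal
   cubes); `μ(π^{-1} H) ≤ 2Q |H| + |M|(J)`; Hölder with exponents `p, 2, 1/σ`; Cauchy-Schwarz on the rest.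
4. `reverse` : the marked cube of a witness scale.
-/

set_option autoImplicit false

namespace Claimed.Agent.R322.Sx

open MeasureTheory Set Metric
open scoped ENNReal NNReal InnerProductSpace

variable {m n Q : ℕ}

/-- numerical thresholds for `reverse`. -/
theorem rev_num (cD ε0 : ℝ) (hcD : 0 < cD) (hε : 0 < ε0) (hε1 : ε0 ≤ 1) :
    ∃ B0 : ℝ, ∀ B : ℝ, B0 ≤ B → 2 ≤ B ∧ 1 ≤ Real.sqrt (Real.log B) ∧ B ^ (-ε0) ≤ cD / 2 ∧
      B ^ (-(2 : ℝ)) ≤ B ^ (-ε0) / 2 := by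
  have h1 : ∀ᶠ B : ℝ in Filter.atTop, B ^ (-ε0) ≤ cD / 2 :=
    (tendsto_rpow_neg_atTop hε).eventually_le_const (by positivity)
  obtain ⟨B1, hB1⟩ := Filter.eventually_atTop.1 h1
  refine ⟨max B1 (Real.exp 1), fun B hB => ?_⟩
  have hBe : Real.exp 1 ≤ B := (le_max_right _ _).trans hB
  have he2 : (2 : ℝ) ≤ Real.exp 1 := by
    have := Real.add_one_le_exp (1 : ℝ)
    linarith
  have hB2 : 2 ≤ B := he2.trans hBe
  have hB0 : 0 < B := by linarith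
  refine ⟨hB2, ?_, hB1 B ((le_max_left _ _).trans hB), ?_⟩
  · rw [Real.one_le_sqrt, Real.le_log_iff_exp_le hB0]
    exact hBe
  · have e1 : B ^ (-(2 : ℝ)) = B ^ (-ε0) * B ^ (-(2 - ε0)) := by
      rw [← Real.rpow_add hB0]
      congr 1
      ring
    have e2 : B ^ (-(2 - ε0)) ≤ B ^ (-(1 : ℝ)) :=
      Real.rpow_le_rpow_of_exponent_le (by linarith) (by linarith)
    have e3 : B ^ (-(1 : ℝ)) ≤ 1 / 2 := by
      rw [Real.rpow_neg_one, one_div]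
      exact inv_anti₀ (by norm_num) hB2
    have e4 : 0 < B ^ (-ε0) := Real.rpow_pos_of_pos hB0 _
    rw [e1]
    nlinarith

/-- **AE Lemma 6.2.**  `ϑ` is chosen after the constant of `flux_lower`; then every witness scale of a
traversal has a marked cube with label `δ = e^{-a(s)}`. -/
theorem reverse (m n Q : ℕ) (hm : 1 ≤ m) (hQ : 1 ≤ Q) (κ Cg : ℝ) (hκ : 0 < κ) (F : Fix m n Q Cg)
    (K C K1 Cw cp cD ε0 : ℝ) (hK : 2 * (m : ℝ) + 100 < K) (hK1 : 1 ≤ K1) (hCw : 1 ≤ Cw)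
    (hcp : 0 < cp) (hcp' : cp ≤ 1 / 4) (hcD : 0 < cD) (hε : 0 < ε0) (hε1 : ε0 ≤ 1) :
    ∃ ϑ Cside B0 T0 : ℝ, 0 < ϑ ∧ 0 < Cside ∧
      ∀ P : PD m n Q, PathOk P κ Cg K C K1 → T0 ≤ P.T →
      ∀ (c : SC) (B : ℝ) (W : Finset (E n)) (Γ0 : E n → ℝ) (s1 s2 : ℝ), c.Cw = Cw → c.cp = cp →
      B0 ≤ B → B ≤ P.T → Trav P c B ε0 W Γ0 s1 s2 → ∀ s ∈ Icc s1 s2,
      P.IsWit W (cp / 2) B ε0 cD ϑ s →
      ∃ (g : Fin m → Fin 3) (Jc : Cube m), ball P.x s ⊆ interior (Jc.set g) ∧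
        Jc.side ≤ Cside * Real.sqrt (Real.log B) * s ∧
        B ^ (-2 * ε0) * Real.exp (-P.a s) ≤ Jc.dens g (P.S.tauT Q P.χ) ∧
        Jc.dens g (P.S.tauT Q P.χ) ≤ B ^ ε0 * Real.exp (-P.a s) ∧
        ENNReal.ofReal (B ^ (-6 * ε0)) * P.S.tauT Q P.χ (Jc.set g)
          ≤ P.S.tauT Q P.χ
              (Jc.lowPart g (P.S.tauT Q P.χ) (B ^ (6 * (m : ℝ) + 8) * Real.exp (-P.a s))) := by
  have hm0 : (0 : ℝ) ≤ m := Nat.cast_nonneg m
  have hJ : (0 : ℝ) ≤ K - 2 := by linarith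
  obtain ⟨Cv, hCv, hV⟩ := exists_wellVec n Cw cp hCw hcp hcp'
  obtain ⟨Cf, Tf, hCf, hflux⟩ :=
    flux_lower m n Q hm hQ κ Cg hκ F K1 (K - 2) Cw cp Cv 2 hK1 hJ hCw hcp hcp' hCv
  obtain ⟨C1a, hcube⟩ := reverse_cube m n Q hm hQ κ Cg K1 (K - 2) ε0 hK1 hJ hε hε1
  obtain ⟨C1b, hpay⟩ := reverse_pay m n Q hm hQ κ Cg F K1 (K - 2) Cw cp Cv ε0 hK1 hJ hCw hCv hε hε1
  obtain ⟨C1, hC1⟩ : ∃ C1 : ℝ, C1 = max (max C1a C1b) 1 := ⟨_, rfl⟩
  have hC1a : C1a ≤ C1 := hC1 ▸ (le_max_left _ _).trans (le_max_left _ _)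
  have hC1b : C1b ≤ C1 := hC1 ▸ (le_max_right _ _).trans (le_max_left _ _)
  have hC11 : 1 ≤ C1 := hC1 ▸ le_max_right _ _
  obtain ⟨Ba, Ta, hcube'⟩ := hcube C1 hC1a
  obtain ⟨Bb, Tb, hpay'⟩ := hpay C1 hC1b
  obtain ⟨Bn, hnum⟩ := rev_num cD ε0 hcD hε hε1
  refine ⟨cD / (2 * Cf), 12 * C1, max Ba (max Bb Bn), max Tf (max Ta Tb), by positivity,
    by positivity, ?_⟩
  intro P hP hT c B W Γ0 s1 s2 hcw hccp hB hBT hTr s hs hwit
  have hTf : Tf ≤ P.T := (le_max_left _ _).trans hT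
  have hTa : Ta ≤ P.T := ((le_max_left _ _).trans (le_max_right _ _)).trans hT
  have hTb : Tb ≤ P.T := ((le_max_right _ _).trans (le_max_right _ _)).trans hT
  have hBa : Ba ≤ B := (le_max_left _ _).trans hB
  have hBb : Bb ≤ B := ((le_max_left _ _).trans (le_max_right _ _)).trans hB
  obtain ⟨hB2, hlog, hn2, hn3⟩ := hnum B (((le_max_right _ _).trans (le_max_right _ _)).trans hB)
  have hB0 : 0 < B := by linarith
  have hspath : s ∈ P.path := ⟨hTr.mem1.1.trans hs.1, hs.2.trans hTr.mem2.2⟩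
  have hs0 : 0 < s := P.pos_of_path hP.ok hspath
  have hs2 : 0 < s ^ 2 := by positivity
  have hctl := hP.ctl s hspath
  obtain ⟨hb1, hb2⟩ := hTr.band s hs
  obtain ⟨δ, hδ⟩ : ∃ δ : ℝ, δ = Real.exp (-P.a s) := ⟨_, rfl⟩
  unfold PD.IsWit at hwit
  rw [← hδ] at hctl hwit ⊢
  have hδ0 : 0 < δ := hδ ▸ Real.exp_pos _
  have hδ1 : Real.exp (-2 * B) ≤ δ := by
    rw [hδ]; exact Real.exp_le_exp.2 (by linarith)
  have hδ2 : δ ≤ Real.exp (-B) := by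
    rw [hδ]; exact Real.exp_le_exp.2 (by linarith)
  have hI : s ^ 2 * δ = P.I s := by rw [hδ]; exact P.exp_neg_a hP.ok hs0
  have hwf : WellFn W Cw cp Γ0 := by
    have := hTr.wf
    rwa [hcw, hccp] at this
  obtain ⟨V, hVV⟩ := hV W Γ0 hTr.ne hwf s hs0
  have hk0 : 0 < B ^ (-ε0) := Real.rpow_pos_of_pos hB0 _
  have hk1 : B ^ (-ε0) ≤ 1 := Real.rpow_le_one_of_one_le_of_nonpos (by linarith) (by linarith)
  have hkT : 1 / P.T ≤ B ^ (-ε0) := by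
    have e1 : B ^ (-(1 : ℝ)) ≤ B ^ (-ε0) :=
      Real.rpow_le_rpow_of_exponent_le (by linarith) (by linarith)
    rw [Real.rpow_neg_one] at e1
    have e2 : 1 / P.T ≤ B⁻¹ := by
      rw [one_div]
      exact inv_anti₀ hB0 hBT
    exact e2.trans e1
  have hmom : B ^ (-ε0) * P.U Γ0 s ≤ s ^ 2 * δ := by rw [hI]; exact hTr.moment s hs
  have hU : P.U Γ0 s ≤ s ^ 2 * δ / B ^ (-ε0) := by
    rw [le_div_iff₀ hk0]
    linarith
  have hfl := hflux P hP.ok hTf s δ hctl W Γ0 V hTr.ne hwf hVV _ hkT hk1 hU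
  have hlev : lev δ = P.a s := by rw [hδ, lev_exp_neg]
  rw [hlev] at hfl
  have ha2 : P.a s ^ (-(2 : ℝ)) ≤ B ^ (-ε0) / 2 :=
    (Real.rpow_le_rpow_of_nonpos hB0 hb1 (by norm_num)).trans hn3
  have hsd : 0 < s ^ 2 * δ := by positivity
  -- the tilt and the flux
  have hmain : B ^ (-ε0) * δ ≤ P.Dv s ∧ B ^ (-ε0) * (s ^ 2 * δ) / 2 ≤ P.flux V s := by
    by_cases hW : 1 < W.card
    · obtain ⟨w1, w2⟩ := hwit.1 hW
      refine ⟨le_trans (mul_le_mul_of_nonneg_right (by linarith) hδ0.le) w1, ?_⟩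
      have e1 : Cf * s ^ 2 * P.Dtr W (cp / 2) s ≤ cD / 2 * (s ^ 2 * δ) := by
        calc Cf * s ^ 2 * P.Dtr W (cp / 2) s ≤ Cf * s ^ 2 * (cD / (2 * Cf) * δ) :=
              mul_le_mul_of_nonneg_left w2 (by positivity)
          _ = cD / 2 * (s ^ 2 * δ) := by field_simp
      have e2 : cD * (s ^ 2 * δ) ≤ s ^ 2 * P.Dv s := by
        calc cD * (s ^ 2 * δ) = s ^ 2 * (cD * δ) := by ring
          _ ≤ _ := mul_le_mul_of_nonneg_left w1 hs2.le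
      have e3 : P.a s ^ (-(2 : ℝ)) * (s ^ 2 * δ) ≤ B ^ (-ε0) / 2 * (s ^ 2 * δ) :=
        mul_le_mul_of_nonneg_right ha2 hsd.le
      have e4 : B ^ (-ε0) * (s ^ 2 * δ) ≤ cD / 2 * (s ^ 2 * δ) :=
        mul_le_mul_of_nonneg_right hn2 hsd.le
      linarith
    · have hW1 : W.card ≤ 1 := not_lt.1 hW
      have w1 := hwit.2 hW1
      refine ⟨w1, ?_⟩
      have hc1 : W.card = 1 := le_antisymm hW1 (Finset.card_pos.2 hTr.ne)
      obtain ⟨b, hb⟩ := Finset.card_eq_one.1 hc1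
      have e1 : P.Dtr W (cp / 2) s = 0 := by rw [hb]; exact P.Dtr_single b _ _
      rw [e1, mul_zero, sub_zero] at hfl
      have e2 : B ^ (-ε0) * (s ^ 2 * δ) ≤ s ^ 2 * P.Dv s := by
        calc B ^ (-ε0) * (s ^ 2 * δ) = s ^ 2 * (B ^ (-ε0) * δ) := by ring
          _ ≤ _ := mul_le_mul_of_nonneg_left w1 hs2.le
      have e3 : P.a s ^ (-(2 : ℝ)) * (s ^ 2 * δ) ≤ B ^ (-ε0) / 2 * (s ^ 2 * δ) :=
        mul_le_mul_of_nonneg_right ha2 hsd.le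
      linarith
  obtain ⟨hDv, hFl⟩ := hmain
  obtain ⟨g, Jc, j1, j2, j3, j4, j5⟩ := hcube' P hP.ok hTa s δ B hctl hBa hBT hδ1 hδ2 hDv
  have hpayed := hpay' P hP.ok hTb s δ B hctl hBb hBT hδ1 hδ2 W Γ0 V (cp / 2) hTr.ne hwf hVV hmom
    hFl g Jc (j1.trans interior_subset) j2 j3 j5
  refine ⟨g, Jc, ?_, ?_, j4, j5, hpayed⟩
  · refine (ball_subset_ball ?_).trans j1
    have : 1 * 1 * s ≤ C1 * Real.sqrt (Real.log B) * s :=
      mul_le_mul_of_nonneg_right (mul_le_mul hC11 hlog (by norm_num) (by linarith)) hs0.le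
    linarith
  · calc Jc.side ≤ 12 * (C1 * Real.sqrt (Real.log B) * s) := j3
      _ = _ := by ring

end Claimed.Agent.R322.Sx
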