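import Claimed.Agent.R322.Sx.Sep.Main

/-!
# R322 / Sx / Sep : the estimate for separated configurations (AE Proposition 4.3)

`separated` is AE Proposition 4.3 at the count `Q ≥ 2`, assuming `SignedAt m n q` for `1 ≤ q < Q`.
The function `b = b_Q` is the explicit example of the paper,
`b(T) = 1 + (log T)^201 + 4 F_{Q-1}^{-1}((log T)^3)`, `F_q^{-1}(u) = exp_{2q}((log_{2q} u)²)`;
"fixed increases of `b`" are absorbed in the constant `C_S` of `S(T) = exp(C_S b(T))`.
Other interior balls: apply the statement to `S.rescale x r`.  Weights with a larger Lipschitz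
constant `Λ ≥ 1`: apply the statement to `w / Λ`.  The estimate is monotone in `C_Q`.

The definitions `FQinv`, `bQ`, `Sys.intDfar` live in `Sx/Sep/Defs.lean`; the proof is laid out in `Sx/Sep/*.lean`.
-/

set_option autoImplicit false

namespace Claimed.Agent.R322.Sx

open MeasureTheory Set Metric
open scoped ENNReal NNReal InnerProductSpace

/-- **AE Proposition 4.3 (separated configurations).** -/
theorem separated (m n Q : ℕ) (hm : 1 ≤ m) (hQ : 2 ≤ Q)
    (ih : ∀ q : ℕ, 1 ≤ q → q < Q → SignedAt m n q) (κ Cg : ℝ) (hκ : 0 < κ)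
    (F : Fix m n Q Cg) (P : ℝ) (hP : 0 < P) :
    ∃ CQ CS T0 : ℝ, 0 < CQ ∧ 0 < CS ∧ ∀ (S : Sys m n) (T : ℝ), T0 ≤ T → SignedHyp S Q κ Cg T →
      ∀ A : Fin Q → E n, F.IsMaj S 0 F.rmaj (F.rmaj ^ (-(m : ℝ)) * Real.exp (-T)) A →
      ∀ grp : Fin Q → Fin Q, (∃ i j, grp i ≠ grp j) →
      Sys.Separated A grp (10 * Real.exp (CS * bQ Q T) * Real.sqrt (Real.exp (-T))) →
      ∀ w : E m → ℝ, IsWeight w 0 1 →
        S.intL Q w - CQ * S.intLam w
            + Real.log T ^ 2 / T
              * S.intDfar A (Real.exp (CS * bQ Q T) * Real.sqrt (Real.exp (-T))) w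
          ≤ T ^ (-P) * Real.exp (-T) :=
  Sep.separated_main m n Q hm hQ ih κ Cg hκ F P hP

end Claimed.Agent.R322.Sx
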