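import Claimed.Agent.R322.Sx.Init

/-!
# R322 / Sx / Stage : the low-frequency barrier and its finite mergers (AE Proposition 5.4),
# choice of the traversal (AE Lemma 5.5, second half of its proof)

Standing data: `P : PD m n Q`, `P.K = K`, `P.Ok κ Cg`, `Bank P`, `EnvOut P C`, `K1` = the constant of
`ctl_path` (so every `s ∈ P.path` is controlled: `P.Ctl K1 (K - 2) s (e^{-a(s)})`), `c : SC`.

Logical structure.
1. `stage_near` (= `rough_height`): under the barrier at `s`, entries of lists are within `P.eps` of wells.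
2. `stage_rep` : representation of every well is transported along the dyadic scales of a stage.
3. `stage_tr` : AE (5.15) from `sep_gauss` and `exists_grouping`.
4. `stage_bar` : the barrier persists while no merger is triggered (`persist`, `barrier_step`, AE (5.13),
   (5.14), (5.15), `geom_absorb`).
5. `stage` : from a state `St` at `σ`, the stage runs until the first scale `σ'` at which a merger is
   triggered, or until `s_*` (`persist`).
6. `merge_one`, `merge_all` : immediate mergers, `k ↦ c k⁶ S_1^{-6}`; total loss `(c k / S_1)^{7^Q}`.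
7. `trav_induct` : induction over the bands.  State `j`: at most `Q - j` wells, all levels so far
   `≤ 2 Bd j`, `k ≥ kap j`.  Either the stage reaches the first hit of `2 Bd (j+1)` (traversal of band
   `j + 1`, from the last previous hit of `Bd (j+1)`), or a merger occurs before, at a level
   `≤ 2 Bd (j+1)`: state `j + 1`.  With one well no merger occurs.
8. `traversal` : `init` + `merge_all` + `trav_induct` + `bands`.
-/

set_option autoImplicit false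

namespace Claimed.Agent.R322.Sx

open MeasureTheory Set Metric
open scoped ENNReal NNReal InnerProductSpace

variable {m n Q : ℕ}

/-- the standing hypotheses on a path. -/
structure PathOk (P : PD m n Q) (κ Cg K C K1 : ℝ) : Prop where
  hK : P.K = K
  ok : P.Ok κ Cg
  bank : Bank P
  env : EnvOut P C
  ctl : ∀ s ∈ P.path, P.Ctl K1 (K - 2) s (Real.exp (-P.a s))

/-! ## Package Stage-0 : elementary tools -/

/-- first hit of a level. -/
theorem stg_first_hit {f : ℝ → ℝ} {α β L : ℝ} (hαβ : α ≤ β) (hc : ContinuousOn f (Icc α β))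
    (h1 : f α < L) (h2 : L ≤ f β) :
    ∃ x ∈ Ioc α β, f x = L ∧ ∀ y ∈ Ico α x, f y < L := by
  set S : Set ℝ := Icc α β ∩ f ⁻¹' Ici L with hS
  have hScl : IsClosed S := hc.preimage_isClosed_of_isClosed isClosed_Icc isClosed_Ici
  have hScomp : IsCompact S := isCompact_Icc.of_isClosed_subset hScl inter_subset_left
  have hSne : S.Nonempty := ⟨β, ⟨hαβ, le_rfl⟩, h2⟩
  have hx : sInf S ∈ S := hScomp.sInf_mem hSne
  set x := sInf S with hxdef
  have hbdd : BddBelow S := hScomp.bddBelow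
  have hfx : L ≤ f x := hx.2
  have hxI : x ∈ Icc α β := hx.1
  have hiv := intermediate_value_Icc hxI.1 (hc.mono (Icc_subset_Icc_right hxI.2))
  obtain ⟨y, hy, hfy⟩ := hiv ⟨h1.le, hfx⟩
  have hyS : y ∈ S := ⟨⟨hy.1, hy.2.trans hxI.2⟩, hfy.ge⟩
  have hxy : x ≤ y := csInf_le hbdd hyS
  have hyx : y = x := le_antisymm hy.2 hxy
  have hfxL : f x = L := hyx ▸ hfy
  have hαx : α < x := by
    rcases hxI.1.lt_or_eq with h | h
    · exact h
    · rw [← h] at hfxL; exact absurd hfxL h1.ne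
  refine ⟨x, ⟨hαx, hxI.2⟩, hfxL, fun z hz => ?_⟩
  by_contra hcon
  have hzS : z ∈ S := ⟨⟨hz.1, hz.2.le.trans hxI.2⟩, not_lt.1 hcon⟩
  exact absurd (csInf_le hbdd hzS) (not_le.2 hz.2)

/-- last hit of a level. -/
theorem stg_last_hit {f : ℝ → ℝ} {α β L : ℝ} (hαβ : α ≤ β) (hc : ContinuousOn f (Icc α β))
    (h1 : f α ≤ L) (h2 : L < f β) :
    ∃ x ∈ Ico α β, f x = L ∧ ∀ y ∈ Ioc x β, L < f y := by
  set S : Set ℝ := Icc α β ∩ f ⁻¹' Iic L with hS
  have hScl : IsClosed S := hc.preimage_isClosed_of_isClosed isClosed_Icc isClosed_Iic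
  have hScomp : IsCompact S := isCompact_Icc.of_isClosed_subset hScl inter_subset_left
  have hSne : S.Nonempty := ⟨α, ⟨le_rfl, hαβ⟩, h1⟩
  have hx : sSup S ∈ S := hScomp.sSup_mem hSne
  set x := sSup S with hxdef
  have hbdd : BddAbove S := hScomp.bddAbove
  have hfx : f x ≤ L := hx.2
  have hxI : x ∈ Icc α β := hx.1
  have hiv := intermediate_value_Icc hxI.2 (hc.mono (Icc_subset_Icc_left hxI.1))
  obtain ⟨y, hy, hfy⟩ := hiv ⟨hfx, h2.le⟩
  have hyS : y ∈ S := ⟨⟨hxI.1.trans hy.1, hy.2⟩, hfy.le⟩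
  have hxy : y ≤ x := le_csSup hbdd hyS
  have hyx : y = x := le_antisymm hxy hy.1
  have hfxL : f x = L := hyx ▸ hfy
  have hxβ : x < β := by
    rcases hxI.2.lt_or_eq with h | h
    · exact h
    · rw [h] at hfxL; exact absurd hfxL h2.ne'
  refine ⟨x, ⟨hxI.1, hxβ⟩, hfxL, fun z hz => ?_⟩
  by_contra hcon
  have hzS : z ∈ S := ⟨⟨hxI.1.trans hz.1.le, hz.2⟩, not_lt.1 hcon⟩
  exact absurd (le_csSup hbdd hzS) (not_le.2 hz.1)


/-- `a0 = F_Q(T)²` is large. -/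
theorem stg_a0_large (Q : ℕ) (M : ℝ) : ∃ T0 : ℝ, ∀ T, T0 ≤ T → M ≤ a0T Q T := by
  obtain ⟨T0, hT0⟩ := Filter.eventually_atTop.1
    ((FQ_tendsto Q).eventually_ge_atTop (max 1 M))
  refine ⟨T0, fun T hT => ?_⟩
  have h := hT0 T hT
  have h1 : 1 ≤ FQ Q T := (le_max_left _ _).trans h
  have h2 : M ≤ FQ Q T := (le_max_right _ _).trans h
  unfold a0T
  nlinarith

/-- iterated logarithms are continuous on large arguments. -/
theorem stg_logIter_continuousOn (j : ℕ) :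
    ContinuousOn (Real.log^[j]) (Ici (Real.exp^[j] 1)) := by
  induction j with
  | zero => exact continuousOn_id
  | succ j ih =>
    have h1 : ContinuousOn Real.log (Ici (Real.exp^[j + 1] 1)) :=
      Real.continuousOn_log.mono fun x hx =>
        (lt_of_lt_of_le (rt_E_pos j 1) hx).ne'
    have h2 : MapsTo Real.log (Ici (Real.exp^[j + 1] 1)) (Ici (Real.exp^[j] 1)) := by
      intro x hx
      have h3 : Real.exp (Real.exp^[j] 1) ≤ x := by rw [← rt_E_succ]; exact hx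
      have h4 := Real.log_le_log (Real.exp_pos _) h3
      rwa [Real.log_exp] at h4
    have h5 : Real.log^[j + 1] = Real.log^[j] ∘ Real.log := Function.iterate_succ _ _
    rw [h5]
    exact ih.comp h1 h2

/-- `b_Q` is continuous on large arguments. -/
theorem bQ_continuousOn (Q : ℕ) : ∃ x0 : ℝ, ContinuousOn (bQ Q) (Ici x0) := by
  set y : ℝ := max 1 (Real.exp^[2 * (Q - 1)] 1) with hy
  refine ⟨Real.exp y, ?_⟩
  have hlog : ContinuousOn Real.log (Ici (Real.exp y)) :=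
    Real.continuousOn_log.mono fun x hx => (lt_of_lt_of_le (Real.exp_pos _) hx).ne'
  have hmaps : MapsTo (fun x => Real.log x ^ 3) (Ici (Real.exp y))
      (Ici (Real.exp^[2 * (Q - 1)] 1)) := by
    intro x hx
    have h4 := Real.log_le_log (Real.exp_pos _) hx
    rw [Real.log_exp] at h4
    have h5 : 1 ≤ Real.log x := (le_max_left _ _).trans h4
    have h6 : Real.exp^[2 * (Q - 1)] 1 ≤ Real.log x := (le_max_right _ _).trans h4
    show Real.exp^[2 * (Q - 1)] 1 ≤ Real.log x ^ 3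
    nlinarith [mul_nonneg (sub_nonneg.2 h5) (sub_nonneg.2 h5), sq_nonneg (Real.log x)]
  have h1 : ContinuousOn (fun x => Real.log^[2 * (Q - 1)] (Real.log x ^ 3)) (Ici (Real.exp y)) :=
    (stg_logIter_continuousOn _).comp (hlog.pow 3) hmaps
  have h2 : Continuous (Real.exp^[2 * (Q - 1)]) := Real.continuous_exp.iterate _
  have h3 : ContinuousOn (fun x => FQinv (Q - 1) (Real.log x ^ 3)) (Ici (Real.exp y)) :=
    h2.comp_continuousOn (h1.pow 2)
  exact ((continuousOn_const.add (hlog.pow 201)).add (continuousOn_const.mul h3))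

theorem PD.stg_Lv_eq (P : PD m n Q) (s : ℝ) : s ^ 2 * P.Lv s = 2 * P.A s - s ^ 2 * P.Dv s := by
  simp only [PD.Lv, PD.A, PD.Mv, PD.Dv, Sys.Lav, Sys.Mav, Sys.Dav, Sys.intL]
  ring

/-- `Ż = 2 A - s² D_s - J`. -/
theorem PD.stg_Zdot_eq (P : PD m n Q) (s : ℝ) :
    P.Zdot s = 2 * P.A s - s ^ 2 * P.Dv s - P.Jm s := by
  simp only [PD.Zdot, PD.fst, PD.Lp, PD.Jm, PD.A, PD.Mv, PD.Dv, Sys.Lav, Sys.Mav, Sys.Dav,
    Sys.intL]
  ring

/-- the margin: `(η/4) s² (τ_s + d) ≤ J` and `0 ≤ (η/4) s² (τ_s + d)`. -/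
theorem PD.Jm_ge {κ Cg : ℝ} (P : PD m n Q) (h : P.Ok κ Cg) (hCQ : 0 ≤ P.CQ) (s : ℝ) :
    0 ≤ P.η / 4 * s ^ 2 * (P.tau s + P.d) ∧ P.η / 4 * s ^ 2 * (P.tau s + P.d) ≤ P.Jm s := by
  have h1 := P.tau_nonneg h s
  have h2 := P.Lamv_nonneg h s
  have h3 := P.η_pos
  have h4 := P.d_pos
  constructor
  · positivity
  · unfold PD.Jm
    have : 0 ≤ P.CQ * s ^ 2 * P.Lamv s := by positivity
    linarith

/-- the barrier function of `P.flow` in the variable `s`. -/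
theorem PD.flow_Phi {κ Cg : ℝ} (P : PD m n Q) (h : P.Ok κ Cg) (N : ℕ) (kj aj : ℝ)
    (Γ0 : E n → ℝ) {s : ℝ} (hs : 0 < s) :
    P.flow.Phi N kj aj (fun t => P.U Γ0 (Real.exp t)) (Real.log s)
      = P.I s - kf kj aj (P.a s) * P.U Γ0 s - alf N (kf kj aj (P.a s)) (P.a s) * P.Z s := by
  unfold LFlow.Phi
  rw [P.flow_a h]
  simp only [PD.flow, Real.exp_log hs]

/-- the merger threshold is continuous along a stage. -/
theorem PD.thr_continuousOn {κ Cg : ℝ} (P : PD m n Q) (h : P.Ok κ Cg) {x0 : ℝ}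
    (hx0 : ContinuousOn (bQ Q) (Ici x0)) (CS1 k aj : ℝ) {α β : ℝ} (hα : 0 < α) (hβ : β ≤ P.ρ)
    (hlow : ∀ s ∈ Icc α β, max x0 1 ≤ P.a s) :
    ContinuousOn (fun s => P.thr CS1 (kf k aj (P.a s)) s) (Icc α β) := by
  have hacont : ContinuousOn P.a (Icc α β) :=
    (P.a_continuousOn h).mono fun s hs => ⟨lt_of_lt_of_le hα hs.1, hs.2.trans hβ⟩
  have e : (fun s => P.thr CS1 (kf k aj (P.a s)) s)
      = fun s => s * Real.exp (CS1 * bQ Q (P.a s)) * Real.exp (-P.a s / 2)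
        * (k⁻¹ + aj⁻¹ - (P.a s)⁻¹) := by
    funext s
    simp only [PD.thr, kf, S1f, div_inv_eq_mul]
  rw [e]
  have hb : ContinuousOn (fun s => bQ Q (P.a s)) (Icc α β) :=
    hx0.comp hacont fun s hs => (le_max_left _ _).trans (hlow s hs)
  have hinv : ContinuousOn (fun s => (P.a s)⁻¹) (Icc α β) :=
    hacont.inv₀ fun s hs => by
      have := (le_max_right x0 1).trans (hlow s hs)
      linarith
  exact ((continuousOn_id.mul (continuousOn_const.mul hb).rexp).mul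
    (hacont.neg.div_const 2).rexp).mul (continuousOn_const.sub hinv)

/-- the barrier function is continuous. -/
theorem LFlow.Reg.Phi_continuousOn {F : LFlow} {C t0 t1 : ℝ} (h : F.Reg C t0 t1) (N : ℕ)
    {kj aj : ℝ} (hk : 0 < kj) (hk1 : kj ≤ 1) (haj : 2 ≤ aj) {U : ℝ → ℝ} {α β : ℝ}
    (hsub : Icc α β ⊆ Icc t0 t1) (hU : ContinuousOn U (Icc α β))
    (ha : ∀ t ∈ Icc α β, 2 ≤ F.a t) : ContinuousOn (F.Phi N kj aj U) (Icc α β) := by
  have hac : ContinuousOn F.a (Icc α β) := h.a_cont.mono hsub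
  have hI : ContinuousOn F.I (Icc α β) := h.I_cont.mono hsub
  have hZ : ContinuousOn F.Z (Icc α β) := fun t ht =>
    (h.dZ t (hsub ht)).continuousAt.continuousWithinAt
  have ha0 : ∀ t ∈ Icc α β, F.a t ≠ 0 := fun t ht => by have := ha t ht; linarith
  have hkc : ContinuousOn (fun t => kf kj aj (F.a t)) (Icc α β) := by
    unfold kf
    refine ContinuousOn.inv₀ (continuousOn_const.sub (hac.inv₀ ha0)) fun t ht => ?_
    have h1 : 1 ≤ kj⁻¹ := (one_le_inv₀ hk).2 hk1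
    have h2 : 0 < aj⁻¹ := inv_pos.2 (by linarith)
    have h3 : (F.a t)⁻¹ ≤ 2⁻¹ := inv_anti₀ (by norm_num) (ha t ht)
    have : 0 < kj⁻¹ + aj⁻¹ - (F.a t)⁻¹ := by linarith
    exact this.ne'
  have hal : ContinuousOn (fun t => alf N (kf kj aj (F.a t)) (F.a t)) (Icc α β) := by
    by_cases hN : 1 < N
    · simp only [alf, hN, if_true]
      refine continuousOn_const.add ((hkc.mul hac).div (hac.log ha0) fun t ht => ?_)
      exact (Real.log_pos (by have := ha t ht; linarith)).ne'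
    · simp only [alf, hN, if_false]
      refine (continuousOn_const.add ((continuousOn_const.sub (continuousOn_const.mul hkc)).mul
        (hkc.neg.div (hac.pow 2) fun t ht => pow_ne_zero 2 (ha0 t ht)))).sub
        (continuousOn_const.mul hkc)
  exact (hI.sub (hkc.mul hU)).sub (hal.mul hZ)

theorem GapW.mono {n : ℕ} {W : Finset (E n)} {g g' : ℝ} (h : GapW W g) (hg : g' ≤ g) :
    GapW W g' := fun b hb b' hb' hne => lt_of_le_of_lt hg (h b hb b' hb' hne)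

/-! ## Package Stage-A : representation and the transition estimate -/

/-- entries of lists are near the wells while the barrier holds. -/
theorem stage_near (m n Q : ℕ) (hm : 1 ≤ m) (hQ : 1 ≤ Q) (κ Cg : ℝ) (F : Fix m n Q Cg)
    (K C K1 Cl Cw cp : ℝ) (hK : 2 * (m : ℝ) + 100 < K) (hK1 : 1 ≤ K1) (hCl : 1 ≤ Cl)
    (hCw : 1 ≤ Cw) :
    ∃ Ce T0 : ℝ, 0 < Ce ∧ ∀ P : PD m n Q, PathOk P κ Cg K C K1 → T0 ≤ P.T → ∀ s ∈ P.path,
      ∀ (W : Finset (E n)) (Γ0 : E n → ℝ) (k : ℝ), W.Nonempty → WellFn W Cw cp Γ0 →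
      1 / P.T ≤ k → k ≤ 1 / 16 → P.Bar W Γ0 k s →
      ∀ A : Fin Q → E n, P.IsList F Cl s A → NearW A W (P.eps Ce k s) := by
  have hJ : (0 : ℝ) ≤ K - 2 := by
    have : (0 : ℝ) ≤ m := Nat.cast_nonneg m
    linarith
  obtain ⟨Ce, γ', T0, hCe, -, h⟩ := rough_height m n Q hm hQ κ Cg F K1 (K - 2) Cl Cw cp hK1 hJ hCl hCw
  obtain ⟨T1, hT1⟩ := stg_a0_large Q (C + 3)
  refine ⟨Ce, max T0 (max T1 1), hCe, fun P hP hT s hs W Γ0 k hW hwf hk hk16 hbar A hA => ?_⟩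
  have hTa : T0 ≤ P.T := (le_max_left _ _).trans hT
  have hTb : T1 ≤ P.T := ((le_max_left _ _).trans (le_max_right _ _)).trans hT
  have hTc : 1 ≤ P.T := ((le_max_right _ _).trans (le_max_right _ _)).trans hT
  have hk0 : 0 < k := lt_of_lt_of_le (by positivity) hk
  have hs0 : 0 < s := P.pos_of_path hP.ok hs
  have ha3 : 3 ≤ P.a s := by
    have h1 := hP.env.a_ge s hs
    have h2 : C + 3 ≤ P.a0 := hT1 P.T hTb
    linarith
  have hsρ : s ≤ P.ρ := hs.2.trans hP.env.sst_lt.le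
  have hZ : 0 ≤ P.Z s := hP.bank.Z_nonneg s (hP.ok.sb_le.trans hs.1) hsρ
  have hα := (alf_bounds W.card hk0 hk16 ha3).1
  have hU : P.U Γ0 s ≤ s ^ 2 * Real.exp (-P.a s) / k := by
    rw [le_div_iff₀ hk0, P.exp_neg_a hP.ok hs0]
    have h1 : k * P.U Γ0 s + alf W.card k (P.a s) * P.Z s ≤ P.I s := hbar
    have h2 : 0 ≤ alf W.card k (P.a s) * P.Z s := mul_nonneg (by linarith) hZ
    linarith
  exact (h P hP.ok hTa s _ (hP.ctl s hs) W Γ0 hW hwf k hk (by linarith) hU).1 A hA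

/-- existence of majority lists on the path (`ctl_list`). -/
theorem stage_list (m n Q : ℕ) (hm : 1 ≤ m) (hQ : 1 ≤ Q) (κ Cg : ℝ) (F : Fix m n Q Cg)
    (K C K1 : ℝ) (hK : 2 * (m : ℝ) + 100 < K) (hK1 : 1 ≤ K1) :
    ∃ Cl0 T0 : ℝ, 1 ≤ Cl0 ∧ ∀ Cl : ℝ, Cl0 ≤ Cl → ∀ P : PD m n Q, PathOk P κ Cg K C K1 →
      T0 ≤ P.T → ∀ s ∈ P.path, ∃ A : Fin Q → E n, P.IsList F Cl s A := by
  have hJ : (0 : ℝ) ≤ K - 2 := by
    have : (0 : ℝ) ≤ m := Nat.cast_nonneg m
    linarith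
  obtain ⟨Cl0, T0, hCl0, h⟩ := ctl_list m n Q hm hQ κ Cg F K1 (K - 2) hK1 hJ
  refine ⟨Cl0, T0, hCl0, fun Cl hCl P hP hT s hs => ?_⟩
  obtain ⟨A, hA⟩ := h P hP.ok hT s _ (hP.ctl s hs)
  have hs0 : 0 < s := lt_of_lt_of_le (lt_of_lt_of_le hP.ok.sb_pos hP.ok.sb_le) hs.1
  exact ⟨A, Fix.IsMaj.mono (F := F) hA.maj hs0.le
    (mul_le_mul_of_nonneg_right hCl (Real.exp_pos _).le)⟩

/-- the three errors of one transport step against the merger threshold (numerics). -/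
theorem stg_step_num {Ce Cm Cl D E' S1 r r' k k' ea ea' : ℝ} (hCe : 0 < Ce) (hCm : 0 < Cm)
    (hCl : 1 ≤ Cl) (hD : 1 ≤ D) (hE' : 0 < E') (hr : 0 < r) (hrr : r ≤ r') (hk : 0 < k)
    (hk' : 0 < k') (hk1 : k' ≤ 1) (hk4 : k' ≤ 4 * k) (hea' : ea' = E' ^ 2) (hea0 : 0 ≤ ea)
    (hea : ea ≤ D ^ 2 * ea') (hS : 2 * (2 * Ce * D + Cm * Cl * (D + 1) + Ce) ≤ S1) :
    Ce * r * Real.sqrt (ea / k) + Cm * (r * Real.sqrt (Cl * ea) + r' * Real.sqrt (Cl * ea'))
      + Ce * r' * Real.sqrt (ea' / k') ≤ r' * S1 * E' / k' / 2 := by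
  have hr' : 0 < r' := lt_of_lt_of_le hr hrr
  have hCl0 : 0 < Cl := by linarith
  have hD0 : 0 < D := by linarith
  have hX : E' ≤ E' / k' := by
    rw [le_div_iff₀ hk']
    nlinarith
  have hX0 : 0 < E' / k' := by positivity
  have s1 : Real.sqrt (ea / k) ≤ 2 * D * (E' / k') := by
    rw [Real.sqrt_le_iff]
    refine ⟨by positivity, ?_⟩
    rw [div_le_iff₀ hk]
    have e : (2 * D * (E' / k')) ^ 2 * k = D ^ 2 * E' ^ 2 * (4 * k / k' ^ 2) := by
      field_simp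
      norm_num
    rw [e]
    have h1 : 1 ≤ 4 * k / k' ^ 2 := by
      rw [le_div_iff₀ (by positivity)]
      nlinarith
    calc ea ≤ D ^ 2 * E' ^ 2 * 1 := by rw [mul_one, ← hea']; exact hea
      _ ≤ _ := by gcongr
  have s2 : Real.sqrt (ea' / k') ≤ E' / k' := by
    rw [Real.sqrt_le_iff]
    refine ⟨hX0.le, ?_⟩
    rw [hea', div_pow, div_le_div_iff₀ hk' (by positivity)]
    have : k' ^ 2 ≤ k' := by nlinarith
    have h2 : 0 < E' ^ 2 := by positivity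
    nlinarith
  have s3 : Real.sqrt (Cl * ea) ≤ Cl * D * (E' / k') := by
    rw [Real.sqrt_le_iff]
    refine ⟨by positivity, ?_⟩
    have h1 : E' ^ 2 ≤ (E' / k') ^ 2 := by gcongr
    calc Cl * ea ≤ Cl * (D ^ 2 * E' ^ 2) := by rw [← hea']; gcongr
      _ ≤ Cl ^ 2 * (D ^ 2 * (E' / k') ^ 2) := by
          have : Cl ≤ Cl ^ 2 := by nlinarith
          gcongr
      _ = _ := by ring
  have s4 : Real.sqrt (Cl * ea') ≤ Cl * (E' / k') := by
    rw [Real.sqrt_le_iff]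
    refine ⟨by positivity, ?_⟩
    have h1 : E' ^ 2 ≤ (E' / k') ^ 2 := by gcongr
    calc Cl * ea' = Cl * E' ^ 2 := by rw [hea']
      _ ≤ Cl ^ 2 * (E' / k') ^ 2 := by
          have : Cl ≤ Cl ^ 2 := by nlinarith
          gcongr
      _ = _ := by ring
  calc Ce * r * Real.sqrt (ea / k) + Cm * (r * Real.sqrt (Cl * ea) + r' * Real.sqrt (Cl * ea'))
        + Ce * r' * Real.sqrt (ea' / k')
      ≤ Ce * r' * (2 * D * (E' / k')) + Cm * (r' * (Cl * D * (E' / k')) + r' * (Cl * (E' / k')))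
        + Ce * r' * (E' / k') := by gcongr
    _ = (2 * (2 * Ce * D + Cm * Cl * (D + 1) + Ce)) * (r' * (E' / k') / 2) := by ring
    _ ≤ S1 * (r' * (E' / k') / 2) := by gcongr
    _ = _ := by ring

/-- one step of the transport of the representation: from a list at the scale `r` to a list at a scale
`r' ∈ [r, 2r]` (`RepW.transport`, `Fix.matching` for the concentric balls `B_r(x)`, `B_{r'}(x)`,
`EnvOut.a_lip`: `|a(r') - a(r)| ≤ C log 2`; all three errors are `≤ C' r' e^{-a(r')/2} / k'`, and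
`S_1 ≥ e^{CS1}`). -/
theorem stage_rep_step (m n Q : ℕ) (hm : 1 ≤ m) (hQ : 1 ≤ Q) (κ Cg : ℝ) (F : Fix m n Q Cg)
    (K C K1 Cl Ce : ℝ) (hK : 2 * (m : ℝ) + 100 < K) (hK1 : 1 ≤ K1) (hCl : 1 ≤ Cl) (hCe : 0 < Ce) :
    ∃ CS1min T0 : ℝ, ∀ CS1 : ℝ, CS1min ≤ CS1 → ∀ P : PD m n Q,
      PathOk P κ Cg K C K1 → T0 ≤ P.T → ∀ r ∈ P.path, ∀ r' ∈ P.path, r ≤ r' → r' ≤ 2 * r →
      ∀ (W : Finset (E n)) (k k' : ℝ), 0 < k → 0 < k' → k' ≤ 1 → k' ≤ 4 * k →
      GapW W (P.thr CS1 k' r' / 2) →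
      ∀ A A' : Fin Q → E n, P.IsList F Cl r A → P.IsList F Cl r' A' →
      RepW A W (P.eps Ce k r) → NearW A' W (P.eps Ce k' r') → RepW A' W (P.eps Ce k' r') := by
  have hJ : (0 : ℝ) ≤ K - 2 := by
    have : (0 : ℝ) ≤ m := Nat.cast_nonneg m
    linarith
  obtain ⟨Cb, Tb, -, hball⟩ := ctl_ball m n Q hm hQ κ Cg K1 (K - 2) hK1 hJ
  obtain ⟨T1, hT1⟩ := stg_a0_large Q (C + 1)
  set D : ℝ := Real.exp (|C| * Real.log 2 / 2) with hD
  have hl2 : 0 < Real.log 2 := Real.log_pos (by norm_num)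
  have hD1 : 1 ≤ D := Real.one_le_exp (by positivity)
  have hCm := F.Cmaj_pos
  set Ct : ℝ := 2 * (2 * Ce * D + F.Cmaj * Cl * (D + 1) + Ce) with hCt
  have hCt0 : 0 < Ct := by positivity
  refine ⟨Ct, max Tb T1, fun CS1 hCS1 P hP hT r hr r' hr' hrr hr2 W k k' hk hk' hk1 hk4 hgap A A'
    hA hA' hrep hnear => ?_⟩
  have hTa : Tb ≤ P.T := (le_max_left _ _).trans hT
  have hTb : T1 ≤ P.T := (le_max_right _ _).trans hT
  have hr0 : 0 < r := P.pos_of_path hP.ok hr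
  have hr0' : 0 < r' := P.pos_of_path hP.ok hr'
  have hΩ : ∀ v ∈ P.path, ball P.x v ⊆ P.S.Ω := by
    intro v hv
    have h1 := (hball P hP.ok hTa v _ (hP.ctl v hv) 1 le_rfl
      (by rw [one_mul]; exact hv.2.trans hP.env.sst_lt.le)).1
    rw [one_mul] at h1
    exact (h1.trans (ball_subset_ball (by norm_num))).trans hP.ok.root.hyp.room
  have hadj : Adjacent P.x P.x r r' := by
    refine ⟨hr0, hr0', by linarith, hr2, ?_⟩
    rw [sub_self, norm_zero]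
    have := lt_min hr0 hr0'
    positivity
  have hM := F.matching hP.ok.root.hyp.valid hadj (hΩ r hr) (hΩ r' hr') hA hA'
  refine hrep.transport hM hnear hgap ?_
  have ha1 : 1 ≤ P.a r' := by
    have h1 := hP.env.a_ge r' hr'
    have h2 : C + 1 ≤ P.a0 := hT1 P.T hTb
    linarith
  have hb1 := rt_bQ_nonneg Q ha1
  have hS : Ct ≤ S1f Q CS1 (P.a r') := by
    unfold S1f
    have h1 : CS1 ≤ CS1 * bQ Q (P.a r') := by nlinarith
    have h2 := Real.add_one_le_exp (CS1 * bQ Q (P.a r'))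
    linarith
  have hlip : P.a r' - P.a r ≤ |C| * Real.log 2 := by
    have h1 := (abs_le.1 (hP.env.a_lip r hr r' hr' hrr)).2
    have h2 : Real.log (r' / r) ≤ Real.log 2 :=
      Real.log_le_log (by positivity) (by rw [div_le_iff₀ hr0]; exact hr2)
    have h3 : 0 ≤ Real.log (r' / r) := Real.log_nonneg (by rw [le_div_iff₀ hr0]; linarith)
    calc P.a r' - P.a r ≤ C * Real.log (r' / r) := h1
      _ ≤ |C| * Real.log (r' / r) := mul_le_mul_of_nonneg_right (le_abs_self C) h3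
      _ ≤ |C| * Real.log 2 := mul_le_mul_of_nonneg_left h2 (abs_nonneg C)
  have key := stg_step_num (Ce := Ce) (Cm := F.Cmaj) (Cl := Cl) (D := D)
    (E' := Real.exp (-P.a r' / 2)) (S1 := S1f Q CS1 (P.a r')) (r := r) (r' := r') (k := k) (k' := k')
    (ea := Real.exp (-P.a r)) (ea' := Real.exp (-P.a r')) hCe hCm hCl hD1 (Real.exp_pos _) hr0 hrr
    hk hk' hk1 hk4
    (by rw [← Real.exp_nat_mul]; congr 1; push_cast; ring) (Real.exp_pos _).le
    (by
      rw [hD, ← Real.exp_nat_mul, ← Real.exp_add, Real.exp_le_exp]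
      push_cast
      linarith) hS
  unfold PD.eps PD.thr
  exact key

/-- representation is transported along a stage (half of the merger threshold suffices: the statement
is also used at the first scale at which a merger is triggered). -/
theorem stage_rep (m n Q : ℕ) (hm : 1 ≤ m) (hQ : 1 ≤ Q) (κ Cg : ℝ) (F : Fix m n Q Cg)
    (K C K1 Cl Ce : ℝ) (hK : 2 * (m : ℝ) + 100 < K) (hK1 : 1 ≤ K1) (hCl : 1 ≤ Cl) (hCe : 0 < Ce) :
    ∃ CS1min T0 : ℝ, ∀ CS1 : ℝ, CS1min ≤ CS1 → ∀ P : PD m n Q,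
      PathOk P κ Cg K C K1 → T0 ≤ P.T → ∀ σ ∈ P.path, ∀ s ∈ P.path, σ ≤ s →
      ∀ (W : Finset (E n)) (k0 : ℝ), 0 < k0 → k0 ≤ 1 / 32 →
      (∀ r ∈ Icc σ s, ∃ A : Fin Q → E n, P.IsList F Cl r A) →
      (∀ r ∈ Icc σ s, GapW W (P.thr CS1 (kf k0 (P.a σ) (P.a r)) r / 2)) →
      (∀ r ∈ Icc σ s, ∀ A : Fin Q → E n, P.IsList F Cl r A →
        NearW A W (P.eps Ce (kf k0 (P.a σ) (P.a r)) r)) →
      (∃ A : Fin Q → E n, P.IsList F Cl σ A ∧ RepW A W (P.eps Ce k0 σ)) →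
      ∀ A : Fin Q → E n, P.IsList F Cl s A → RepW A W (P.eps Ce (kf k0 (P.a σ) (P.a s)) s) := by
  obtain ⟨CS1min, T0, h⟩ := stage_rep_step m n Q hm hQ κ Cg F K C K1 Cl Ce hK hK1 hCl hCe
  obtain ⟨T1, hT1⟩ := stg_a0_large Q (C + 2)
  refine ⟨CS1min, max T0 T1, fun CS1 hCS1 P hP hT σ hσ s hs hσs W k0 hk0 hk32 hlist hgap hnear
    hrep => ?_⟩
  have hstep := h CS1 hCS1 P hP ((le_max_left _ _).trans hT)
  have hσpos : 0 < σ := lt_of_lt_of_le (lt_of_lt_of_le hP.ok.sb_pos hP.ok.sb_le) hσ.1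
  have ha2 : ∀ r ∈ P.path, 2 ≤ P.a r := by
    intro r hr
    have h1 := hP.env.a_ge r hr
    have h2 : C + 2 ≤ P.a0 := hT1 P.T ((le_max_right _ _).trans hT)
    linarith
  have hpath : ∀ r ∈ Icc σ s, r ∈ P.path := fun r hr => ⟨hσ.1.trans hr.1, hr.2.trans hs.2⟩
  have hkf : ∀ r ∈ Icc σ s, k0 / 2 ≤ kf k0 (P.a σ) (P.a r) ∧ kf k0 (P.a σ) (P.a r) ≤ 2 * k0 :=
    fun r hr => kf_bounds hk0 (by linarith) (ha2 σ hσ) (ha2 r (hpath r hr))
  have key : ∀ (N : ℕ) (r : ℝ), r ∈ Icc σ s → r ≤ 2 ^ N * σ → ∀ A : Fin Q → E n,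
      P.IsList F Cl r A → RepW A W (P.eps Ce (kf k0 (P.a σ) (P.a r)) r) := by
    intro N
    induction N with
    | zero =>
      intro r hr hrN A hA
      have hrσ : r = σ := le_antisymm (by simpa using hrN) hr.1
      subst hrσ
      obtain ⟨A0, hA0, hR0⟩ := hrep
      obtain ⟨h1, h2⟩ := hkf r hr
      exact hstep r hσ r hσ le_rfl (by linarith) W k0 _ hk0 (by linarith) (by linarith)
        (by linarith) (hgap r hr) A0 A hA0 hA hR0 (hnear r hr A hA)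
    | succ N ih =>
      intro r hr hrN A hA
      set r1 : ℝ := max σ (r / 2) with hr1
      have hr1mem : r1 ∈ Icc σ s := by
        refine ⟨le_max_left _ _, max_le hσs ?_⟩
        have := hr.2
        have := hr.1
        linarith
      have hr1N : r1 ≤ 2 ^ N * σ := by
        refine max_le ?_ ?_
        · have : (1 : ℝ) ≤ 2 ^ N := one_le_pow₀ (by norm_num)
          nlinarith
        · rw [pow_succ] at hrN
          linarith
      obtain ⟨A1, hA1⟩ := hlist r1 hr1mem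
      have hR1 := ih r1 hr1mem hr1N A1 hA1
      obtain ⟨h1, h2⟩ := hkf r hr
      obtain ⟨h3, h4⟩ := hkf r1 hr1mem
      have hr1r : r1 ≤ r := max_le hr.1 (by linarith [hr.1])
      have hrr1 : r ≤ 2 * r1 := by
        have := le_max_right σ (r / 2)
        linarith
      exact hstep r1 (hpath r1 hr1mem) r (hpath r hr) hr1r hrr1 W _ _ (by linarith) (by linarith)
        (by linarith) (by linarith) (hgap r hr) A1 A hA1 hA hR1 (hnear r hr A hA)
  obtain ⟨N, hN⟩ := pow_unbounded_of_one_lt (s / σ) (by norm_num : (1 : ℝ) < 2)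
  refine key N s ⟨hσs, le_rfl⟩ ?_
  rw [div_lt_iff₀ hσpos] at hN
  exact hN.le

/-- the transition tilt is part of the far tilt. -/
theorem PD.stg_Dtr_le_Dfar {κ Cg : ℝ} (P : PD m n Q) (h : P.Ok κ Cg) (W : Finset (E n))
    (A : Fin Q → E n) {cv ϱ : ℝ} (s : ℝ) (hsub : ∀ ζ ∈ trSet W cv, ϱ < Sys.distA A ζ) :
    P.Dtr W cv s ≤ P.Dfar A ϱ s := by
  have hV := h.root.hyp.valid
  have hmeas : MeasurableSet {q : E m × E n | ϱ < Sys.distA A q.2} := by
    unfold Sys.distA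
    exact measurableSet_lt measurable_const
      ((continuous_infDist_pt _).measurable.comp measurable_snd)
  have hint : Integrable (fun q : E m × E n => Sys.ker P.χ s P.x q.1 * P.S.e q) P.S.μ :=
    ctl_integrable_D hV (P.ker_continuous h s).measurable
      ((ctl_ker_integrable h.root s P.x).mono_measure (cmpl_Dm_le P.S Q))
  unfold PD.Dtr PD.Dfar Sys.avg
  refine integral_mono_of_nonneg (Filter.Eventually.of_forall fun q =>
    mul_nonneg (ctl_ker_nonneg h.root s P.x q.1)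
      (indicator_nonneg (fun q _ => hV.e_nonneg q) q)) ?_
    (Filter.Eventually.of_forall fun q => mul_le_mul_of_nonneg_left
      (indicator_le_indicator_of_subset (fun q hq => hsub q.2 hq) (fun q => hV.e_nonneg q) q)
      (ctl_ker_nonneg h.root s P.x q.1))
  refine (hint.indicator hmeas).congr (Filter.Eventually.of_forall fun q => ?_)
  by_cases hq : q ∈ {q : E m × E n | ϱ < Sys.distA A q.2}
  · simp only [indicator_of_mem hq]
  · simp only [indicator_of_notMem hq, mul_zero]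

/-- the merger threshold beats the separation required by `sep_gauss` (numerics). -/
theorem stg_tr_num {Ce cv CS1 CS2 b s E' k : ℝ} (hCe : 0 < Ce) (hcv : 0 < cv) (hCS2 : 0 ≤ CS2)
    (hb : 1 ≤ b) (hCS1 : CS2 + (10 + 2 * Ce + (1 + Ce) / cv) ≤ CS1) (hs : 0 < s) (hE' : 0 < E')
    (hk : 0 < k) (hk1 : k ≤ 1) :
    0 ≤ Ce * s * Real.sqrt (E' ^ 2 / k) ∧
    2 * (Ce * s * Real.sqrt (E' ^ 2 / k)) < s * Real.exp (CS1 * b) * E' / k ∧
    10 * Real.exp (CS2 * b) * s * E'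
      ≤ s * Real.exp (CS1 * b) * E' / k - 2 * (Ce * s * Real.sqrt (E' ^ 2 / k)) ∧
    Real.exp (CS2 * b) * s * E'
      < cv * (s * Real.exp (CS1 * b) * E' / k) - Ce * s * Real.sqrt (E' ^ 2 / k) := by
  set c0 : ℝ := 10 + 2 * Ce + (1 + Ce) / cv with hc0
  have hq : 0 < (1 + Ce) / cv := by positivity
  have hc00 : 0 < c0 := by positivity
  set S2 : ℝ := Real.exp (CS2 * b) with hS2
  set S1 : ℝ := Real.exp (CS1 * b) with hS1
  have hS21 : 1 ≤ S2 := Real.one_le_exp (by positivity)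
  have he0 : c0 + 1 ≤ Real.exp c0 := Real.add_one_le_exp c0
  have hS12 : S2 * (c0 + 1) ≤ S1 := by
    calc S2 * (c0 + 1) ≤ S2 * Real.exp c0 := by gcongr
      _ = Real.exp (CS2 * b + c0) := (Real.exp_add _ _).symm
      _ ≤ S1 := by
          rw [hS1, Real.exp_le_exp]
          nlinarith
  set X : ℝ := s * (E' / k) with hX
  set Y : ℝ := s * E' with hY
  have hY0 : 0 < Y := by positivity
  have hYX : Y ≤ X := by
    rw [hX, hY]
    have : E' ≤ E' / k := by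
      rw [le_div_iff₀ hk]
      nlinarith
    gcongr
  have hX0 : 0 < X := lt_of_lt_of_le hY0 hYX
  have hsq : Real.sqrt (E' ^ 2 / k) ≤ E' / k := by
    rw [Real.sqrt_le_iff]
    refine ⟨by positivity, ?_⟩
    rw [div_pow, div_le_div_iff₀ hk (by positivity)]
    have : k ^ 2 ≤ k := by nlinarith
    have h2 : 0 < E' ^ 2 := by positivity
    nlinarith
  have hε : Ce * s * Real.sqrt (E' ^ 2 / k) ≤ Ce * X := by
    rw [hX]
    calc Ce * s * Real.sqrt (E' ^ 2 / k) ≤ Ce * s * (E' / k) := by gcongr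
      _ = _ := by ring
  have hg : s * S1 * E' / k = S1 * X := by rw [hX]; ring
  have e10 : 10 * S2 * s * E' = 10 * S2 * Y := by rw [hY]; ring
  have e1 : S2 * s * E' = S2 * Y := by rw [hY]; ring
  rw [hg, e10, e1]
  have h3 : 10 * S2 * Y ≤ S1 * X - 2 * (Ce * s * Real.sqrt (E' ^ 2 / k)) := by
    have a1 : (10 * S2 + 2 * Ce) ≤ S1 := by
      have : S2 * (10 + 2 * Ce) ≤ S2 * (c0 + 1) := by
        have : 10 + 2 * Ce ≤ c0 + 1 := by rw [hc0]; linarith
        gcongr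
      nlinarith
    have a2 : (10 * S2 + 2 * Ce) * X ≤ S1 * X := by gcongr
    have a3 : 10 * S2 * Y ≤ 10 * S2 * X := by gcongr
    nlinarith
  have h4 : S2 * Y < cv * (S1 * X) - Ce * s * Real.sqrt (E' ^ 2 / k) := by
    have a0 : 1 + Ce < cv * (c0 + 1) := by
      have : cv * ((1 + Ce) / cv) = 1 + Ce := by field_simp
      have h5 : cv * ((1 + Ce) / cv) < cv * (c0 + 1) := by
        have : (1 + Ce) / cv < c0 + 1 := by rw [hc0]; linarith
        gcongr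
      linarith
    have a1 : S2 + Ce < cv * S1 := by
      have b1 : S2 * (1 + Ce) < S2 * (cv * (c0 + 1)) := by gcongr
      have b2 : cv * (S2 * (c0 + 1)) ≤ cv * S1 := by gcongr
      nlinarith
    have a2 : (S2 + Ce) * X < cv * S1 * X := by gcongr
    have a3 : S2 * Y ≤ S2 * X := by gcongr
    nlinarith
  refine ⟨by positivity, ?_, h3, h4⟩
  have : 0 < 10 * S2 * Y := by positivity
  linarith

/-- **AE (5.15)** at a scale where the wells are represented and no merger is triggered. -/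
theorem stage_tr (m n Q : ℕ) (hm : 1 ≤ m) (hQ : 1 ≤ Q)
    (ih : ∀ q : ℕ, 1 ≤ q → q < Q → SignedAt m n q) (κ Cg : ℝ) (hκ : 0 < κ) (F : Fix m n Q Cg)
    (K P0 : ℝ) (hK : 2 * (m : ℝ) + 100 < K) (hP0 : 0 < P0) :
    ∃ CQ1 : ℝ, ∀ C K1 Cl Ce cp : ℝ, 1 ≤ K1 → 1 ≤ Cl → 0 < Ce → 0 < cp → ∃ CS1min T0 : ℝ,
      ∀ CS1 : ℝ, CS1min ≤ CS1 → ∀ P : PD m n Q, PathOk P κ Cg K C K1 → CQ1 ≤ P.CQ → T0 ≤ P.T →
      ∀ s ∈ P.path, ∀ (W : Finset (E n)) (k : ℝ), 1 < W.card → 0 < k → k ≤ 1 →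
      GapW W (P.thr CS1 k s) → ∀ A : Fin Q → E n, P.IsList F Cl s A →
      NearW A W (P.eps Ce k s) → RepW A W (P.eps Ce k s) →
      P.Zdot s + Real.log (P.a s) ^ 2 / P.a s * (s ^ 2 * P.Dtr W (cp / 2) s)
        ≤ P.a s ^ (-P0) * P.I s := by
  have hJ : (0 : ℝ) ≤ K - 2 := by
    have : (0 : ℝ) ≤ m := Nat.cast_nonneg m
    linarith
  -- common part: the grouping
  have common : ∀ (C K1 Ce cp CS2 CS1 : ℝ), 0 < Ce → 0 < cp → 0 ≤ CS2 →
      CS2 + (10 + 2 * Ce + (1 + Ce) / (cp / 2)) ≤ CS1 → ∀ P : PD m n Q, PathOk P κ Cg K C K1 →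
      C + 1 ≤ P.a0 → ∀ s ∈ P.path, ∀ (W : Finset (E n)) (k : ℝ), 1 < W.card → 0 < k → k ≤ 1 →
      GapW W (P.thr CS1 k s) → ∀ A : Fin Q → E n,
      NearW A W (P.eps Ce k s) → RepW A W (P.eps Ce k s) →
      ∃ grp : Fin Q → Fin Q, (∃ i j, grp i ≠ grp j) ∧
        Sys.Separated A grp
          (10 * Real.exp (CS2 * bQ Q (P.a s)) * s * Real.sqrt (Real.exp (-P.a s))) ∧
        ∀ ζ ∈ trSet W (cp / 2),
          Real.exp (CS2 * bQ Q (P.a s)) * s * Real.sqrt (Real.exp (-P.a s)) < Sys.distA A ζ := by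
    intro C K1 Ce cp CS2 CS1 hCe hcp hCS2 hCS1 P hP ha0 s hs W k hW hk hk1 hgap A hnear hrep
    have hs0 : 0 < s := P.pos_of_path hP.ok hs
    have ha1 : 1 ≤ P.a s := by
      have h1 := hP.env.a_ge s hs
      linarith
    have hb1 := rt_bQ_nonneg Q ha1
    have hexp : Real.exp (-P.a s) = Real.exp (-P.a s / 2) ^ 2 := by
      rw [← Real.exp_nat_mul]; congr 1; push_cast; ring
    have hsq : Real.sqrt (Real.exp (-P.a s)) = Real.exp (-P.a s / 2) := by
      rw [hexp, Real.sqrt_sq (Real.exp_pos _).le]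
    obtain ⟨n1, n2, n3, n4⟩ := stg_tr_num (Ce := Ce) (cv := cp / 2) (CS1 := CS1) (CS2 := CS2)
      (b := bQ Q (P.a s)) (s := s) (E' := Real.exp (-P.a s / 2)) (k := k) hCe (by positivity) hCS2
      hb1 hCS1 hs0 (Real.exp_pos _) hk hk1
    rw [← hexp] at n1 n2 n3 n4
    have eε : P.eps Ce k s = Ce * s * Real.sqrt (Real.exp (-P.a s) / k) := rfl
    have eg : P.thr CS1 k s = s * Real.exp (CS1 * bQ Q (P.a s)) * Real.exp (-P.a s / 2) / k := rfl
    rw [← eε] at n1 n2 n3 n4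
    rw [← eg] at n2 n3 n4
    obtain ⟨grp, hg1, hg2, hg3⟩ := exists_grouping hnear hrep hgap hW n1 n2
      (by positivity : 0 < cp / 2)
    rw [hsq]
    exact ⟨grp, hg1, fun i j hij => n3.trans (hg2 i j hij), fun ζ hζ => n4.trans_le (hg3 ζ hζ)⟩
  by_cases hQ2 : 2 ≤ Q
  · obtain ⟨CQ, hCQ, hsg⟩ := sep_gauss m n Q hm hQ2 ih κ Cg hκ F (K - 2) P0 hJ hP0
    refine ⟨CQ, fun C K1 Cl Ce cp hK1 hCl hCe hcp => ?_⟩
    obtain ⟨CS2, T0, hCS2, hsg⟩ := hsg K1 Cl hK1 hCl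
    obtain ⟨T1, hT1⟩ := stg_a0_large Q (C + 1)
    refine ⟨CS2 + (10 + 2 * Ce + (1 + Ce) / (cp / 2)), max T0 T1,
      fun CS1 hCS1 P hP hCQP hT s hs W k hW hk hk1 hgap A hA hnear hrep => ?_⟩
    have hTa : T0 ≤ P.T := (le_max_left _ _).trans hT
    have ha0 : C + 1 ≤ P.a0 := hT1 P.T ((le_max_right _ _).trans hT)
    obtain ⟨grp, hg1, hg2, hg3⟩ := common C K1 Ce cp CS2 CS1 hCe hcp hCS2.le hCS1 P hP ha0 s hs W k
      hW hk hk1 hgap A hnear hrep
    have hs0 : 0 < s := P.pos_of_path hP.ok hs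
    have ha1 : 1 ≤ P.a s := by
      have h1 := hP.env.a_ge s hs
      linarith
    have main := hsg P hP.ok hTa s _ (hP.ctl s hs) A hA grp hg1
      (by rw [lev_exp_neg]; exact hg2)
    rw [lev_exp_neg] at main
    have hD := P.stg_Dtr_le_Dfar hP.ok W A s hg3
    have hZ := P.Zdot_le hP.ok s
    have hLv := P.stg_Lv_eq s
    have hLam := P.Lamv_nonneg hP.ok s
    have hc : 0 ≤ Real.log (P.a s) ^ 2 / P.a s := by positivity
    have hs2 : 0 < s ^ 2 := by positivity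
    have h1 : CQ * (s ^ 2 * P.Lamv s) ≤ P.CQ * (s ^ 2 * P.Lamv s) :=
      mul_le_mul_of_nonneg_right hCQP (by positivity)
    have h2 : Real.log (P.a s) ^ 2 / P.a s * (s ^ 2 * P.Dtr W (cp / 2) s)
        ≤ Real.log (P.a s) ^ 2 / P.a s * (s ^ 2 * P.Dfar A
          (Real.exp (CS2 * bQ Q (P.a s)) * s * Real.sqrt (Real.exp (-P.a s))) s) := by
      gcongr
    have h3 := mul_le_mul_of_nonneg_left main hs2.le
    rw [← P.exp_neg_a hP.ok hs0]
    nlinarith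
  · refine ⟨0, fun C K1 Cl Ce cp hK1 hCl hCe hcp => ?_⟩
    obtain ⟨T1, hT1⟩ := stg_a0_large Q (C + 1)
    refine ⟨0 + (10 + 2 * Ce + (1 + Ce) / (cp / 2)), T1,
      fun CS1 hCS1 P hP hCQP hT s hs W k hW hk hk1 hgap A hA hnear hrep => ?_⟩
    obtain ⟨grp, ⟨i, j, hij⟩, -, -⟩ := common C K1 Ce cp 0 CS1 hCe hcp le_rfl hCS1 P hP (hT1 P.T hT)
      s hs W k hW hk hk1 hgap A hnear hrep
    exfalso
    have hQ1 : Q = 1 := by omega
    subst hQ1
    exact hij (Subsingleton.elim _ _)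

/-! ## Package Stage-B : one stage -/

/-- the barrier persists as long as no merger is triggered (`persist`, `barrier_step` for `P.flow`, with
`U(t) = P.U Γ0 (e^t)`, `Dd = s² D_s`, `Dtr = s² D_tr`, `R = s² R_s`, `Jm = P.Jm s`; inputs: `geom_absorb`,
`moment_deriv`, `radial_lower` with `Pe = 4`, `stage_near`, `stage_rep`, `stage_tr`). -/
theorem stage_bar (m n Q : ℕ) (hm : 1 ≤ m) (hQ : 1 ≤ Q)
    (ih : ∀ q : ℕ, 1 ≤ q → q < Q → SignedAt m n q) (κ Cg : ℝ) (hκ : 0 < κ) (F : Fix m n Q Cg)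
    (K Cw cp P0 : ℝ) (hK : 2 * (m : ℝ) + 100 < K) (hCw : 1 ≤ Cw) (hcp : 0 < cp)
    (hcp' : cp ≤ 1 / 4) (hP0 : 4 ≤ P0) :
    ∃ CQ1 : ℝ, ∀ C K1 : ℝ, 1 ≤ K1 → ∃ Cl0 : ℝ, ∀ Cl : ℝ, Cl0 ≤ Cl → ∃ Ce kmax0 : ℝ, 0 < Ce ∧
      0 < kmax0 ∧ kmax0 ≤ 1 / 64 ∧ ∃ CS1min : ℝ, ∀ CS1 kmax : ℝ, CS1min ≤ CS1 → kmax ≤ kmax0 →
      ∃ T0 : ℝ, ∀ P : PD m n Q, PathOk P κ Cg K C K1 → CQ1 ≤ P.CQ → T0 ≤ P.T →
      ∀ (σ : ℝ) (W : Finset (E n)) (Γ0 : E n → ℝ) (k : ℝ),
      St P F ⟨Cl, Cw, cp, Ce, CS1, kmax, P0⟩ σ W Γ0 k → 2 / P.T ≤ k →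
      ∀ σ' ∈ Icc σ P.sst, (∀ s ∈ Ico σ σ', GapW W (P.thr CS1 (kf k (P.a σ) (P.a s)) s)) →
      StageOn P ⟨Cl, Cw, cp, Ce, CS1, kmax, P0⟩ σ σ' W Γ0 k ∧
        ∃ A : Fin Q → E n, P.IsList F Cl σ' A ∧
          RepW A W (P.eps Ce (kf k (P.a σ) (P.a σ')) σ') := by
  classical
  have hm0 : (0 : ℝ) ≤ m := Nat.cast_nonneg m
  have hJ : (0 : ℝ) ≤ K - 2 := by linarith
  obtain ⟨CQ1, htr⟩ := stage_tr m n Q hm hQ ih κ Cg hκ F K P0 hK (by linarith)
  refine ⟨max CQ1 0, fun C K1 hK1 => ?_⟩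
  obtain ⟨Cl0, Tl, hCl0, hlist⟩ := stage_list m n Q hm hQ κ Cg F K C K1 hK hK1
  refine ⟨Cl0, fun Cl hCl => ?_⟩
  have hCl1 : 1 ≤ Cl := hCl0.trans hCl
  obtain ⟨Ce, Tn, hCe, hnear⟩ := stage_near m n Q hm hQ κ Cg F K C K1 Cl Cw cp hK hK1 hCl1 hCw
  obtain ⟨Cmo, Tmo, hCmo, hmom⟩ :=
    moment_deriv m n Q hm hQ κ Cg hκ F K1 (K - 2) Cw cp 4 hK1 hJ hCw hcp hcp'
  obtain ⟨Cra, Tra, hCra, hrad⟩ :=
    radial_lower m n Q hm hQ κ Cg hκ F K1 (K - 2) Cw cp 4 hK1 hJ hCw hcp hcp'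
  obtain ⟨C', hC', hreg⟩ := flow_reg m n Q κ Cg C
  obtain ⟨kmaxB, amin, hkB, hstep⟩ := barrier_step C' (max Cmo Cra) 1 K one_pos (by linarith)
  obtain ⟨Cgam, hCgam, hgam⟩ := gamOk n Cw cp hCw
  refine ⟨Ce, min kmaxB (1 / 64), hCe, lt_min hkB (by norm_num), min_le_right _ _, ?_⟩
  obtain ⟨CSa, Ttr, htr⟩ := htr C K1 Cl Ce cp hK1 hCl1 hCe hcp
  obtain ⟨CSb, Trep, hrep⟩ := stage_rep m n Q hm hQ κ Cg F K C K1 Cl Ce hK hK1 hCl1 hCe
  refine ⟨max CSa CSb, fun CS1 kmax hCS1 hkm => ?_⟩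
  obtain ⟨Tg, hgeo⟩ := geom_absorb m n Q hm hQ κ Cg hκ
  obtain ⟨x0, hx0⟩ := bQ_continuousOn Q
  obtain ⟨Ta, hTa⟩ := stg_a0_large Q (C + max (max amin 3) x0)
  refine ⟨max (max (max Tl Tn) (max Tmo Tra)) (max (max Ttr Trep) (max Tg Ta)),
    fun P hP hCQ hT σ W Γ0 k hSt h2T σ' hσ' hgap => ?_⟩
  have hTl : Tl ≤ P.T := (((le_max_left _ _).trans (le_max_left _ _)).trans (le_max_left _ _)).trans hT
  have hTn : Tn ≤ P.T := (((le_max_right _ _).trans (le_max_left _ _)).trans (le_max_left _ _)).trans hT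
  have hTmo : Tmo ≤ P.T :=
    (((le_max_left _ _).trans (le_max_right _ _)).trans (le_max_left _ _)).trans hT
  have hTra : Tra ≤ P.T :=
    (((le_max_right _ _).trans (le_max_right _ _)).trans (le_max_left _ _)).trans hT
  have hTtr : Ttr ≤ P.T :=
    (((le_max_left _ _).trans (le_max_left _ _)).trans (le_max_right _ _)).trans hT
  have hTrep : Trep ≤ P.T :=
    (((le_max_right _ _).trans (le_max_left _ _)).trans (le_max_right _ _)).trans hT
  have hTg : Tg ≤ P.T :=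
    (((le_max_left _ _).trans (le_max_right _ _)).trans (le_max_right _ _)).trans hT
  have hTa' : Ta ≤ P.T :=
    (((le_max_right _ _).trans (le_max_right _ _)).trans (le_max_right _ _)).trans hT
  have hCQ1 : CQ1 ≤ P.CQ := (le_max_left _ _).trans hCQ
  have hCQ0 : 0 ≤ P.CQ := (le_max_right _ _).trans hCQ
  have hok := hP.ok
  have hσ : σ ∈ P.path := hSt.mem
  have hs0pos : 0 < P.s0 := lt_of_lt_of_le hok.sb_pos hok.sb_le
  have hpos : ∀ s ∈ P.path, 0 < s := fun s hs => lt_of_lt_of_le hs0pos hs.1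
  have hσpos : 0 < σ := hpos σ hσ
  have hρ : ∀ s ∈ P.path, s ≤ P.ρ := fun s hs => hs.2.trans hP.env.sst_lt.le
  have hsub : ∀ s ∈ Icc σ σ', s ∈ P.path := fun s hs => ⟨hσ.1.trans hs.1, hs.2.trans hσ'.2⟩
  have halow : ∀ s ∈ P.path, max (max amin 3) x0 ≤ P.a s := by
    intro s hs
    have h1 := hP.env.a_ge s hs
    have h2 : C + max (max amin 3) x0 ≤ P.a0 := hTa P.T hTa'
    linarith
  have ha3 : ∀ s ∈ P.path, 3 ≤ P.a s := fun s hs =>
    ((le_max_right _ _).trans (le_max_left _ _)).trans (halow s hs)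
  have haamin : ∀ s ∈ P.path, amin ≤ P.a s := fun s hs =>
    ((le_max_left _ _).trans (le_max_left _ _)).trans (halow s hs)
  have hax0 : ∀ s ∈ P.path, x0 ≤ P.a s := fun s hs => (le_max_right _ _).trans (halow s hs)
  have hkpos : 0 < k := hSt.k_pos
  have hkkm : k ≤ min kmaxB (1 / 64) := hSt.k_le'.trans hkm
  have hk64 : k ≤ 1 / 64 := hkkm.trans (min_le_right _ _)
  have hkB' : k ≤ kmaxB := hkkm.trans (min_le_left _ _)
  have hkf : ∀ s ∈ P.path, k / 2 ≤ kf k (P.a σ) (P.a s) ∧ kf k (P.a σ) (P.a s) ≤ 2 * k :=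
    fun s hs => kf_bounds hkpos (by linarith) (by have := ha3 σ hσ; linarith)
      (by have := ha3 s hs; linarith)
  have hkfT : ∀ s ∈ P.path, 1 / P.T ≤ kf k (P.a σ) (P.a s) := by
    intro s hs
    have e : 1 / P.T = 2 / P.T / 2 := by ring
    have := (hkf s hs).1
    rw [e]
    linarith
  have hΓ : GamOk Γ0 Cgam := hgam W Γ0 hSt.wf
  have hΓc : Continuous Γ0 := hSt.wf.smooth.continuous
  -- consequences of the barrier
  have hBarU : ∀ s ∈ P.path, P.Bar W Γ0 (kf k (P.a σ) (P.a s)) s →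
      P.U Γ0 s ≤ s ^ 2 * Real.exp (-P.a s) / kf k (P.a σ) (P.a s) := by
    intro s hs hB
    unfold PD.Bar at hB
    obtain ⟨h1, h2⟩ := hkf s hs
    have hal := (alf_bounds W.card (k := kf k (P.a σ) (P.a s)) (a := P.a s) (by linarith)
      (by linarith) (ha3 s hs)).1
    have hZ := hP.bank.Z_nonneg s (hok.sb_le.trans hs.1) (hρ s hs)
    have : 0 ≤ alf W.card (kf k (P.a σ) (P.a s)) (P.a s) * P.Z s := mul_nonneg (by linarith) hZ
    rw [P.exp_neg_a hok (hpos s hs), le_div_iff₀ (by linarith)]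
    linarith
  have hNear : ∀ s ∈ P.path, P.Bar W Γ0 (kf k (P.a σ) (P.a s)) s → ∀ A : Fin Q → E n,
      P.IsList F Cl s A → NearW A W (P.eps Ce (kf k (P.a σ) (P.a s)) s) := by
    intro s hs hB A hA
    exact hnear P hP hTn s hs W Γ0 _ hSt.ne hSt.wf (hkfT s hs)
      (by have := (hkf s hs).2; linarith) hB A hA
  have hthr0 : ∀ s ∈ P.path, 0 ≤ P.thr CS1 (kf k (P.a σ) (P.a s)) s := by
    intro s hs
    have h1 := (hkf s hs).1
    have h2 := hpos s hs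
    unfold PD.thr S1f
    have : 0 < kf k (P.a σ) (P.a s) := by linarith
    positivity
  have hGhalf : ∀ s ∈ Ico σ σ', GapW W (P.thr CS1 (kf k (P.a σ) (P.a s)) s / 2) := by
    intro s hs
    refine (hgap s hs).mono ?_
    have := hthr0 s (hsub s ⟨hs.1, hs.2.le⟩)
    linarith
  have hRepAll : ∀ s ∈ Icc σ σ', (∀ r ∈ Icc σ s, P.Bar W Γ0 (kf k (P.a σ) (P.a r)) r) →
      (∀ r ∈ Icc σ s, GapW W (P.thr CS1 (kf k (P.a σ) (P.a r)) r / 2)) →
      ∀ A : Fin Q → E n, P.IsList F Cl s A → RepW A W (P.eps Ce (kf k (P.a σ) (P.a s)) s) := by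
    intro s hs hB hG
    have hsubs : ∀ r ∈ Icc σ s, r ∈ P.path := fun r hr => hsub r ⟨hr.1, hr.2.trans hs.2⟩
    exact hrep CS1 ((le_max_right _ _).trans hCS1) P hP hTrep σ hσ s (hsub s hs) hs.1 W k hkpos
      (by linarith) (fun r hr => hlist Cl hCl P hP hTl r (hsubs r hr)) hG
      (fun r hr A hA => hNear r (hsubs r hr) (hB r hr) A hA) hSt.rep
  have hTrans : ∀ s ∈ Ico σ σ', (∀ r ∈ Icc σ s, P.Bar W Γ0 (kf k (P.a σ) (P.a r)) r) →
      1 < W.card →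
      P.Zdot s + Real.log (P.a s) ^ 2 / P.a s * (s ^ 2 * P.Dtr W (cp / 2) s)
        ≤ P.a s ^ (-P0) * P.I s := by
    intro s hs hB hW
    have hsp : s ∈ P.path := hsub s ⟨hs.1, hs.2.le⟩
    obtain ⟨A, hA⟩ := hlist Cl hCl P hP hTl s hsp
    have hN := hNear s hsp (hB s ⟨hs.1, le_rfl⟩) A hA
    have hR := hRepAll s ⟨hs.1, hs.2.le⟩ hB
      (fun r hr => hGhalf r ⟨hr.1, hr.2.trans_lt hs.2⟩) A hA
    obtain ⟨h1, h2⟩ := hkf s hsp
    exact htr CS1 ((le_max_left _ _).trans hCS1) P hP hCQ1 hTtr s hsp W _ hW (by linarith)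
      (by linarith) (hgap s hs) A hA hN hR
  -- the flow
  have hKpos : 0 < P.K := by rw [hP.hK]; linarith
  have hReg : P.flow.Reg C' (Real.log P.s0) (Real.log P.sst) := hreg P hok hKpos hP.bank hP.env
  set Uf : ℝ → ℝ := fun t => P.U Γ0 (Real.exp t) with hUf
  have hBarΦ : ∀ s, 0 < s → (P.Bar W Γ0 (kf k (P.a σ) (P.a s)) s ↔
      0 ≤ P.flow.Phi W.card k (P.a σ) Uf (Real.log s)) := by
    intro s hs
    rw [hUf, P.flow_Phi hok W.card k (P.a σ) Γ0 hs]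
    unfold PD.Bar
    constructor <;> intro h <;> linarith
  have hσ'pos : 0 < σ' := lt_of_lt_of_le hσpos hσ'.1
  have hexp : ∀ t ∈ Icc (Real.log σ) (Real.log σ'), Real.exp t ∈ Icc σ σ' := by
    intro t ht
    constructor
    · rw [← Real.exp_log hσpos]; exact Real.exp_le_exp.2 ht.1
    · rw [← Real.exp_log hσ'pos]; exact Real.exp_le_exp.2 ht.2
  have hpers : ∀ t ∈ Icc (Real.log σ) (Real.log σ'), 0 ≤ P.flow.Phi W.card k (P.a σ) Uf t := by
    refine persist (Real.log_le_log hσpos hσ'.1) ?_ ?_ ?_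
    · refine hReg.Phi_continuousOn W.card hkpos (by linarith) (by have := ha3 σ hσ; linarith)
        ?_ ?_ ?_
      · intro t ht
        exact ⟨(Real.log_le_log hs0pos hσ.1).trans ht.1,
          ht.2.trans (Real.log_le_log hσ'pos hσ'.2)⟩
      · intro t _
        exact ((P.hasDerivAt_U hok hΓ hΓc (Real.exp_pos t)).continuousAt.comp
          Real.continuous_exp.continuousAt).continuousWithinAt
      · intro t ht
        rw [P.flow_a hok]
        have := ha3 _ (hsub _ (hexp t ht))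
        linarith
    · refine (hBarΦ σ hσpos).1 ?_
      rw [kf_self]
      exact hSt.bar
    · intro t ht hprev hzero
      have hsI : Real.exp t ∈ Icc σ σ' := hexp t ⟨ht.1, ht.2.le⟩
      have hslt : Real.exp t < σ' := by
        rw [← Real.exp_log hσ'pos]; exact Real.exp_lt_exp.2 ht.2
      set s : ℝ := Real.exp t with hs
      have hsp : s ∈ P.path := hsub s hsI
      have hspos : 0 < s := hpos s hsp
      have hlogs : Real.log s = t := Real.log_exp t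
      have hB : ∀ r ∈ Icc σ s, P.Bar W Γ0 (kf k (P.a σ) (P.a r)) r := by
        intro r hr
        have hrpos : 0 < r := lt_of_lt_of_le hσpos hr.1
        refine (hBarΦ r hrpos).2 (hprev _ ⟨Real.log_le_log hσpos hr.1, ?_⟩)
        rw [← hlogs]
        exact Real.log_le_log hrpos hr.2
      have hat : P.flow.a t = P.a s := P.flow_a hok t
      obtain ⟨hk1, hk2⟩ := hkf s hsp
      have hctl := hP.ctl s hsp
      have hU := hBarU s hsp (hB s ⟨hsI.1, le_rfl⟩)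
      have hI : s ^ 2 * Real.exp (-P.a s) = P.I s := P.exp_neg_a hok hspos
      have hDtr0 : 0 ≤ P.Dtr W (cp / 2) s := P.Dtr_nonneg hok W _ hspos
      have hDtrle : P.Dtr W (cp / 2) s ≤ P.Dv s := P.Dtr_le hok W _ hspos
      have hs2 : 0 < s ^ 2 := by positivity
      have hmo := hmom P hok hTmo s _ hctl W Γ0 hSt.ne hSt.wf _ (hkfT s hsp) (by linarith) hU
      have hra := hrad P hok hTra s _ hctl W Γ0 hSt.ne hSt.wf _ (hkfT s hsp) (by linarith) hU
      rw [lev_exp_neg, hI] at hmo hra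
      have hge := hgeo P hok hTg s (hok.sb_le.trans hsp.1) (hρ s hsp)
      obtain ⟨hJ0, hJ1⟩ := P.Jm_ge hok hCQ0 s
      have hT0 : 0 ≤ s ^ 2 * P.Dtr W (cp / 2) s := by positivity
      refine hstep P.flow (Real.log P.s0) (Real.log P.sst) hP.hK hReg W.card k (P.a σ) Uf
        (P.Udot Γ0 s) (s ^ 2 * P.Dv s) (s ^ 2 * P.Dtr W (cp / 2) s) (s ^ 2 * P.Rv s) (P.Jm s) t
        ⟨(Real.log_le_log hs0pos hσ.1).trans ht.1,
          ht.2.trans_le (Real.log_le_log hσ'pos hσ'.2)⟩ hkpos hkB' (haamin σ hσ)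
        (by rw [hat]; exact haamin s hsp) ?_ (P.U_nonneg hok hΓ hspos) hzero ?_ ?_
        (hJ0.trans hJ1) hT0 (mul_le_mul_of_nonneg_left hDtrle hs2.le) ?_ ?_ ?_ ?_
      · have h1 := (P.hasDerivAt_U hok hΓ hΓc hspos).comp t (Real.hasDerivAt_exp t)
        have e : P.Udot Γ0 s / s * Real.exp t = P.Udot Γ0 s := by
          rw [← hs]; field_simp
        rw [e] at h1
        exact h1
      · show |P.Adot s - (2 * P.A s - s ^ 2 * P.Dv s + s ^ 2 * P.Rv s)| ≤ P.Jm s / 2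
        have e : 2 * P.A s - s ^ 2 * P.Dv s + s ^ 2 * P.Rv s = s ^ 2 * (P.Lv s + P.Rv s) := by
          rw [mul_add, P.stg_Lv_eq]
        rw [e]
        refine hge.trans ?_
        linarith
      · exact P.stg_Zdot_eq s
      · rw [hat]
        show P.Udot Γ0 s ≤ _
        have h1 : Cmo * s ^ 2 * P.Dtr W (cp / 2) s
            ≤ max Cmo Cra * (s ^ 2 * P.Dtr W (cp / 2) s) := by
          rw [mul_assoc]
          exact mul_le_mul_of_nonneg_right (le_max_left _ _) hT0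
        have e : P.flow.I t = P.I s := rfl
        rw [e]
        linarith
      · rw [hat]
        have e : P.flow.I t = P.I s := rfl
        rw [e]
        have h1 : Cra * s ^ 2 * P.Dtr W (cp / 2) s
            ≤ max Cmo Cra * (s ^ 2 * P.Dtr W (cp / 2) s) := by
          rw [mul_assoc]
          exact mul_le_mul_of_nonneg_right (le_max_right _ _) hT0
        have hkk : 0 ≤ 4 * kf k (P.a σ) (P.a s) := by linarith
        have h2 := mul_le_mul_of_nonneg_left h1 hkk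
        show 4 * kf k (P.a σ) (P.a s) * (s ^ 2 * P.Dv s
          - max Cmo Cra * (s ^ 2 * P.Dtr W (cp / 2) s))
          - 4 * kf k (P.a σ) (P.a s) ^ 2 * P.U Γ0 s
          - P.a s ^ (-4 : ℝ) * kf k (P.a σ) (P.a s) * P.I s ≤ s ^ 2 * P.Rv s
        linarith
      · intro hW
        rw [hat]
        have e : P.flow.I t = P.I s := rfl
        rw [e]
        have h1 := hTrans s ⟨hsI.1, hslt⟩ hB hW
        have h2 : P.a s ^ (-P0) ≤ P.a s ^ (-4 : ℝ) :=
          Real.rpow_le_rpow_of_exponent_le (by have := ha3 s hsp; linarith) (by linarith)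
        have h3 : 0 < P.I s := P.I_pos hok hspos
        have h4 := mul_le_mul_of_nonneg_right h2 h3.le
        show P.Zdot s + 1 * (Real.log (P.a s) ^ 2 / P.a s) * (s ^ 2 * P.Dtr W (cp / 2) s) ≤ _
        linarith
      · intro hW
        have hc1 : W.card = 1 := le_antisymm hW (Finset.card_pos.2 hSt.ne)
        obtain ⟨b, rfl⟩ := Finset.card_eq_one.1 hc1
        rw [P.Dtr_single, mul_zero]
  have hBarAll : ∀ s ∈ Icc σ σ', P.Bar W Γ0 (kf k (P.a σ) (P.a s)) s := by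
    intro s hs
    have hspos : 0 < s := lt_of_lt_of_le hσpos hs.1
    exact (hBarΦ s hspos).2 (hpers _ ⟨Real.log_le_log hσpos hs.1, Real.log_le_log hspos hs.2⟩)
  refine ⟨⟨hBarAll, hgap, fun hW s hs =>
    hTrans s hs (fun r hr => hBarAll r ⟨hr.1, hr.2.trans hs.2.le⟩) hW⟩, ?_⟩
  -- representation at `σ'`
  have hGσ' : GapW W (P.thr CS1 (kf k (P.a σ) (P.a σ')) σ' / 2) := by
    rcases hσ'.1.lt_or_eq with hlt | heq
    · have hgc : ContinuousOn (fun s => P.thr CS1 (kf k (P.a σ) (P.a s)) s) (Icc σ σ') :=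
        P.thr_continuousOn hok hx0 CS1 k (P.a σ) hσpos (hρ σ' (hsub σ' ⟨hσ'.1, le_rfl⟩))
          fun s hs => max_le (hax0 s (hsub s hs)) (by have := ha3 s (hsub s hs); linarith)
      intro b hb b' hb' hne
      have hcl : IsClosed (Icc σ σ' ∩ (fun s => P.thr CS1 (kf k (P.a σ) (P.a s)) s) ⁻¹'
          Iic ‖b - b'‖) := hgc.preimage_isClosed_of_isClosed isClosed_Icc isClosed_Iic
      have hsubset : Ico σ σ' ⊆ Icc σ σ' ∩ (fun s => P.thr CS1 (kf k (P.a σ) (P.a s)) s) ⁻¹'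
          Iic ‖b - b'‖ := fun s hs => ⟨⟨hs.1, hs.2.le⟩, (hgap s hs b hb b' hb' hne).le⟩
      have hmem := closure_minimal hsubset hcl
      rw [closure_Ico hlt.ne] at hmem
      have h1 : P.thr CS1 (kf k (P.a σ) (P.a σ')) σ' ≤ ‖b - b'‖ := (hmem ⟨hσ'.1, le_rfl⟩).2
      have h2 : 0 < ‖b - b'‖ := norm_pos_iff.2 (sub_ne_zero.2 hne)
      have h3 := hthr0 σ' (hsub σ' ⟨hσ'.1, le_rfl⟩)
      linarith
    · rw [← heq, kf_self]
      refine hSt.gap.mono ?_
      have h3 := hthr0 σ hσ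
      rw [kf_self] at h3
      linarith
  obtain ⟨A, hA⟩ := hlist Cl hCl P hP hTl σ' (hsub σ' ⟨hσ'.1, le_rfl⟩)
  refine ⟨A, hA, hRepAll σ' ⟨hσ'.1, le_rfl⟩ hBarAll (fun r hr => ?_) A hA⟩
  rcases hr.2.lt_or_eq with h | h
  · exact hGhalf r ⟨hr.1, h⟩
  · rw [h]; exact hGσ'

/-- **One stage** (AE Proposition 5.4 between two mergers): `σ'` is the first scale at which a merger is
triggered (the merger condition is closed in `s`), or `s_*`. -/
theorem stage (m n Q : ℕ) (hm : 1 ≤ m) (hQ : 1 ≤ Q)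
    (ih : ∀ q : ℕ, 1 ≤ q → q < Q → SignedAt m n q) (κ Cg : ℝ) (hκ : 0 < κ) (F : Fix m n Q Cg)
    (K Cw cp P0 : ℝ) (hK : 2 * (m : ℝ) + 100 < K) (hCw : 1 ≤ Cw) (hcp : 0 < cp)
    (hcp' : cp ≤ 1 / 4) (hP0 : 4 ≤ P0) :
    ∃ CQ1 : ℝ, ∀ C K1 : ℝ, 1 ≤ K1 → ∃ Cl0 : ℝ, ∀ Cl : ℝ, Cl0 ≤ Cl → ∃ Ce kmax0 : ℝ, 0 < Ce ∧
      0 < kmax0 ∧ kmax0 ≤ 1 / 64 ∧ ∃ CS1min : ℝ, ∀ CS1 kmax : ℝ, CS1min ≤ CS1 → kmax ≤ kmax0 →
      ∃ T0 : ℝ, ∀ P : PD m n Q, PathOk P κ Cg K C K1 → CQ1 ≤ P.CQ → T0 ≤ P.T →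
      ∀ (σ : ℝ) (W : Finset (E n)) (Γ0 : E n → ℝ) (k : ℝ),
      St P F ⟨Cl, Cw, cp, Ce, CS1, kmax, P0⟩ σ W Γ0 k → 2 / P.T ≤ k →
      ∃ σ' ∈ Icc σ P.sst, StageOn P ⟨Cl, Cw, cp, Ce, CS1, kmax, P0⟩ σ σ' W Γ0 k ∧
        (∃ A : Fin Q → E n, P.IsList F Cl σ' A ∧
          RepW A W (P.eps Ce (kf k (P.a σ) (P.a σ')) σ')) ∧
        (σ' = P.sst ∨ ¬ GapW W (P.thr CS1 (kf k (P.a σ) (P.a σ')) σ')) := by
  classical
  obtain ⟨CQ1, h⟩ := stage_bar m n Q hm hQ ih κ Cg hκ F K Cw cp P0 hK hCw hcp hcp' hP0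
  refine ⟨CQ1, fun C K1 hK1 => ?_⟩
  obtain ⟨Cl0, h⟩ := h C K1 hK1
  refine ⟨Cl0, fun Cl hCl => ?_⟩
  obtain ⟨Ce, kmax0, hCe, hk0, hk64, CS1min, h⟩ := h Cl hCl
  refine ⟨Ce, kmax0, hCe, hk0, hk64, CS1min, fun CS1 kmax hCS1 hkm => ?_⟩
  obtain ⟨T0, h⟩ := h CS1 kmax hCS1 hkm
  obtain ⟨x0, hx0⟩ := bQ_continuousOn Q
  obtain ⟨T1, hT1⟩ := stg_a0_large Q (C + max x0 1)
  refine ⟨max T0 T1, fun P hP hCQ hT σ W Γ0 k hSt h2T => ?_⟩
  have hbar := h P hP hCQ ((le_max_left _ _).trans hT) σ W Γ0 k hSt h2T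
  have hok := hP.ok
  have hσ : σ ∈ P.path := hSt.mem
  have hs0pos : 0 < P.s0 := lt_of_lt_of_le hok.sb_pos hok.sb_le
  have hsub : Icc σ P.sst ⊆ P.path := fun s hs => ⟨hσ.1.trans hs.1, hs.2⟩
  have hacont : ContinuousOn P.a (Icc σ P.sst) :=
    (P.a_continuousOn hok).mono fun s hs =>
      ⟨lt_of_lt_of_le hs0pos (hsub hs).1, hs.2.trans hP.env.sst_lt.le⟩
  have halow : ∀ s ∈ Icc σ P.sst, max x0 1 ≤ P.a s := by
    intro s hs
    have h1 := hP.env.a_ge s (hsub hs)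
    have h2 : C + max x0 1 ≤ P.a0 := hT1 P.T ((le_max_right _ _).trans hT)
    linarith
  set g : ℝ → ℝ := fun s => P.thr CS1 (kf k (P.a σ) (P.a s)) s with hg
  have hgc : ContinuousOn g (Icc σ P.sst) := by
    have e : g = fun s => s * Real.exp (CS1 * bQ Q (P.a s)) * Real.exp (-P.a s / 2)
        * (k⁻¹ + (P.a σ)⁻¹ - (P.a s)⁻¹) := by
      funext s
      simp only [hg, PD.thr, kf, S1f, div_inv_eq_mul]
    rw [e]
    have hb : ContinuousOn (fun s => bQ Q (P.a s)) (Icc σ P.sst) :=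
      hx0.comp hacont fun s hs => (le_max_left _ _).trans (halow s hs)
    have hinv : ContinuousOn (fun s => (P.a s)⁻¹) (Icc σ P.sst) :=
      hacont.inv₀ fun s hs => by
        have := (le_max_right x0 1).trans (halow s hs)
        linarith
    exact ((continuousOn_id.mul (continuousOn_const.mul hb).rexp).mul
      (hacont.neg.div_const 2).rexp).mul (continuousOn_const.sub hinv)
  have hnG : ∀ t : ℝ, ¬ GapW W t ↔
      ∃ p ∈ (W ×ˢ W).filter (fun p => p.1 ≠ p.2), ‖p.1 - p.2‖ ≤ t := by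
    intro t
    unfold GapW
    push_neg
    constructor
    · rintro ⟨b, hb, b', hb', hne, hle⟩
      exact ⟨(b, b'), by simp [hb, hb', hne], hle⟩
    · rintro ⟨⟨b, b'⟩, hp, hle⟩
      simp only [Finset.mem_filter, Finset.mem_product] at hp
      exact ⟨b, hp.1.1, b', hp.1.2, hp.2, hle⟩
  set Tr : Set ℝ := {s | s ∈ Icc σ P.sst ∧ ¬ GapW W (g s)} with hTr
  have hcl : IsClosed Tr := by
    have e : Tr = ⋃ p ∈ (W ×ˢ W).filter (fun p => p.1 ≠ p.2),
        (Icc σ P.sst ∩ g ⁻¹' Ici ‖p.1 - p.2‖) := by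
      ext s
      simp only [hTr, mem_setOf_eq, hnG, mem_iUnion, mem_inter_iff, mem_preimage, mem_Ici,
        exists_prop]
      constructor
      · rintro ⟨hs, p, hp, hle⟩
        exact ⟨p, hp, hs, hle⟩
      · rintro ⟨p, hp, hs, hle⟩
        exact ⟨hs, p, hp, hle⟩
    rw [e]
    exact isClosed_biUnion_finset fun p _ =>
      hgc.preimage_isClosed_of_isClosed isClosed_Icc isClosed_Ici
  have hcomp : IsCompact Tr := isCompact_Icc.of_isClosed_subset hcl fun s hs => hs.1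
  by_cases hne : Tr.Nonempty
  · have hmem : sInf Tr ∈ Tr := hcomp.sInf_mem hne
    obtain ⟨h1, h2⟩ := hbar (sInf Tr) hmem.1 fun s hs => by
      by_contra hcon
      have : s ∈ Tr := ⟨⟨hs.1, hs.2.le.trans hmem.1.2⟩, hcon⟩
      exact absurd (csInf_le hcomp.bddBelow this) (not_le.2 hs.2)
    exact ⟨sInf Tr, hmem.1, h1, h2, Or.inr hmem.2⟩
  · obtain ⟨h1, h2⟩ := hbar P.sst ⟨hσ.2, le_rfl⟩ fun s hs => by
      by_contra hcon
      exact hne ⟨s, ⟨hs.1, hs.2.le⟩, hcon⟩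
    exact ⟨P.sst, ⟨hσ.2, le_rfl⟩, h1, h2, Or.inl rfl⟩

/-! ## Package Stage-C : mergers -/

/-- the algebra of one merger (AE, end of the proof of Proposition 5.4). -/
theorem stg_merge_alg {k k' θ lam I Z U U' g2 Cm x α' : ℝ} (hk : 0 < k) (hk1 : k ≤ 1)
    (hk' : 0 ≤ k') (hZ : 0 ≤ Z) (hU : 0 ≤ U) (hx : 1 ≤ x)
    (hθ : Cm * k' = θ * k) (hθ0 : 0 ≤ θ) (hθ1 : θ ≤ 1 / 4)
    (hlam : Cm * k' * g2 ≤ lam * I) (hlam0 : 0 ≤ lam) (hlam1 : lam ≤ k / 4) (hk'k : k' ≤ k / 4)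
    (hU' : U' ≤ Cm * (U + g2)) (hbar : k * U + (1 + k * x) * Z ≤ I) (hα' : α' ≤ 1 + k' * x) :
    k' * U' + α' * Z ≤ I := by
  have h1 : k' * U' ≤ θ * (k * U) + lam * I := by
    have h2 : k' * U' ≤ k' * (Cm * (U + g2)) := mul_le_mul_of_nonneg_left hU' hk'
    have h3 : k' * (Cm * (U + g2)) = (Cm * k') * U + Cm * k' * g2 := by ring
    have h4 : (Cm * k') * U = θ * (k * U) := by rw [hθ]; ring
    linarith
  have h5 : α' * Z ≤ (1 + k' * x) * Z := mul_le_mul_of_nonneg_right hα' hZ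
  have hkU : 0 ≤ k * U := mul_nonneg hk.le hU
  have h6 : θ * (k * U) ≤ θ * (I - (1 + k * x) * Z) :=
    mul_le_mul_of_nonneg_left (by linarith) hθ0
  have h7 : (1 - θ - lam) * ((1 + k * x) * Z) ≤ (1 - θ - lam) * I :=
    mul_le_mul_of_nonneg_left (by linarith) (by linarith)
  have hkx : 0 ≤ k * x := mul_nonneg hk.le (by linarith)
  have h8 : 1 + k' * x ≤ (1 - lam) * (1 + k * x) := by
    have a1 : k' * x ≤ k / 4 * x := mul_le_mul_of_nonneg_right hk'k (by linarith)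
    have a2 : lam ≤ k / 4 * x := by nlinarith
    have a3 : lam * (k * x) ≤ 1 / 4 * (k * x) :=
      mul_le_mul_of_nonneg_right (by linarith) hkx
    nlinarith
  have h9 : (1 + k' * x) * Z ≤ (1 - lam) * (1 + k * x) * Z := mul_le_mul_of_nonneg_right h8 hZ
  nlinarith

/-- comparison of the moments of two families of wells. -/
theorem stg_U_merge {κ Cg Cγ C' g : ℝ} (P : PD m n Q) (h : P.Ok κ Cg) {Γ0 Γ0' : E n → ℝ}
    (hΓ : GamOk Γ0 Cγ) (hΓ' : GamOk Γ0' Cγ) (hc : Continuous Γ0) (hc' : Continuous Γ0')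
    {s : ℝ} (hs : 0 < s) (hC' : 0 ≤ C')
    (hle : ∀ ζ, gam Γ0' s ζ ≤ C' * (gam Γ0 s ζ + g ^ 2)) :
    P.U Γ0' s ≤ C' * (P.U Γ0 s + g ^ 2 * (P.tau s + 2 * Q)) := by
  have hV := h.root.hyp.valid
  have hi : ∀ G : E n → ℝ, Continuous G →
      Integrable (fun q : E m × E n => Sys.ker P.χ s P.x q.1 * G q.2) P.S.μ :=
    fun G hG => hV.integrable_of_continuous
      (((wd_ker_continuous P h s).comp continuous_fst).mul (hG.comp continuous_snd))
      (wd_baseCpt P h fun q hq => by rw [wd_ker_zero P h s hq, zero_mul])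
  have hmass : ∫ q, Sys.ker P.χ s P.x q.1 ∂P.S.μ ≤ 1 * (P.tau s + 2 * Q) :=
    ctl_root_nu h.root (wd_ker_continuous P h s).measurable
      (fun y => ctl_ker_nonneg h.root s P.x y) zero_le_one hs P.x (fun y => by rw [one_mul])
  have hi1 := hi (fun _ => (1 : ℝ)) continuous_const
  have h1 : P.U Γ0' s ≤ ∫ q, (C' * (Sys.ker P.χ s P.x q.1 * gam Γ0 s q.2)
      + C' * g ^ 2 * (Sys.ker P.χ s P.x q.1 * 1)) ∂P.S.μ := by
    unfold PD.U Sys.avg
    refine integral_mono (hi _ (gam_continuous hc' s))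
      (((hi _ (gam_continuous hc s)).const_mul C').add (hi1.const_mul (C' * g ^ 2))) fun q => ?_
    have h2 := mul_le_mul_of_nonneg_left (hle q.2) (ctl_ker_nonneg h.root s P.x q.1)
    simp only []
    calc _ ≤ _ := h2
      _ = _ := by ring
  rw [integral_add ((hi _ (gam_continuous hc s)).const_mul C') (hi1.const_mul (C' * g ^ 2)),
    integral_const_mul, integral_const_mul] at h1
  simp only [mul_one] at h1
  have h3 : C' * g ^ 2 * ∫ q, Sys.ker P.χ s P.x q.1 ∂P.S.μ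
      ≤ C' * g ^ 2 * (1 * (P.tau s + 2 * Q)) :=
    mul_le_mul_of_nonneg_left hmass (mul_nonneg hC' (sq_nonneg g))
  have h4 : P.U Γ0 s = ∫ q, Sys.ker P.χ s P.x q.1 * gam Γ0 s q.2 ∂P.S.μ := rfl
  rw [← h4] at h1
  calc _ ≤ _ := h1
    _ ≤ C' * P.U Γ0 s + C' * g ^ 2 * (1 * (P.tau s + 2 * Q)) := by linarith
    _ = _ := by ring

/-- one merger of a closest pair. -/
theorem merge_one (m n Q : ℕ) (hm : 1 ≤ m) (hQ : 1 ≤ Q) (κ Cg : ℝ) (F : Fix m n Q Cg)
    (K C K1 Cl Cw cp Ce P0 : ℝ) (hK : 2 * (m : ℝ) + 100 < K) (hK1 : 1 ≤ K1) (hCw : 1 ≤ Cw)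
    (hCe : 0 < Ce)
    (hwf : ∀ W : Finset (E n), W.Nonempty → W.card ≤ Q → ∃ Γ0 : E n → ℝ, WellFn W Cw cp Γ0) :
    ∃ cm kmax0 : ℝ, 0 < cm ∧ cm ≤ 1 ∧ 0 < kmax0 ∧ ∀ kmax CS1 : ℝ, 0 < kmax → kmax ≤ kmax0 →
      0 ≤ CS1 →
      ∃ T0 : ℝ, ∀ P : PD m n Q, PathOk P κ Cg K C K1 → T0 ≤ P.T →
      ∀ (σ : ℝ) (W : Finset (E n)) (Γ0 : E n → ℝ) (k : ℝ),
      PreSt P F ⟨Cl, Cw, cp, Ce, CS1, kmax, P0⟩ σ W Γ0 k → ¬ GapW W (P.thr CS1 k σ) →
      ∃ (W' : Finset (E n)) (Γ0' : E n → ℝ), W' ⊆ W ∧ W'.card < W.card ∧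
        PreSt P F ⟨Cl, Cw, cp, Ce, CS1, kmax, P0⟩ σ W' Γ0' (cm * k ^ 6 / S1f Q CS1 (P.a σ) ^ 6) ∧
        cm * k ^ 6 / S1f Q CS1 (P.a σ) ^ 6 ≤ kmax := by
  classical
  obtain ⟨Cm0, hCm0, hmerge⟩ := gam_merge n Cw cp hCw
  obtain ⟨Cγ, hCγ, hgamOk⟩ := gamOk n Cw cp hCw
  obtain ⟨Cm, hCmdef⟩ : ∃ Cm : ℝ, Cm = Cm0 * (2 * Q + 1) := ⟨_, rfl⟩
  have hQ0 : (1 : ℝ) ≤ Q := by exact_mod_cast hQ
  have hCm1 : 1 ≤ Cm := by rw [hCmdef]; nlinarith
  have hCmpos : 0 < Cm := by linarith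
  refine ⟨1 / (4 * Cm), 1 / 2, by positivity, ?_, by norm_num,
    fun kmax CS1 hkmax hkmax0 hCS1 => ?_⟩
  · rw [div_le_one (by positivity)]; linarith
  obtain ⟨T1, hT1⟩ := stg_a0_large Q (C + 3)
  refine ⟨T1, fun P hP hT σ W Γ0 k hst hng => ?_⟩
  have hσ : σ ∈ P.path := hst.mem
  have hσ0 : 0 < σ := P.pos_of_path hP.ok hσ
  have ha3 : 3 ≤ P.a σ := by
    have h1 := hP.env.a_ge σ hσ
    have h2 : C + 3 ≤ P.a0 := hT1 P.T hT
    linarith
  have hS1 : 1 ≤ S1f Q CS1 (P.a σ) := by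
    unfold S1f
    have := rt_bQ_nonneg Q (by linarith : (1 : ℝ) ≤ P.a σ)
    exact Real.one_le_exp (mul_nonneg hCS1 (by linarith))
  have hthr : P.thr CS1 k σ = σ * S1f Q CS1 (P.a σ) * Real.exp (-P.a σ / 2) / k := rfl
  have hIeq : σ ^ 2 * Real.exp (-P.a σ) = P.I σ := P.exp_neg_a hP.ok hσ0
  have hbar0 : k * P.U Γ0 σ + alf W.card k (P.a σ) * P.Z σ ≤ P.I σ := hst.bar
  have heps : ∀ kk : ℝ, P.eps Ce kk σ = Ce * σ * Real.sqrt (Real.exp (-P.a σ) / kk) :=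
    fun _ => rfl
  generalize S1f Q CS1 (P.a σ) = S1 at *
  generalize hadef : P.a σ = a at *
  have hS1pos : 0 < S1 := by linarith
  have hk0 : 0 < k := hst.k_pos
  have hk1 : k ≤ 1 := by
    have : k ≤ 2 * kmax := hst.k_le
    linarith
  have hwf0 : WellFn W Cw cp Γ0 := hst.wf
  -- the pair
  unfold GapW at hng
  push_neg at hng
  obtain ⟨b, hb, b', hb', hne, hle⟩ := hng
  have hsub : W.erase b ⊆ W := Finset.erase_subset _ _
  have hb'W' : b' ∈ W.erase b := Finset.mem_erase.2 ⟨hne.symm, hb'⟩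
  have hcard : (W.erase b).card < W.card := Finset.card_erase_lt_of_mem hb
  have hne' : (W.erase b).Nonempty := ⟨b', hb'W'⟩
  have hcardQ : (W.erase b).card ≤ Q := hcard.le.trans hst.card
  obtain ⟨Γ0', hwf'⟩ := hwf (W.erase b) hne' hcardQ
  have hWcard : 1 < W.card := Finset.one_lt_card.2 ⟨b, hb, b', hb', hne⟩
  have hg0 : 0 ≤ P.thr CS1 k σ := by rw [hthr]; positivity
  have hcover : ∀ b0 ∈ W, ∃ b1 ∈ W.erase b, ‖b0 - b1‖ ≤ P.thr CS1 k σ := by
    intro b0 hb0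
    by_cases hbb : b0 = b
    · exact ⟨b', hb'W', by rw [hbb]; exact hle⟩
    · exact ⟨b0, Finset.mem_erase.2 ⟨hbb, hb0⟩, by simpa using hg0⟩
  generalize W.erase b = W' at *
  -- the new parameter
  have hk6 : k ^ 6 ≤ k := by
    calc k ^ 6 = k ^ 5 * k := by ring
      _ ≤ 1 * k := mul_le_mul_of_nonneg_right (pow_le_one₀ hk0.le hk1) hk0.le
      _ = k := one_mul k
  have hS6 : 1 ≤ S1 ^ 6 := one_le_pow₀ hS1
  have hS4 : 1 ≤ S1 ^ 4 := one_le_pow₀ hS1
  obtain ⟨k', hk'def⟩ : ∃ k' : ℝ, k' = 1 / (4 * Cm) * k ^ 6 / S1 ^ 6 := ⟨_, rfl⟩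
  rw [← hk'def]
  have hk'pos : 0 < k' := by rw [hk'def]; positivity
  have hk'k : k' ≤ k / 4 := by
    rw [hk'def, div_le_iff₀ (by positivity), div_mul_eq_mul_div, one_mul,
      div_le_iff₀ (by positivity)]
    have h1 : k ≤ k * S1 ^ 6 := le_mul_of_one_le_right hk0.le hS6
    have h2 : k * S1 ^ 6 ≤ k * S1 ^ 6 * Cm :=
      le_mul_of_one_le_right (by positivity) hCm1
    calc k ^ 6 ≤ k * S1 ^ 6 * Cm := hk6.trans (h1.trans h2)
      _ = k / 4 * S1 ^ 6 * (4 * Cm) := by ring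
  have hk'kmax : k' ≤ kmax := by
    have : k ≤ 2 * kmax := hst.k_le
    linarith
  -- levels
  have hlog0 : 0 < Real.log a := Real.log_pos (by linarith)
  have hx : 1 ≤ a / Real.log a := by
    rw [one_le_div hlog0]
    have := Real.log_le_sub_one_of_pos (by linarith : 0 < a)
    linarith
  -- moments
  have hG := hgamOk W Γ0 hwf0
  have hG' := hgamOk W' Γ0' hwf'
  have hU0 : 0 ≤ P.U Γ0 σ := P.U_nonneg hP.ok hG hσ0
  have hσρ : σ ≤ P.ρ := hσ.2.trans hP.env.sst_lt.le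
  have hsbσ : P.sb ≤ σ := hP.ok.sb_le.trans hσ.1
  have hZ0 : 0 ≤ P.Z σ := hP.bank.Z_nonneg σ hsbσ hσρ
  have htau : P.tau σ ≤ 1 := by
    refine (hP.ok.thr σ hsbσ hσρ).trans ?_
    unfold PD.dst dstT a0T
    exact Real.exp_le_one_iff.2 (neg_nonpos.2 (sq_nonneg _))
  have hU' : P.U Γ0' σ ≤ Cm * (P.U Γ0 σ + P.thr CS1 k σ ^ 2) := by
    have h1 := stg_U_merge (g := P.thr CS1 k σ) P hP.ok hG hG' hwf0.smooth.continuous
      hwf'.smooth.continuous hσ0 (by linarith : 0 ≤ Cm0)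
      (fun ζ => hmerge W W' Γ0 Γ0' _ hst.ne hwf0 hwf' hg0 hcover σ ζ hσ0)
    refine h1.trans ?_
    rw [hCmdef, mul_assoc]
    refine mul_le_mul_of_nonneg_left ?_ (by linarith)
    have h2 : P.thr CS1 k σ ^ 2 * (P.tau σ + 2 * Q) ≤ P.thr CS1 k σ ^ 2 * (2 * Q + 1) :=
      mul_le_mul_of_nonneg_left (by linarith) (sq_nonneg _)
    have h3 : P.U Γ0 σ ≤ (2 * Q + 1) * P.U Γ0 σ := le_mul_of_one_le_left hU0 (by linarith)
    calc _ ≤ (2 * Q + 1) * P.U Γ0 σ + P.thr CS1 k σ ^ 2 * (2 * Q + 1) := add_le_add h3 h2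
      _ = _ := by ring
  have hg2 : P.thr CS1 k σ ^ 2 = S1 ^ 2 * P.I σ / k ^ 2 := by
    rw [hthr, ← hIeq, div_pow, mul_pow, mul_pow, ← Real.exp_nat_mul]
    congr 1
    have : ((2 : ℕ) : ℝ) * (-a / 2) = -a := by push_cast; ring
    rw [this]
    ring
  have hbar1 : k * P.U Γ0 σ + (1 + k * (a / Real.log a)) * P.Z σ ≤ P.I σ := by
    have e : alf W.card k a = 1 + k * (a / Real.log a) := by
      unfold alf
      rw [if_pos hWcard, mul_div_assoc]
    rwa [e] at hbar0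
  have hα' : alf W'.card k' a ≤ 1 + k' * (a / Real.log a) := by
    unfold alf
    split_ifs with hc
    · rw [mul_div_assoc]
    · have h1 : 0 ≤ (1 - 4 * k') * (k' / a ^ 2) :=
        mul_nonneg (by linarith) (by positivity)
      have h2 : 0 ≤ k' * (a / Real.log a) := mul_nonneg hk'pos.le (by linarith)
      have h3 : (1 - 4 * k') * (-k' / a ^ 2) = -((1 - 4 * k') * (k' / a ^ 2)) := by ring
      rw [h3]
      linarith
  have hbar' : k' * P.U Γ0' σ + alf W'.card k' a * P.Z σ ≤ P.I σ := by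
    refine stg_merge_alg (θ := k ^ 5 / (4 * S1 ^ 6)) (lam := k ^ 4 / (4 * S1 ^ 4)) hk0 hk1
      hk'pos.le hZ0 hU0 hx ?_ (by positivity) ?_ ?_ (by positivity) ?_ hk'k hU' hbar1 hα'
    · rw [hk'def]
      field_simp
    · rw [div_le_iff₀ (by positivity)]
      have : k ^ 5 ≤ 1 := pow_le_one₀ hk0.le hk1
      linarith
    · rw [hk'def, hg2]
      apply le_of_eq
      field_simp
    · rw [div_le_iff₀ (by positivity)]
      have h1 : k ^ 4 ≤ k := by
        calc k ^ 4 = k ^ 3 * k := by ring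
          _ ≤ 1 * k := mul_le_mul_of_nonneg_right (pow_le_one₀ hk0.le hk1) hk0.le
          _ = k := one_mul k
      have h2 : k ≤ k * S1 ^ 4 := le_mul_of_one_le_right hk0.le hS4
      calc k ^ 4 ≤ k * S1 ^ 4 := h1.trans h2
        _ = k / 4 * (4 * S1 ^ 4) := by ring
  obtain ⟨A, hA, hR⟩ := hst.rep
  refine ⟨W', Γ0', hsub, hcard, ⟨hσ, hne', hcardQ, hwf', hk'pos, ?_, ?_, ⟨A, hA, ?_⟩,
    fun _ => hst.hist hWcard⟩, hk'kmax⟩
  · show k' ≤ 2 * kmax
    linarith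
  · show k' * P.U Γ0' σ + alf W'.card k' (P.a σ) * P.Z σ ≤ P.I σ
    rw [hadef]
    exact hbar'
  · intro b0 hb0
    obtain ⟨j, hj⟩ := hR b0 (hsub hb0)
    refine ⟨j, hj.trans ?_⟩
    show P.eps Ce k σ ≤ P.eps Ce k' σ
    rw [heps, heps]
    refine mul_le_mul_of_nonneg_left (Real.sqrt_le_sqrt ?_) (by positivity)
    exact div_le_div_of_nonneg_left (Real.exp_pos _).le hk'pos (by linarith)

/-- all immediate mergers. -/
theorem merge_all (m n Q : ℕ) (hm : 1 ≤ m) (hQ : 1 ≤ Q) (κ Cg : ℝ) (F : Fix m n Q Cg)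
    (K C K1 Cl Cw cp Ce P0 : ℝ) (hK : 2 * (m : ℝ) + 100 < K) (hK1 : 1 ≤ K1) (hCw : 1 ≤ Cw)
    (hCe : 0 < Ce)
    (hwf : ∀ W : Finset (E n), W.Nonempty → W.card ≤ Q → ∃ Γ0 : E n → ℝ, WellFn W Cw cp Γ0) :
    ∃ cm kmax0 : ℝ, 0 < cm ∧ cm ≤ 1 ∧ 0 < kmax0 ∧ ∀ kmax CS1 : ℝ, 0 < kmax → kmax ≤ kmax0 →
      0 ≤ CS1 →
      ∃ T0 : ℝ, ∀ P : PD m n Q, PathOk P κ Cg K C K1 → T0 ≤ P.T →
      ∀ (σ : ℝ) (W : Finset (E n)) (Γ0 : E n → ℝ) (k : ℝ),
      PreSt P F ⟨Cl, Cw, cp, Ce, CS1, kmax, P0⟩ σ W Γ0 k → (GapW W (P.thr CS1 k σ) → k ≤ kmax) →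
      ∃ (W' : Finset (E n)) (Γ0' : E n → ℝ) (k' : ℝ), W' ⊆ W ∧
        (¬ GapW W (P.thr CS1 k σ) → W'.card < W.card) ∧
        St P F ⟨Cl, Cw, cp, Ce, CS1, kmax, P0⟩ σ W' Γ0' k' ∧
        (cm * k / S1f Q CS1 (P.a σ)) ^ (7 ^ Q) ≤ k' := by
  classical
  obtain ⟨cm, kmax0, hcm, hcm1, hk0, h⟩ :=
    merge_one m n Q hm hQ κ Cg F K C K1 Cl Cw cp Ce P0 hK hK1 hCw hCe hwf
  refine ⟨cm, min kmax0 (1 / 2), hcm, hcm1, lt_min hk0 (by norm_num), ?_⟩
  intro kmax CS1 hkm hkm0 hCS1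
  obtain ⟨T0, hT⟩ := h kmax CS1 hkm (hkm0.trans (min_le_left _ _)) hCS1
  obtain ⟨T1, hT1⟩ := stg_a0_large Q (C + 1)
  refine ⟨max T0 T1, ?_⟩
  intro P hP hPT σ
  have hkm2 : kmax ≤ 1 / 2 := hkm0.trans (min_le_right _ _)
  set S1 : ℝ := S1f Q CS1 (P.a σ) with hS1def
  have key : ∀ (N : ℕ) (W : Finset (E n)) (Γ0 : E n → ℝ) (k : ℝ), W.card ≤ N →
      PreSt P F ⟨Cl, Cw, cp, Ce, CS1, kmax, P0⟩ σ W Γ0 k → (GapW W (P.thr CS1 k σ) → k ≤ kmax) →
      ∃ (W' : Finset (E n)) (Γ0' : E n → ℝ) (k' : ℝ), W' ⊆ W ∧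
        (¬ GapW W (P.thr CS1 k σ) → W'.card < W.card) ∧
        St P F ⟨Cl, Cw, cp, Ce, CS1, kmax, P0⟩ σ W' Γ0' k' ∧ (cm * k / S1) ^ (7 ^ N) ≤ k' := by
    intro N
    induction N with
    | zero =>
      intro W Γ0 k hc hPre
      have := Finset.card_pos.2 hPre.ne
      omega
    | succ N ih =>
      intro W Γ0 k hc hPre hkk
      have hσ : σ ∈ P.path := hPre.mem
      have ha1 : 1 ≤ P.a σ := by
        have h1 := hP.env.a_ge σ hσ
        have h2 : C + 1 ≤ P.a0 := hT1 P.T ((le_max_right _ _).trans hPT)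
        linarith
      have hS1 : 1 ≤ S1 := by
        rw [hS1def]
        unfold S1f
        have := rt_bQ_nonneg Q ha1
        exact Real.one_le_exp (mul_nonneg hCS1 (by linarith))
      have hkpos : 0 < k := hPre.k_pos
      have hk1 : k ≤ 1 := by
        have : k ≤ 2 * kmax := hPre.k_le
        linarith
      have hx0 : 0 ≤ cm * k / S1 := by positivity
      have hxk : cm * k / S1 ≤ k := by
        rw [div_le_iff₀ (by linarith)]
        nlinarith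
      by_cases hg : GapW W (P.thr CS1 k σ)
      · refine ⟨W, Γ0, k, Finset.Subset.refl _, fun h' => absurd hg h', ⟨hPre, hg, hkk hg⟩, ?_⟩
        exact (pow_le_of_le_one hx0 (hxk.trans hk1) (by positivity)).trans hxk
      · obtain ⟨W1, Γ1, hsub, hlt, hPre1, hk1'⟩ :=
          hT P hP ((le_max_left _ _).trans hPT) σ W Γ0 k hPre hg
        obtain ⟨W', Γ', k', hsub', _, hSt', hk'⟩ :=
          ih W1 Γ1 (cm * k ^ 6 / S1 ^ 6) (by omega) hPre1 (fun _ => hk1')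
        refine ⟨W', Γ', k', hsub'.trans hsub,
          fun _ => (Finset.card_le_card hsub').trans_lt hlt, hSt', le_trans ?_ hk'⟩
        have e1 : (cm * k / S1) ^ (7 ^ (N + 1)) = ((cm * k / S1) ^ 7) ^ (7 ^ N) := by
          rw [← pow_mul, pow_succ, Nat.mul_comm]
        rw [e1]
        refine pow_le_pow_left₀ (by positivity) ?_ _
        have e2 : cm * (cm * k ^ 6 / S1 ^ 6) / S1 = cm ^ 2 * k ^ 6 / S1 ^ 7 := by
          field_simp
        have e3 : (cm * k / S1) ^ 7 = cm ^ 7 * k ^ 7 / S1 ^ 7 := by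
          rw [div_pow, mul_pow]
        rw [e2, e3]
        refine div_le_div_of_nonneg_right ?_ (by positivity)
        have h5 : cm ^ 5 ≤ 1 := pow_le_one₀ hcm.le hcm1
        have h6 : cm ^ 5 * k ≤ 1 := by nlinarith [pow_pos hcm 5]
        have h7 : 0 ≤ cm ^ 2 * k ^ 6 := by positivity
        calc cm ^ 7 * k ^ 7 = (cm ^ 2 * k ^ 6) * (cm ^ 5 * k) := by ring
          _ ≤ (cm ^ 2 * k ^ 6) * 1 := mul_le_mul_of_nonneg_left h6 h7
          _ = cm ^ 2 * k ^ 6 := mul_one _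
  intro W Γ0 k hPre hkk
  exact key Q W Γ0 k hPre.card hPre hkk

/-! ## Package Stage-D : induction over the bands -/

/-- admissible bands and lower bounds for `k`. -/
structure BandOk (Q : ℕ) (T a0 ε0 cm CS1 : ℝ) (Bd kap : ℕ → ℝ) : Prop where
  B0 : Bd 0 = a0
  step : ∀ i, i < Q → 2 * Bd i < Bd (i + 1)
  top : 2 * Bd Q < T / 2
  kap_step : ∀ i, i < Q → kap (i + 1) ≤ (cm * (kap i / 2) / S1f Q CS1 (2 * Bd (i + 1))) ^ (7 ^ Q)
  kap_ge : ∀ i, i < Q → Bd (i + 1) ^ (-ε0) ≤ kap i / 2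
  kap_T : ∀ i, i < Q → 2 / T ≤ kap i

theorem BandOk.pos {Q : ℕ} {T a0 ε0 cm CS1 : ℝ} {Bd kap : ℕ → ℝ}
    (hB : BandOk Q T a0 ε0 cm CS1 Bd kap) (ha0 : 0 < a0) : ∀ i, i ≤ Q → 0 < Bd i := by
  intro i
  induction i with
  | zero => intro _; rw [hB.B0]; exact ha0
  | succ i ih =>
    intro hi
    have h1 := ih (by omega)
    have h2 := hB.step i (by omega)
    linarith

theorem BandOk.le {Q : ℕ} {T a0 ε0 cm CS1 : ℝ} {Bd kap : ℕ → ℝ}
    (hB : BandOk Q T a0 ε0 cm CS1 Bd kap) (ha0 : 0 < a0) :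
    ∀ i i', i ≤ i' → i' ≤ Q → Bd i ≤ Bd i' := by
  intro i i' hii
  induction i', hii using Nat.le_induction with
  | base => intro _; exact le_rfl
  | succ e _ ihe =>
    intro he
    have h1 := ihe (by omega)
    have h2 := hB.step e (by omega)
    have h3 := hB.pos ha0 e (by omega)
    linarith

/-- **Induction over the bands** (AE Lemma 5.5, "Consider the path from initialization to its first hit
of each successive level").  The three hypotheses `hstage`, `hmerge`, `hmono` are the conclusions of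
`stage`, `merge_all` and `bQ_monotoneOn` for the path `P`. -/
theorem trav_induct {κ Cg K C K1 : ℝ} {F : Fix m n Q Cg} {c : SC} {P : PD m n Q}
    (hP : PathOk P κ Cg K C K1) {ε0 cm : ℝ} {Bd kap : ℕ → ℝ}
    (hB : BandOk Q P.T P.a0 ε0 cm c.CS1 Bd kap) (hε : 0 < ε0) (ha0 : 3 ≤ P.a0 / 2)
    (hkmax : c.kmax ≤ 1 / 64)
    (hlow : ∀ s ∈ P.path, P.a0 / 2 ≤ P.a s)
    (hstage : ∀ (σ : ℝ) (W : Finset (E n)) (Γ0 : E n → ℝ) (k : ℝ), St P F c σ W Γ0 k →
      2 / P.T ≤ k → ∃ σ' ∈ Icc σ P.sst, StageOn P c σ σ' W Γ0 k ∧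
        (∃ A : Fin Q → E n, P.IsList F c.Cl σ' A ∧
          RepW A W (P.eps c.Ce (kf k (P.a σ) (P.a σ')) σ')) ∧
        (σ' = P.sst ∨ ¬ GapW W (P.thr c.CS1 (kf k (P.a σ) (P.a σ')) σ')))
    (hmerge : ∀ (σ : ℝ) (W : Finset (E n)) (Γ0 : E n → ℝ) (k : ℝ), PreSt P F c σ W Γ0 k →
      (GapW W (P.thr c.CS1 k σ) → k ≤ c.kmax) →
      ∃ (W' : Finset (E n)) (Γ0' : E n → ℝ) (k' : ℝ), W' ⊆ W ∧
        (¬ GapW W (P.thr c.CS1 k σ) → W'.card < W.card) ∧ St P F c σ W' Γ0' k' ∧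
        (cm * k / S1f Q c.CS1 (P.a σ)) ^ (7 ^ Q) ≤ k')
    (hmono : ∀ a a' : ℝ, P.a0 / 2 ≤ a → a ≤ a' → S1f Q c.CS1 a ≤ S1f Q c.CS1 a')
    (hcm : 0 < cm) :
    ∀ (j : ℕ) (σ : ℝ) (W : Finset (E n)) (Γ0 : E n → ℝ) (k : ℝ), j < Q → St P F c σ W Γ0 k →
      W.card + j ≤ Q → (∀ s ∈ Icc P.s0 σ, P.a s ≤ 2 * Bd j) → kap j ≤ k →
      ∃ i, 1 ≤ i ∧ i ≤ Q ∧ ∃ (W' : Finset (E n)) (Γ0' : E n → ℝ) (s1 s2 : ℝ),
        Trav P c (Bd i) ε0 W' Γ0' s1 s2 := by
  classical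
  have hok := hP.ok
  have hs0pos : 0 < P.s0 := lt_of_lt_of_le hok.sb_pos hok.sb_le
  have hsstρ : P.sst < P.ρ := hP.env.sst_lt
  have hpathpos : ∀ s ∈ P.path, 0 < s := fun s hs => lt_of_lt_of_le hs0pos hs.1
  have hacont : ContinuousOn P.a P.path :=
    (P.a_continuousOn hok).mono fun s hs => ⟨hpathpos s hs, hs.2.trans hsstρ.le⟩
  have hZ0 : ∀ s ∈ P.path, 0 ≤ P.Z s := fun s hs =>
    hP.bank.Z_nonneg s (hok.sb_le.trans hs.1) (hs.2.trans hsstρ.le)
  have hBpos : ∀ i, i ≤ Q → 0 < Bd i := by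
    intro i
    induction i with
    | zero => intro _; rw [hB.B0]; linarith
    | succ i ih =>
      intro hi
      have h1 := ih (by omega)
      have h2 := hB.step i (by omega)
      linarith
  have hBmono : ∀ i, i ≤ Q → Bd i ≤ Bd Q := by
    intro i hi
    obtain ⟨d, rfl⟩ : ∃ d, Q = i + d := ⟨Q - i, by omega⟩
    clear hi
    induction d with
    | zero => exact le_rfl
    | succ d _ =>
      have key : ∀ e, e ≤ d + 1 → Bd i ≤ Bd (i + e) := by
        intro e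
        induction e with
        | zero => intro _; exact le_rfl
        | succ e ihe =>
          intro he
          have h1 := ihe (by omega)
          have h2 := hB.step (i + e) (by omega)
          have h3 := hBpos (i + e) (by omega)
          have : Bd (i + e + 1) = Bd (i + (e + 1)) := by rw [add_assoc]
          linarith
      exact key (d + 1) le_rfl
  have hTpos : 0 < P.T := by
    have h1 := hB.top
    have h2 := hBpos Q le_rfl
    linarith
  have key : ∀ (d j : ℕ), Q - j = d → ∀ (σ : ℝ) (W : Finset (E n)) (Γ0 : E n → ℝ) (k : ℝ), j < Q →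
      St P F c σ W Γ0 k → W.card + j ≤ Q → (∀ s ∈ Icc P.s0 σ, P.a s ≤ 2 * Bd j) → kap j ≤ k →
      ∃ i, 1 ≤ i ∧ i ≤ Q ∧ ∃ (W' : Finset (E n)) (Γ0' : E n → ℝ) (s1 s2 : ℝ),
        Trav P c (Bd i) ε0 W' Γ0' s1 s2 := by
    intro d
    induction d with
    | zero => intro j hd σ W Γ0 k hj; omega
    | succ d ih =>
      intro j hd σ W Γ0 k hj hSt hcard hlev hk
      have hσ : σ ∈ P.path := hSt.mem
      have h2T : 2 / P.T ≤ k := (hB.kap_T j hj).trans hk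
      have hkpos : 0 < k := hSt.k_pos
      have hk64 : k ≤ 1 / 64 := hSt.k_le'.trans hkmax
      obtain ⟨σ', hσ', hOn, hrep, hend⟩ := hstage σ W Γ0 k hSt h2T
      have hσ'path : σ' ∈ P.path := ⟨hσ.1.trans hσ'.1, hσ'.2⟩
      have haσ : P.a σ ≤ 2 * Bd j := hlev σ ⟨hσ.1, le_rfl⟩
      have haσlow : P.a0 / 2 ≤ P.a σ := hlow σ hσ
      have hstep := hB.step j hj
      have hBj1 : 0 < Bd (j + 1) := hBpos (j + 1) (by omega)
      have hLtop : 2 * Bd (j + 1) < P.T / 2 := by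
        have := hBmono (j + 1) (by omega)
        have := hB.top
        linarith
      have hsub : Icc σ P.sst ⊆ P.path := fun s hs => ⟨hσ.1.trans hs.1, hs.2⟩
      obtain ⟨s2, hs2, ha2, hbelow⟩ := stg_first_hit (f := P.a) (L := 2 * Bd (j + 1)) hσ.2
        (hacont.mono hsub) (by linarith) (by rw [hP.env.a_sst]; exact hLtop.le)
      have hs2lt : s2 < P.sst := by
        rcases hs2.2.lt_or_eq with h | h
        · exact h
        · rw [h, hP.env.a_sst] at ha2; linarith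
      -- facts valid on the stage
      have hkf : ∀ s ∈ P.path, k / 2 ≤ kf k (P.a σ) (P.a s) ∧ kf k (P.a σ) (P.a s) ≤ 2 * k :=
        fun s hs => kf_bounds hkpos (by linarith) (by linarith) (by have := hlow s hs; linarith)
      have hZd : 1 < W.card → ∀ s ∈ Ico σ σ', P.Zdot s ≤ P.a s ^ (-c.P0) * P.I s := by
        intro hW s hs
        have hsp : s ∈ P.path := ⟨hσ.1.trans hs.1, hs.2.le.trans hσ'.2⟩
        have h1 := hOn.tr hW s hs
        have h2 : 0 ≤ P.Dtr W (c.cp / 2) s := P.Dtr_nonneg hok W _ (hpathpos s hsp)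
        have h3 : 0 < P.a s := by have := hlow s hsp; linarith
        have h4 : 0 ≤ Real.log (P.a s) ^ 2 / P.a s * (s ^ 2 * P.Dtr W (c.cp / 2) s) := by positivity
        linarith
      by_cases hcase : s2 < σ'
      · -- traversal of the band `j + 1`
        have hsub2 : Icc σ s2 ⊆ P.path := fun s hs => hsub ⟨hs.1, hs.2.trans hs2.2⟩
        obtain ⟨s1, hs1, ha1, habove⟩ := stg_last_hit (f := P.a) (L := Bd (j + 1)) hs2.1.le
          (hacont.mono hsub2) (by linarith) (by rw [ha2]; linarith)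
        refine ⟨j + 1, by omega, by omega, W, Γ0, s1, s2, ?_⟩
        refine
          { mem1 := hsub2 ⟨hs1.1, hs1.2.le⟩
            mem2 := hsub2 ⟨hs2.1.le, le_rfl⟩
            lt := hs1.2
            a1 := ha1
            a2 := ha2
            band := ?_
            ne := hSt.ne
            card := hSt.card
            wf := hSt.wf
            moment := ?_
            Z0 := fun hW => (hSt.hist hW).1
            hist := ?_
            tr := ?_ }
        · intro s hs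
          constructor
          · rcases hs.1.lt_or_eq with h | h
            · exact (habove s ⟨h, hs.2⟩).le
            · rw [← h, ha1]
          · rcases hs.2.lt_or_eq with h | h
            · exact (hbelow s ⟨hs1.1.trans hs.1, h⟩).le
            · rw [h, ha2]
        · intro s hs
          have hsp : s ∈ P.path := hsub2 ⟨hs1.1.trans hs.1, hs.2⟩
          have hbar := hOn.bar s ⟨hs1.1.trans hs.1, hs.2.trans hcase.le⟩
          unfold PD.Bar at hbar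
          obtain ⟨hk1, hk2⟩ := hkf s hsp
          have hal := (alf_bounds W.card (k := kf k (P.a σ) (P.a s)) (a := P.a s) (by linarith)
            (by linarith) (by have := hlow s hsp; linarith)).1
          have hZ := hZ0 s hsp
          have hI : 0 < P.I s := P.I_pos hok (hpathpos s hsp)
          have hkU : kf k (P.a σ) (P.a s) * P.U Γ0 s ≤ P.I s := by
            have : 0 ≤ alf W.card (kf k (P.a σ) (P.a s)) (P.a s) * P.Z s :=
              mul_nonneg (by linarith) hZ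
            linarith
          have hBk : Bd (j + 1) ^ (-ε0) ≤ kf k (P.a σ) (P.a s) := by
            have := hB.kap_ge j hj
            linarith
          rcases le_or_gt (P.U Γ0 s) 0 with hU | hU
          · have h0 : 0 ≤ Bd (j + 1) ^ (-ε0) := Real.rpow_nonneg hBj1.le _
            have := mul_nonpos_of_nonneg_of_nonpos h0 hU
            linarith
          · exact (mul_le_mul_of_nonneg_right hBk hU.le).trans hkU
        · intro hW s hs
          rcases lt_or_ge s σ with h | h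
          · exact (hSt.hist hW).2 s ⟨hs.1, h⟩
          · exact hZd hW s ⟨h, hs.2.trans_lt hcase⟩
        · intro hW s hs
          exact hOn.tr hW s ⟨hs1.1.trans hs.1, hs.2.trans_lt hcase⟩
      · -- a merger at a level `≤ 2 Bd (j + 1)`
        have hσ's2 : σ' ≤ s2 := not_lt.1 hcase
        have hng : ¬ GapW W (P.thr c.CS1 (kf k (P.a σ) (P.a σ')) σ') := by
          rcases hend with h | h
          · exact absurd (h ▸ hσ's2) (not_le.2 hs2lt)
          · exact h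
        obtain ⟨hk1, hk2⟩ := hkf σ' hσ'path
        have hPre : PreSt P F c σ' W Γ0 (kf k (P.a σ) (P.a σ')) :=
          { mem := hσ'path
            ne := hSt.ne
            card := hSt.card
            wf := hSt.wf
            k_pos := by linarith
            k_le := by have := hSt.k_le'; linarith
            bar := hOn.bar σ' ⟨hσ'.1, le_rfl⟩
            rep := hrep
            hist := fun hW => ⟨(hSt.hist hW).1, fun s hs => by
              rcases lt_or_ge s σ with h | h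
              · exact (hSt.hist hW).2 s ⟨hs.1, h⟩
              · exact hZd hW s ⟨h, hs.2⟩⟩ }
        obtain ⟨W', Γ0', k', _, hlt, hSt', hk'⟩ :=
          hmerge σ' W Γ0 (kf k (P.a σ) (P.a σ')) hPre (fun h => absurd h hng)
        have hcl := hlt hng
        have hW'pos : 0 < W'.card := Finset.card_pos.2 hSt'.ne
        have hlev' : ∀ s ∈ Icc P.s0 σ', P.a s ≤ 2 * Bd (j + 1) := by
          intro s hs
          rcases le_or_gt s σ with h | h
          · have := hlev s ⟨hs.1, h⟩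
            have := hBpos j (by omega)
            linarith
          · rcases (hs.2.trans hσ's2).lt_or_eq with h' | h'
            · exact (hbelow s ⟨h.le, h'⟩).le
            · rw [h', ha2]
        refine ih (j + 1) (by omega) σ' W' Γ0' k' (by omega) hSt' (by omega) hlev' ?_
        refine (hB.kap_step j hj).trans (le_trans ?_ hk')
        have hkapj : 0 ≤ kap j := le_trans (by positivity) (hB.kap_T j hj)
        have hS1 : 0 < S1f Q c.CS1 (P.a σ') := Real.exp_pos _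
        have hS2 : S1f Q c.CS1 (P.a σ') ≤ S1f Q c.CS1 (2 * Bd (j + 1)) :=
          hmono _ _ (hlow σ' hσ'path) (hlev' σ' ⟨hσ'path.1, le_rfl⟩)
        have hS3 : 0 < S1f Q c.CS1 (2 * Bd (j + 1)) := Real.exp_pos _
        have hb0 : 0 ≤ cm * (kap j / 2) / S1f Q c.CS1 (2 * Bd (j + 1)) :=
          div_nonneg (mul_nonneg hcm.le (by linarith)) hS3.le
        have hb1 : cm * (kap j / 2) / S1f Q c.CS1 (2 * Bd (j + 1))
            ≤ cm * kf k (P.a σ) (P.a σ') / S1f Q c.CS1 (P.a σ') :=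
          div_le_div₀ (mul_nonneg hcm.le (by linarith))
            (mul_le_mul_of_nonneg_left (by linarith) hcm.le) hS1 hS2
        exact pow_le_pow_left₀ hb0 hb1 (7 ^ Q)
  intro j σ W Γ0 k hj
  exact key (Q - j) j rfl σ W Γ0 k hj

/-- `(cm e^{-x} / e^{s})^N` in exponential form. -/
theorem stg_bandOk_pow (cm x s : ℝ) (hcm : 0 < cm) (N : ℕ) :
    (cm * Real.exp (-x) / Real.exp s) ^ N = Real.exp (-((N : ℝ) * (-Real.log cm + x + s))) := by
  have h1 : cm * Real.exp (-x) / Real.exp s = Real.exp (-(-Real.log cm + x + s)) := by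
    have e : -(-Real.log cm + x + s) = Real.log cm + -x - s := by ring
    rw [e, Real.exp_sub, Real.exp_add, Real.exp_log hcm]
  rw [h1, ← Real.exp_nat_mul]
  congr 1
  ring

theorem stg_bandOk_two (X : ℝ) : 2 * Real.exp (-(Real.log 2 + X)) = Real.exp (-X) := by
  have e : -(Real.log 2 + X) = -X - Real.log 2 := by ring
  rw [e, Real.exp_sub, Real.exp_log (by norm_num)]
  field_simp

/-- `u ≤ 1 + u^201` for `u ≥ 0`. -/
theorem stg_bandOk_le_pow (u : ℝ) (hu : 0 ≤ u) : u ≤ 1 + u ^ 201 := by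
  rcases le_total u 1 with h | h
  · have := pow_nonneg hu 201
    linarith
  · have := pow_le_pow_right₀ h (show 1 ≤ 201 by norm_num)
    rw [pow_one] at this
    linarith

/-- existence of admissible sequences (`bands`, `bQ_monotoneOn`): `kap 0` is the lower bound for `k`
after initialization and immediate mergers. -/
theorem exists_bandOk (Q : ℕ) (hQ : 1 ≤ Q) (ε0 cm CS1 Ck0 : ℝ) (hε : 0 < ε0) (hε1 : ε0 ≤ 1)
    (hcm : 0 < cm) (hcm1 : cm ≤ 1) (hCS1 : 0 ≤ CS1) (hCk0 : 0 ≤ Ck0) :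
    ∃ T0 : ℝ, ∀ T : ℝ, T0 ≤ T → ∃ Bd kap : ℕ → ℝ,
      BandOk Q T (a0T Q T) ε0 cm CS1 Bd kap ∧ FQ Q T ^ 30 ≤ Bd 1 ∧
      kap 0 ≤ (cm * Real.exp (-(Ck0 * (1 + bQ Q (a0T Q T)))) / S1f Q CS1 (2 * a0T Q T)) ^ (7 ^ Q) := by
  obtain ⟨N, hN⟩ : ∃ N : ℕ, N = 7 ^ Q := ⟨_, rfl⟩
  have hN0 : (0 : ℝ) ≤ N := Nat.cast_nonneg _
  have hN1 : (1 : ℝ) ≤ N := by
    have : 1 ≤ N := by rw [hN]; exact Nat.one_le_pow _ _ (by norm_num)
    exact_mod_cast this
  obtain ⟨lc, hlc⟩ : ∃ lc : ℝ, lc = -Real.log cm := ⟨_, rfl⟩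
  have hlc0 : 0 ≤ lc := by
    rw [hlc]
    have := Real.log_nonpos hcm.le hcm1
    linarith
  have hl2 : 0 ≤ Real.log 2 := Real.log_nonneg (by norm_num)
  obtain ⟨Cb, hCb⟩ : ∃ Cb : ℝ, Cb = N * (lc + 1 + CS1 + Ck0) + Real.log 2 + 1 := ⟨_, rfl⟩
  obtain ⟨T1, hT1⟩ := bands Q hQ Cb ε0 hε
  obtain ⟨x1, hx1⟩ := bQ_monotoneOn Q
  obtain ⟨x2, hx2⟩ := bQ_ge Q
  obtain ⟨T2, hT2⟩ := Filter.eventually_atTop.1
    ((FQ_tendsto Q).eventually_ge_atTop (max 1 (max x1 x2)))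
  refine ⟨max T1 T2, fun T hT => ?_⟩
  obtain ⟨Bd, hB0, hBs, hB30, hBtop⟩ := hT1 T (le_trans (le_max_left _ _) hT)
  have hF := hT2 T (le_trans (le_max_right _ _) hT)
  have hF1 : 1 ≤ FQ Q T := le_trans (le_max_left _ _) hF
  have hFx1 : x1 ≤ FQ Q T := le_trans (le_trans (le_max_left _ _) (le_max_right _ _)) hF
  have hFx2 : x2 ≤ FQ Q T := le_trans (le_trans (le_max_right _ _) (le_max_right _ _)) hF
  have ha0 : a0T Q T = FQ Q T ^ 2 := rfl
  have hFa : FQ Q T ≤ a0T Q T := by rw [ha0]; nlinarith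
  generalize a0T Q T = a0 at ha0 hFa ⊢
  rw [← ha0] at hB0
  have hBge : ∀ i, i ≤ Q → a0 ≤ Bd i := by
    intro i
    induction i with
    | zero => intro _; rw [hB0]
    | succ i ih =>
      intro hi
      have h1 := ih (by omega)
      have h2 := (hBs i (by omega)).1
      linarith
  have ha1 : 1 ≤ a0 := le_trans hF1 hFa
  have hBmono' : ∀ d i, i + d ≤ Q → Bd i ≤ Bd (i + d) := by
    intro d
    induction d with
    | zero => intro i _; exact le_rfl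
    | succ d ih =>
      intro i hi
      have h1 := ih i (by omega)
      have h2 := (hBs (i + d) (by omega)).1
      have h3 := hBge (i + d) (by omega)
      have e : Bd (i + (d + 1)) = Bd (i + d + 1) := rfl
      rw [e]
      linarith
  have hBmono : ∀ i, i ≤ Q → Bd i ≤ Bd Q := by
    intro i hi
    have := hBmono' (Q - i) i (by omega)
    rwa [show i + (Q - i) = Q by omega] at this
  obtain ⟨lam, hlam0, hlamS⟩ : ∃ lam : ℕ → ℝ,
      lam 0 = Real.log 2 + N * (lc + Ck0 * (1 + bQ Q a0) + CS1 * bQ Q (2 * a0)) ∧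
      ∀ i, lam (i + 1) = Real.log 2 + N * (lc + lam i + CS1 * bQ Q (2 * Bd (i + 1))) :=
    ⟨fun i => Nat.rec (Real.log 2 + N * (lc + Ck0 * (1 + bQ Q a0) + CS1 * bQ Q (2 * a0)))
      (fun i l => Real.log 2 + N * (lc + l + CS1 * bQ Q (2 * Bd (i + 1)))) i, rfl, fun i => rfl⟩
  -- `log x ≤ bQ x`
  have hlogb : ∀ x : ℝ, a0 ≤ x → Real.log x ≤ bQ Q x := by
    intro x hx
    have h1 : 0 ≤ Real.log x := Real.log_nonneg (by linarith)
    have h2 := hx2 x (by linarith)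
    have h3 := stg_bandOk_le_pow _ h1
    linarith
  have hkey : ∀ i, i ≤ Q → lam i ≤ Cb * (1 + bQ Q (2 * Bd i)) := by
    intro i
    induction i with
    | zero =>
      intro _
      rw [hlam0, hB0]
      have h1 : bQ Q a0 ≤ bQ Q (2 * a0) :=
        hx1 (show x1 ≤ a0 by linarith) (show x1 ≤ 2 * a0 by linarith) (by linarith)
      have h2 : 0 ≤ bQ Q (2 * a0) :=
        le_trans (Real.log_nonneg (by linarith)) (hlogb (2 * a0) (by linarith))
      generalize bQ Q (2 * a0) = β at h1 h2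
      generalize bQ Q a0 = b at h1
      rw [hCb]
      have p1 := mul_nonneg (mul_nonneg hN0 hlc0) h2
      have p2 := mul_nonneg hN0 h2
      have p3 := mul_nonneg hN0 hCS1
      have p4 := mul_nonneg (mul_nonneg hN0 hCk0) (sub_nonneg.2 h1)
      have p5 := mul_nonneg hl2 h2
      nlinarith
    | succ i ih =>
      intro hi
      have h1 := ih (by omega)
      have h2 := (hBs i (by omega)).2
      have h3 := hBge (i + 1) hi
      have h4 : 0 ≤ Real.log (Bd (i + 1)) := Real.log_nonneg (by linarith)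
      have h5 : Real.log (Bd (i + 1)) ≤ Real.log (2 * Bd (i + 1)) :=
        Real.log_le_log (by linarith) (by linarith)
      have h6 := hlogb (2 * Bd (i + 1)) (by linarith)
      have h7 : ε0 * Real.log (Bd (i + 1)) ≤ Real.log (Bd (i + 1)) := by nlinarith
      have h8 : lam i ≤ bQ Q (2 * Bd (i + 1)) := by linarith
      have h9 : 0 ≤ bQ Q (2 * Bd (i + 1)) := by linarith
      rw [hlamS]
      generalize bQ Q (2 * Bd (i + 1)) = β at h8 h9
      generalize lam i = l at h8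
      rw [hCb]
      have p0 := mul_le_mul_of_nonneg_left h8 hN0
      have p1 := mul_nonneg (mul_nonneg hN0 hlc0) h9
      have p2 := mul_nonneg hN0 h9
      have p3 := mul_nonneg hN0 hCS1
      have p4 := mul_nonneg (mul_nonneg hN0 hCk0) h9
      have p4' := mul_nonneg hN0 hCk0
      have p5 := mul_nonneg hl2 h9
      nlinarith
  have hlamle : ∀ i, i < Q → lam i ≤ ε0 * Real.log (Bd (i + 1)) := fun i hi =>
    le_trans (hkey i hi.le) (hBs i hi).2
  have hhalf : ∀ i, 2 * Real.exp (-lam i) / 2 = Real.exp (-lam i) := fun i =>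
    mul_div_cancel_left₀ _ (by norm_num)
  refine ⟨Bd, fun i => 2 * Real.exp (-lam i), ⟨hB0, fun i hi => (hBs i hi).1, hBtop, ?_, ?_, ?_⟩,
    hB30, ?_⟩
  · intro i _
    simp only [hhalf]
    unfold S1f
    rw [← hN, stg_bandOk_pow _ _ _ hcm, hlamS, stg_bandOk_two, ← hlc]
  · intro i hi
    simp only [hhalf]
    have h3 := hBge (i + 1) hi
    rw [Real.rpow_def_of_pos (by linarith)]
    refine Real.exp_le_exp.2 ?_
    have := hlamle i hi
    linarith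
  · intro i hi
    have h3 := hBge (i + 1) hi
    have h4 : 0 ≤ Real.log (Bd (i + 1)) := Real.log_nonneg (by linarith)
    have h5 := hlamle i hi
    have h6 : lam i ≤ Real.log (Bd (i + 1)) := by nlinarith
    have h7 := hBmono (i + 1) hi
    have hBpos : 0 < Bd (i + 1) := by linarith
    have hT0 : 0 < T := by linarith
    have h8 : Bd (i + 1) ≤ T := by linarith
    have h9 : (Bd (i + 1))⁻¹ ≤ Real.exp (-lam i) := by
      rw [← Real.exp_log hBpos, ← Real.exp_neg]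
      exact Real.exp_le_exp.2 (by linarith)
    have h10 : T⁻¹ ≤ (Bd (i + 1))⁻¹ := inv_anti₀ hBpos h8
    show 2 / T ≤ 2 * Real.exp (-lam i)
    rw [div_eq_mul_inv]
    linarith
  · show 2 * Real.exp (-lam 0) ≤ _
    unfold S1f
    rw [← hN, stg_bandOk_pow _ _ _ hcm, hlam0, stg_bandOk_two, ← hlc]

/-! ## The output of AE Section 5 -/

/-- **AE Lemmas 5.2, 5.3, Proposition 5.4, Lemma 5.5.**  Every path has a merger-free traversal of one
of `Q` bands (independent of the contact) with `U ≤ B^{ε0} I`. -/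
theorem traversal (m n Q : ℕ) (hm : 1 ≤ m) (hQ : 1 ≤ Q)
    (ih : ∀ q : ℕ, 1 ≤ q → q < Q → SignedAt m n q) (κ Cg : ℝ) (hκ : 0 < κ) (F : Fix m n Q Cg)
    (K P0 : ℝ) (hK : 2 * (m : ℝ) + 100 < K) (hP0 : 4 ≤ P0) :
    ∃ CQ0 : ℝ, ∀ CQ : ℝ, CQ0 ≤ CQ → ∃ (C K1 : ℝ) (c : SC), 1 ≤ K1 ∧ 1 ≤ c.Cw ∧ 0 < c.cp ∧
      c.cp ≤ 1 / 4 ∧ c.P0 = P0 ∧ ∀ ε0 : ℝ, 0 < ε0 → ε0 ≤ 1 → ∃ T0 : ℝ, ∀ T : ℝ, T0 ≤ T →
      ∃ Bd : ℕ → ℝ, (∀ i, 1 ≤ i → i ≤ Q → FQ Q T ^ 30 ≤ Bd i ∧ 2 * Bd i < T / 2) ∧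
      ∀ P : PD m n Q, P.T = T → P.CQ = CQ → P.K = K → P.Ok κ Cg →
        PathOk P κ Cg K C K1 ∧
        ∃ i, 1 ≤ i ∧ i ≤ Q ∧ ∃ (W : Finset (E n)) (Γ0 : E n → ℝ) (s1 s2 : ℝ),
          Trav P c (Bd i) ε0 W Γ0 s1 s2 := by
  classical
  obtain ⟨Cw, cp, hCw, hcp, hcp', hwf⟩ := exists_wellFn n Q
  obtain ⟨CQe, henv⟩ := envelope m n Q hm hQ κ Cg hκ K hK
  obtain ⟨Tb, hbank⟩ := bank m n Q hm hQ κ Cg hκ
  obtain ⟨CQs, hstage⟩ := stage m n Q hm hQ ih κ Cg hκ F K Cw cp P0 hK hCw hcp hcp' hP0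
  obtain ⟨CQi, hinit⟩ := init m n Q hm hQ ih κ Cg hκ F K Cw cp P0 hK hCw hcp hcp' (by linarith) hwf
  refine ⟨max (max CQe CQs) (max CQi 0), fun CQ hCQ => ?_⟩
  have hCQe : CQe ≤ CQ := ((le_max_left _ _).trans (le_max_left _ _)).trans hCQ
  have hCQs : CQs ≤ CQ := ((le_max_right _ _).trans (le_max_left _ _)).trans hCQ
  have hCQi : CQi ≤ CQ := ((le_max_left _ _).trans (le_max_right _ _)).trans hCQ
  have hCQ0 : 0 ≤ CQ := ((le_max_right _ _).trans (le_max_right _ _)).trans hCQ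
  obtain ⟨C, Te, hC, henv⟩ := henv CQ hCQe
  obtain ⟨K1, Tc, hK1, hctl⟩ := ctl_path m n Q hm hQ κ Cg K C hK
  obtain ⟨Cl0s, hstage⟩ := hstage C K1 hK1
  obtain ⟨Cl0i, hinit⟩ := hinit C
  set Cl : ℝ := max Cl0s Cl0i with hCl
  obtain ⟨Ce, kmax0, hCe, hk0, hk64, CS1min, hstage⟩ := hstage Cl (le_max_left _ _)
  obtain ⟨cm, kmax0m, hcm, hcm1, hk0m, hmerge⟩ :=
    merge_all m n Q hm hQ κ Cg F K C K1 Cl Cw cp Ce P0 hK hK1 hCw hCe hwf
  set kmax : ℝ := min kmax0 kmax0m with hkmax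
  have hkmaxpos : 0 < kmax := lt_min hk0 hk0m
  set CS1 : ℝ := max CS1min 0 with hCS1
  obtain ⟨Ts, hstage⟩ := hstage CS1 kmax (le_max_left _ _) (min_le_left _ _)
  obtain ⟨Tm, hmerge⟩ := hmerge kmax CS1 hkmaxpos (min_le_right _ _) (le_max_right _ _)
  obtain ⟨Ck0, Ti, hCk0, hinit⟩ := hinit Cl kmax (le_max_right _ _) hkmaxpos
  refine ⟨C, K1, ⟨Cl, Cw, cp, Ce, CS1, kmax, P0⟩, hK1, hCw, hcp, hcp', rfl, fun ε0 hε hε1 => ?_⟩
  obtain ⟨TB, hband⟩ := exists_bandOk Q hQ ε0 cm CS1 Ck0 hε hε1 hcm hcm1 (le_max_right _ _) hCk0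
  obtain ⟨x0, hx0⟩ := bQ_monotoneOn Q
  obtain ⟨Ta, hTa⟩ := stg_a0_large Q (max (max 6 (2 * C)) (2 * x0))
  refine ⟨max (max (max Tb Te) (max Tc Ts)) (max (max Tm Ti) (max TB Ta)), fun T hT => ?_⟩
  have hTb : Tb ≤ T := (((le_max_left _ _).trans (le_max_left _ _)).trans (le_max_left _ _)).trans hT
  have hTe : Te ≤ T := (((le_max_right _ _).trans (le_max_left _ _)).trans (le_max_left _ _)).trans hT
  have hTc : Tc ≤ T := (((le_max_left _ _).trans (le_max_right _ _)).trans (le_max_left _ _)).trans hT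
  have hTs : Ts ≤ T := (((le_max_right _ _).trans (le_max_right _ _)).trans (le_max_left _ _)).trans hT
  have hTm : Tm ≤ T := (((le_max_left _ _).trans (le_max_left _ _)).trans (le_max_right _ _)).trans hT
  have hTi : Ti ≤ T := (((le_max_right _ _).trans (le_max_left _ _)).trans (le_max_right _ _)).trans hT
  have hTB : TB ≤ T := (((le_max_left _ _).trans (le_max_right _ _)).trans (le_max_right _ _)).trans hT
  have hTa' : Ta ≤ T := (((le_max_right _ _).trans (le_max_right _ _)).trans (le_max_right _ _)).trans hT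
  obtain ⟨Bd, kap, hB, hB1, hkap0⟩ := hband T hTB
  have ha0 := hTa T hTa'
  have ha06 : 6 ≤ a0T Q T := ((le_max_left _ _).trans (le_max_left _ _)).trans ha0
  have ha0C : 2 * C ≤ a0T Q T := ((le_max_right _ _).trans (le_max_left _ _)).trans ha0
  have ha0x : 2 * x0 ≤ a0T Q T := (le_max_right _ _).trans ha0
  have ha0pos : 0 < a0T Q T := by linarith
  refine ⟨Bd, fun i hi1 hiQ => ⟨hB1.trans (hB.le ha0pos 1 i hi1 hiQ), ?_⟩, ?_⟩
  · have h1 := hB.le ha0pos i Q hiQ le_rfl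
    have h2 := hB.top
    linarith
  intro P hPT hPCQ hPK hok
  subst hPT
  have hEnv : EnvOut P C := henv P hPK hPCQ hok hTe
  have hBank : Bank P := hbank P hok (by rw [hPCQ]; exact hCQ0) hTb
  have hP : PathOk P κ Cg K C K1 :=
    { hK := hPK
      ok := hok
      bank := hBank
      env := hEnv
      ctl := hctl P hPK hok hEnv hTc }
  refine ⟨hP, ?_⟩
  have hs0mem : P.s0 ∈ P.path := ⟨le_rfl, hEnv.s0_lt.le⟩
  have hlow : ∀ s ∈ P.path, P.a0 / 2 ≤ P.a s := by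
    intro s hs
    have h1 := hEnv.a_ge s hs
    have h2 : 2 * C ≤ P.a0 := ha0C
    linarith
  have hmono : ∀ a a' : ℝ, P.a0 / 2 ≤ a → a ≤ a' → S1f Q CS1 a ≤ S1f Q CS1 a' := by
    intro a a' h1 h2
    have h3 : 2 * x0 ≤ P.a0 := ha0x
    have h4 : x0 ≤ a := by linarith
    unfold S1f
    exact Real.exp_le_exp.2 (mul_le_mul_of_nonneg_left (hx0 h4 (h4.trans h2) h2) (le_max_right _ _))
  obtain ⟨W, Γ0, k0, hPre, hk0le, hk0ge⟩ :=
    hinit Ce CS1 hCe.le P hPK hok (by rw [hPCQ]; exact hCQi) hBank hEnv hTi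
  obtain ⟨W', Γ0', k', _, _, hSt, hk'⟩ := hmerge P hP hTm P.s0 W Γ0 k0 hPre (fun _ => hk0le)
  have has0 : P.a P.s0 ≤ 2 * P.a0 := by
    have h1 := (abs_le.1 hEnv.a_s0).2
    have h2 : 2 * C ≤ P.a0 := ha0C
    linarith
  refine trav_induct (F := F) (c := ⟨Cl, Cw, cp, Ce, CS1, kmax, P0⟩) hP hB hε
    (by have : (6 : ℝ) ≤ P.a0 := ha06; linarith) ((min_le_left _ _).trans hk64) hlow
    (fun σ W Γ0 k h1 h2 => hstage P hP (by rw [hPCQ]; exact hCQs) hTs σ W Γ0 k h1 h2)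
    (fun σ W Γ0 k h1 h2 => hmerge P hP hTm σ W Γ0 k h1 h2) hmono hcm 0 P.s0 W' Γ0' k'
    (by omega) hSt (by have := hSt.card; omega) ?_ ?_
  · intro s hs
    have : s = P.s0 := le_antisymm hs.2 hs.1
    rw [this, hB.B0]
    exact has0
  · refine hkap0.trans (le_trans ?_ hk')
    have hS1 : 0 < S1f Q CS1 (P.a P.s0) := Real.exp_pos _
    have hS2 : S1f Q CS1 (P.a P.s0) ≤ S1f Q CS1 (2 * a0T Q P.T) :=
      hmono _ _ (hlow _ hs0mem) has0
    have hS3 : 0 < S1f Q CS1 (2 * a0T Q P.T) := Real.exp_pos _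
    have hb0 : 0 ≤ cm * Real.exp (-(Ck0 * (1 + bQ Q (a0T Q P.T)))) / S1f Q CS1 (2 * a0T Q P.T) :=
      div_nonneg (mul_nonneg hcm.le (Real.exp_pos _).le) hS3.le
    have hb1 : cm * Real.exp (-(Ck0 * (1 + bQ Q (a0T Q P.T)))) / S1f Q CS1 (2 * a0T Q P.T)
        ≤ cm * k0 / S1f Q CS1 (P.a P.s0) :=
      div_le_div₀ (mul_nonneg hcm.le hPre.k_pos.le)
        (mul_le_mul_of_nonneg_left hk0ge hcm.le) hS1 hS2
    exact pow_le_pow_left₀ hb0 hb1 (7 ^ Q)

end Claimed.Agent.R322.Sx
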