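import Claimed.Agent.R322.Sx.Moment
import Claimed.Agent.R322.Pack043

/-!
# R322 / Sx / StageDefs : the objects of AE Proposition 5.4 and Lemma 5.5

* `P.flow` : the path functions in logarithmic time (`Flow.lean`), `flow_reg`.
* `S1f Q CS1 a = exp(CS1 · b_Q(a))` is `S_1(a)`; `P.thr CS1 k s = s S_1(a) e^{-a/2} / k` the merger
  threshold of AE (5.12'') (the cap `C_j e^{-γ a}` of the paper is never the smaller term, because
  `k ≥ 1/T` on the part of the path that we use; it is dropped);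
  `P.eps Ce k s = Ce s √(e^{-a}/k)` the entry-to-well distance.
* `P.IsList F Cl s A` : `A` is a majority list on `B_s(x)` with local bound `Cl e^{-a(s)}`.
* `P.Bar W Γ0 k s` : the barrier AE (5.12) at the scale `s` with the parameter value `k`.
* `PreSt` : the invariant at the beginning of a stage, before immediate mergers (`k ≤ 2 kmax`: on a stage
  `k` may grow by a factor `≤ 2`); `St` = `PreSt` + no merger is triggered + `k ≤ kmax`.  `StageOn` : what holds on a stage `[σ, σ')`.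
* `Trav` : the output of AE Section 5 (AE Lemma 5.5), input of AE Section 6.

On a stage starting at `σ` with the value `k0`, the parameter is `k(s) = kf k0 (a σ) (a s)`.
-/

set_option autoImplicit false

namespace Claimed.Agent.R322.Sx

open MeasureTheory Set Metric
open scoped ENNReal NNReal InnerProductSpace

variable {m n Q : ℕ}

/-! ## The path in logarithmic time -/

/-- the path functions in the variable `t = log s`. -/
noncomputable def PD.flow (P : PD m n Q) : LFlow where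
  K := P.K
  A := fun t => P.A (Real.exp t)
  Ad := fun t => P.Adot (Real.exp t)
  Z := fun t => P.Z (Real.exp t)
  Zd := fun t => P.Zdot (Real.exp t)
  I := fun t => P.I (Real.exp t)

theorem PD.flow_a {κ Cg : ℝ} (P : PD m n Q) (h : P.Ok κ Cg) (t : ℝ) :
    P.flow.a t = P.a (Real.exp t) := by
  have hI := P.I_pos h (Real.exp_pos t)
  show 2 * t - Real.log (P.I (Real.exp t)) = Real.log (Real.exp t ^ 2 / P.I (Real.exp t))
  rw [Real.log_div (by positivity) hI.ne', Real.log_pow, Real.log_exp]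
  norm_num

/-- chain rule for the logarithmic time. -/
theorem stgd_hasDerivAt_exp {f : ℝ → ℝ} {f' : ℝ} {t : ℝ}
    (hf : HasDerivAt f (f' / Real.exp t) (Real.exp t)) :
    HasDerivAt (fun t => f (Real.exp t)) f' t := by
  have h1 := hf.comp t (Real.hasDerivAt_exp t)
  have e : f' / Real.exp t * Real.exp t = f' := div_mul_cancel₀ _ (Real.exp_pos t).ne'
  rw [e] at h1
  exact h1

theorem stgd_rpow_exp (K t t' : ℝ) :
    (Real.exp t' / Real.exp t) ^ K = Real.exp (K * (t' - t)) := by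
  rw [← Real.exp_sub, ← Real.exp_mul, mul_comm]

/-- AE (5.5) and Lemma 5.2 in the form of `LFlow.Reg`. -/
theorem flow_reg (m n Q : ℕ) (κ Cg C : ℝ) :
    ∃ C' : ℝ, 1 ≤ C' ∧ ∀ P : PD m n Q, P.Ok κ Cg → 0 < P.K → Bank P → EnvOut P C →
      P.flow.Reg C' (Real.log P.s0) (Real.log P.sst) := by
  refine ⟨max C 1, le_max_right _ _, fun P h hK hB hE => ?_⟩
  have hs0 : 0 < P.s0 := P.s0_pos h
  have hsst : 0 < P.sst := hs0.trans hE.s0_lt
  -- translation of the interval
  have hmem : ∀ t ∈ Icc (Real.log P.s0) (Real.log P.sst), Real.exp t ∈ P.path := by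
    intro t ht
    constructor
    · rw [← Real.exp_log hs0]
      exact Real.exp_le_exp.2 ht.1
    · rw [← Real.exp_log hsst]
      exact Real.exp_le_exp.2 ht.2
  have hsb : ∀ t ∈ Icc (Real.log P.s0) (Real.log P.sst), P.sb ≤ Real.exp t :=
    fun t ht => h.sb_le.trans (hmem t ht).1
  have hlt : ∀ t ∈ Icc (Real.log P.s0) (Real.log P.sst), Real.exp t < P.ρ :=
    fun t ht => lt_of_le_of_lt (hmem t ht).2 hE.sst_lt
  have hCC : C ≤ max C 1 := le_max_left _ _
  have hlog : ∀ t t' : ℝ, Real.log (Real.exp t' / Real.exp t) = t' - t := by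
    intro t t'
    rw [← Real.exp_sub, Real.log_exp]
  refine
    { le := Real.log_le_log hs0 hE.s0_lt.le
      dA := fun t _ => stgd_hasDerivAt_exp (P.hasDerivAt_A h (Real.exp_pos t))
      dZ := fun t _ => stgd_hasDerivAt_exp (P.hasDerivAt_Z h (Real.exp_pos t))
      I_pos := fun t _ => P.I_pos h (Real.exp_pos t)
      I_cont := ?_
      Z_nonneg := fun t ht => hB.Z_nonneg _ (hsb t ht) (hlt t ht).le
      Z_le_A := fun t ht => hB.Z_le_A _ (hsb t ht) (hlt t ht).le
      A_le_I := fun t ht => P.I_ge_A h (Real.exp_pos t) (hlt t ht).le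
      mono := fun t ht t' ht' htt =>
        hB.mono _ _ (hsb t ht) (Real.exp_le_exp.2 htt) (hlt t' ht').le
      I_mono := ?_
      nonreset := ?_
      history := ?_
      bound := ?_
      a_lip := ?_
      ZI_lip := ?_ }
  · exact (P.I_continuousOn h).comp Real.continuous_exp.continuousOn
      (fun t ht => ⟨Real.exp_pos t, (hlt t ht).le⟩)
  · intro t _ t' ht' htt
    have := P.I_mono h hK (Real.exp_pos t) (Real.exp_le_exp.2 htt) (hlt t' ht').le
    rw [stgd_rpow_exp] at this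
    exact this
  · intro t ht hne
    obtain ⟨ε, hε, hI⟩ := P.I_nonreset h hK (Real.exp_pos t) (hlt t ht) hne
    obtain ⟨δ, hδ, hd⟩ := Metric.continuousAt_iff.1 (Real.continuous_exp.continuousAt (x := t)) ε hε
    refine ⟨δ, hδ, fun t' _ htt => ?_⟩
    have h1 : |Real.exp t' - Real.exp t| < ε := by
      have := hd (x := t') (by rw [Real.dist_eq]; exact htt)
      rwa [Real.dist_eq] at this
    have := hI _ h1
    rw [stgd_rpow_exp] at this
    exact this
  · intro u hu t ht hut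
    have h1 := P.I_history h hK (Real.exp_pos u) (Real.exp_le_exp.2 hut) (hlt t ht).le
    rcases le_max_iff.1 h1 with h2 | h2
    · exact Or.inl h2
    · right
      have hc : ContinuousOn P.A (Icc (Real.exp u) (Real.exp t)) := fun v hv =>
        (P.hasDerivAt_A h (lt_of_lt_of_le (Real.exp_pos u) hv.1)).continuousAt.continuousWithinAt
      obtain ⟨v, hv, hvs⟩ := isCompact_Icc.exists_sSup_image_eq
        (nonempty_Icc.2 (Real.exp_le_exp.2 hut)) hc
      have hv0 : 0 < v := lt_of_lt_of_le (Real.exp_pos u) hv.1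
      refine ⟨Real.log v, ⟨?_, ?_⟩, ?_⟩
      · rw [Real.le_log_iff_exp_le hv0]
        exact hv.1
      · rw [Real.log_le_iff_le_exp hv0]
        exact hv.2
      · show P.I (Real.exp u) ≤ P.A (Real.exp (Real.log v))
        rw [Real.exp_log hv0, ← hvs]
        exact h2
  · intro t ht
    have h1 := hE.reg _ (hmem t ht)
    have h2 := P.I_pos h (Real.exp_pos t)
    have h3 := abs_nonneg (P.Zddot (Real.exp t))
    have h4 := mul_le_mul_of_nonneg_right hCC h2.le
    show |P.Adot (Real.exp t)| + |P.Zdot (Real.exp t)| ≤ max C 1 * P.I (Real.exp t)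
    linarith
  · have key : ∀ t ∈ Icc (Real.log P.s0) (Real.log P.sst),
        ∀ t' ∈ Icc (Real.log P.s0) (Real.log P.sst), t ≤ t' →
        |P.flow.a t' - P.flow.a t| ≤ max C 1 * |t' - t| := by
      intro t ht t' ht' htt
      rw [P.flow_a h, P.flow_a h, abs_of_nonneg (sub_nonneg.2 htt)]
      have := hE.a_lip _ (hmem t ht) _ (hmem t' ht') (Real.exp_le_exp.2 htt)
      rw [hlog] at this
      exact this.trans (mul_le_mul_of_nonneg_right hCC (sub_nonneg.2 htt))
    intro t ht t' ht'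
    rcases le_total t t' with htt | htt
    · exact key t ht t' ht' htt
    · rw [abs_sub_comm, abs_sub_comm t' t]
      exact key t' ht' t ht htt
  · have key : ∀ t ∈ Icc (Real.log P.s0) (Real.log P.sst),
        ∀ t' ∈ Icc (Real.log P.s0) (Real.log P.sst), t ≤ t' →
        |P.flow.Zd t' / P.flow.I t' - P.flow.Zd t / P.flow.I t| ≤ max C 1 * |t' - t| := by
      intro t ht t' ht' htt
      rw [abs_of_nonneg (sub_nonneg.2 htt)]
      have := hE.ZI_lip _ (hmem t ht) _ (hmem t' ht') (Real.exp_le_exp.2 htt)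
      rw [hlog] at this
      exact this.trans (mul_le_mul_of_nonneg_right hCC (sub_nonneg.2 htt))
    intro t ht t' ht'
    rcases le_total t t' with htt | htt
    · exact key t ht t' ht' htt
    · rw [abs_sub_comm, abs_sub_comm t' t]
      exact key t' ht' t ht htt

/-! ## Stage objects -/

/-- `S_1(a) = exp(CS1 · b_Q(a))`. -/
noncomputable def S1f (Q : ℕ) (CS1 a : ℝ) : ℝ := Real.exp (CS1 * bQ Q a)

namespace PD

variable (P : PD m n Q)

/-- merger threshold `s S_1(a) e^{-a/2} / k`. -/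
noncomputable def thr (CS1 k s : ℝ) : ℝ := s * S1f Q CS1 (P.a s) * Real.exp (-P.a s / 2) / k

/-- entry-to-well distance `Ce s √(e^{-a}/k)`. -/
noncomputable def eps (Ce k s : ℝ) : ℝ := Ce * s * Real.sqrt (Real.exp (-P.a s) / k)

/-- majority list on `B_s(x)` with local bound `Cl e^{-a(s)}`. -/
def IsList {Cg : ℝ} (F : Fix m n Q Cg) (Cl s : ℝ) (A : Fin Q → E n) : Prop :=
  F.IsMaj P.S P.x s (Cl * Real.exp (-P.a s)) A

/-- the barrier AE (5.12). -/
def Bar (W : Finset (E n)) (Γ0 : E n → ℝ) (k s : ℝ) : Prop :=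
  k * P.U Γ0 s + alf W.card k (P.a s) * P.Z s ≤ P.I s

end PD

/-- constants of the stage analysis. -/
structure SC where
  /-- list constant -/
  Cl : ℝ
  /-- multiplier constants -/
  Cw : ℝ
  /-- pure neighbourhoods -/
  cp : ℝ
  /-- entry-to-well constant -/
  Ce : ℝ
  /-- constant of `S_1` -/
  CS1 : ℝ
  /-- upper bound for `k` -/
  kmax : ℝ
  /-- inverse-polynomial exponent -/
  P0 : ℝ

/-- invariant at the scale `σ`, before immediate mergers. -/
structure PreSt {Cg : ℝ} (P : PD m n Q) (F : Fix m n Q Cg) (c : SC) (σ : ℝ) (W : Finset (E n))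
    (Γ0 : E n → ℝ) (k : ℝ) : Prop where
  mem : σ ∈ P.path
  ne : W.Nonempty
  card : W.card ≤ Q
  wf : WellFn W c.Cw c.cp Γ0
  k_pos : 0 < k
  k_le : k ≤ 2 * c.kmax
  bar : P.Bar W Γ0 k σ
  rep : ∃ A : Fin Q → E n, P.IsList F c.Cl σ A ∧ RepW A W (P.eps c.Ce k σ)
  /-- with several wells: `Z(s0)` is small and `Ż ≤ a^{-P0} I` at all earlier scales -/
  hist : 1 < W.card → P.Z P.s0 ≤ (P.a0 / 2) ^ (-c.P0) * P.I P.s0 ∧
    ∀ s ∈ Ico P.s0 σ, P.Zdot s ≤ P.a s ^ (-c.P0) * P.I s

/-- state at the beginning of a stage. -/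
structure St {Cg : ℝ} (P : PD m n Q) (F : Fix m n Q Cg) (c : SC) (σ : ℝ) (W : Finset (E n))
    (Γ0 : E n → ℝ) (k : ℝ) : Prop extends PreSt P F c σ W Γ0 k where
  gap : GapW W (P.thr c.CS1 k σ)
  k_le' : k ≤ c.kmax

/-- what holds on the stage `[σ, σ')` (the barrier also at `σ'`). -/
structure StageOn (P : PD m n Q) (c : SC) (σ σ' : ℝ) (W : Finset (E n)) (Γ0 : E n → ℝ) (k : ℝ) :
    Prop where
  bar : ∀ s ∈ Icc σ σ', P.Bar W Γ0 (kf k (P.a σ) (P.a s)) s
  gap : ∀ s ∈ Ico σ σ', GapW W (P.thr c.CS1 (kf k (P.a σ) (P.a s)) s)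
  /-- AE (5.15) -/
  tr : 1 < W.card → ∀ s ∈ Ico σ σ',
    P.Zdot s + Real.log (P.a s) ^ 2 / P.a s * (s ^ 2 * P.Dtr W (c.cp / 2) s)
      ≤ P.a s ^ (-c.P0) * P.I s

/-- **Output of AE Section 5**: a merger-free traversal `[s1, s2]` of the band `[B, 2B]` with
`U ≤ B^{ε0} I`. -/
structure Trav (P : PD m n Q) (c : SC) (B ε0 : ℝ) (W : Finset (E n)) (Γ0 : E n → ℝ) (s1 s2 : ℝ) :
    Prop where
  mem1 : s1 ∈ P.path
  mem2 : s2 ∈ P.path
  lt : s1 < s2
  a1 : P.a s1 = B
  a2 : P.a s2 = 2 * B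
  band : ∀ s ∈ Icc s1 s2, B ≤ P.a s ∧ P.a s ≤ 2 * B
  ne : W.Nonempty
  card : W.card ≤ Q
  wf : WellFn W c.Cw c.cp Γ0
  moment : ∀ s ∈ Icc s1 s2, B ^ (-ε0) * P.U Γ0 s ≤ P.I s
  Z0 : 1 < W.card → P.Z P.s0 ≤ (P.a0 / 2) ^ (-c.P0) * P.I P.s0
  hist : 1 < W.card → ∀ s ∈ Icc P.s0 s2, P.Zdot s ≤ P.a s ^ (-c.P0) * P.I s
  tr : 1 < W.card → ∀ s ∈ Icc s1 s2,
    P.Zdot s + Real.log (P.a s) ^ 2 / P.a s * (s ^ 2 * P.Dtr W (c.cp / 2) s)
      ≤ P.a s ^ (-c.P0) * P.I s

end Claimed.Agent.R322.Sx
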