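import Claimed.Agent.R322.Sx.Env
import Claimed.Agent.R322.Pack041

/-!
# R322 / Sx / Wells : height multipliers (AE Section 5.3, "the precise multiplier convention")

* `clip` : the fixed clipping function `χ` of AE (5.10) (`clip t = t` for `t ≤ 1`, constant for `t ≥ 2`).
* `WellFn W C cp Γ0` : `Γ0 ∈ C²` is comparable to `dist(·, W)²`, equals `|ζ - b|²` on the part of
  `nearSet W cp` belonging to `b`, `|DΓ0|² ≤ C Γ0`, `|D²Γ0| ≤ C`.  `exists_wellFn`.
* `gam Γ0 s = s² clip (Γ0 / s²)` is `Γ_s`, `gamDot` its logarithmic scale derivative.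
* `WellVec W C cv s Γ0 V` : the vector multiplier `V_b` at the scale `s`.  `exists_wellVec`.
* `trSet W cv = (nearSet W cv)ᶜ` : the transition set (empty for one well); the clipping region
  `{dist(ζ, W) ≳ s}` is NOT part of it (it never meets the Gaussian body, `rough_height`).
* `P.U Γ0 s`, `P.Udot Γ0 s`, `P.Dtr W cv s` : AE (5.10) and the transition tilt.
* `entry_bound` : an entry of a majority list carries a fixed amount of mass.
* `gam_merge` : comparison of the multipliers of two families of wells (mergers, common well).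

No analysis of the path here.
-/

set_option autoImplicit false

namespace Claimed.Agent.R322.Sx

open MeasureTheory Set Metric
open scoped ENNReal NNReal InnerProductSpace

/-! ## Package Wells-A : the clipping function : PROVED in `Sx/Wells/Clip.lean` -/

/-! ## Package Wells-B : the function `Γ0` : `WellFn`, `exists_wellFn` PROVED in `Sx/Wells/Fn.lean` -/

/-! ## Package Wells-C : `Γ_s` and `V_b` : PROVED in `Sx/Wells/Gam.lean` (`gam`, `gamDot`, `GamOk`, `gamOk`,
`gam_hess_pure`, `gam_merge`) and `Sx/Wells/Vec.lean` (`WellVec`, `exists_wellVec`) -/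

/-! ## Package Wells-D : the moment `U`, the transition tilt, entries of majority lists -/

namespace PD

variable {m n Q : ℕ} (P : PD m n Q)

/-- `U(s) = ∫ G_s Γ_s dμ`, AE (5.10). -/
noncomputable def U (Γ0 : E n → ℝ) (s : ℝ) : ℝ := P.S.avg P.χ s P.x fun q => gam Γ0 s q.2

/-- `dU / d log s`. -/
noncomputable def Udot (Γ0 : E n → ℝ) (s : ℝ) : ℝ :=
  (∫ q, kerDot P.χ s P.x q.1 * gam Γ0 s q.2 ∂P.S.μ) + P.S.avg P.χ s P.x fun q => gamDot Γ0 s q.2

/-- `D_tr(s)`: Gaussian tilt of the transition set. -/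
noncomputable def Dtr (W : Finset (E n)) (cv s : ℝ) : ℝ :=
  P.S.avg P.χ s P.x fun q => {q : E m × E n | q.2 ∈ trSet W cv}.indicator P.S.e q

end PD

variable {m n Q : ℕ}

/-! ### continuity and supports -/

theorem gam_continuous {n : ℕ} {Γ0 : E n → ℝ} (hc : Continuous Γ0) (s : ℝ) :
    Continuous (gam Γ0 s) := by
  unfold gam
  exact continuous_const.mul (clip_continuous.comp (hc.div_const _))

theorem gamDot_continuous {n : ℕ} {Γ0 : E n → ℝ} (hc : Continuous Γ0) (s : ℝ) :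
    Continuous (gamDot Γ0 s) := by
  unfold gamDot
  exact continuous_const.mul ((clip_continuous.comp (hc.div_const _)).sub
    ((hc.div_const _).mul (clipD_continuous.comp (hc.div_const _))))

theorem wd_ker_continuous {κ Cg : ℝ} (P : PD m n Q) (h : P.Ok κ Cg) (s : ℝ) :
    Continuous (Sys.ker P.χ s P.x) := by
  unfold Sys.ker
  exact (cmpl_chi_continuous h.root).mul
    ((cmpl_continuous_gauss m s).comp (continuous_id.sub continuous_const))

theorem wd_kerDot_continuous {κ Cg : ℝ} (P : PD m n Q) (h : P.Ok κ Cg) (s : ℝ) :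
    Continuous (kerDot P.χ s P.x) := by
  have h1 := wd_ker_continuous P h s
  have h2 : Continuous (uu P.x s) := gs_continuous_uu P.x s
  unfold kerDot
  fun_prop

theorem wd_ker_zero {κ Cg : ℝ} (P : PD m n Q) (h : P.Ok κ Cg) (s : ℝ) {y : E m}
    (hy : y ∉ closedBall (0 : E m) 3) : Sys.ker P.χ s P.x y = 0 := by
  unfold Sys.ker; rw [cmpl_chi_zero h.root hy, zero_mul]

theorem wd_kerDot_zero {κ Cg : ℝ} (P : PD m n Q) (h : P.Ok κ Cg) (s : ℝ) {y : E m}
    (hy : y ∉ closedBall (0 : E m) 3) : kerDot P.χ s P.x y = 0 := by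
  unfold kerDot; rw [wd_ker_zero P h s hy, zero_mul]

theorem wd_ker_le {κ Cg : ℝ} (P : PD m n Q) (h : P.Ok κ Cg) {σ v : ℝ} (hσ : 0 < σ) (hv : σ ≤ v)
    (y : E m) : Sys.ker P.χ v P.x y ≤ (2 * Real.pi * σ ^ 2) ^ (-(m : ℝ) / 2) := by
  unfold Sys.ker
  calc P.χ y * gauss m v (y - P.x) ≤ 1 * (2 * Real.pi * v ^ 2) ^ (-(m : ℝ) / 2) :=
        mul_le_mul (h.root.cut.le_one y) (cmpl_gauss_le m v _) (cmpl_gauss_nonneg m v _)
          zero_le_one
    _ ≤ _ := by rw [one_mul]; exact cmpl_gmax_anti m hσ hv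

theorem wd_kerDot_le {κ Cg : ℝ} (P : PD m n Q) (h : P.Ok κ Cg) {σ v : ℝ} (hσ : 0 < σ)
    (hv : σ ≤ v) (y : E m) :
    |kerDot P.χ v P.x y| ≤ (2 * Real.pi * σ ^ 2) ^ (-(m : ℝ) / 2) * ((4 / σ) ^ 2 + m) := by
  by_cases hy : y ∈ closedBall (0 : E m) 3
  · unfold kerDot
    rw [abs_mul, abs_of_nonneg (ctl_ker_nonneg h.root v P.x y)]
    have hv0 : 0 < v := hσ.trans_le hv
    have h1 : ‖uu P.x v y‖ ≤ 4 / σ := by
      unfold uu
      rw [norm_smul, Real.norm_eq_abs, abs_of_pos (inv_pos.mpr hv0)]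
      have h2 : ‖y - P.x‖ ≤ 4 := by
        have h3 : ‖y‖ ≤ 3 := by simpa using hy
        have h4 : ‖P.x‖ < 1 := by simpa using h.x_mem
        exact (norm_sub_le _ _).trans (by linarith)
      calc v⁻¹ * ‖y - P.x‖ ≤ σ⁻¹ * 4 :=
            mul_le_mul (inv_anti₀ hσ hv) h2 (norm_nonneg _) (inv_pos.mpr hσ).le
        _ = 4 / σ := by ring
    have h5 : |‖uu P.x v y‖ ^ 2 - m| ≤ (4 / σ) ^ 2 + m := by
      have h6 : ‖uu P.x v y‖ ^ 2 ≤ (4 / σ) ^ 2 := pow_le_pow_left₀ (norm_nonneg _) h1 2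
      have h7 : (0 : ℝ) ≤ m := Nat.cast_nonneg m
      rw [abs_le]; constructor <;> nlinarith [sq_nonneg ‖uu P.x v y‖]
    exact mul_le_mul (wd_ker_le P h hσ hv y) h5 (abs_nonneg _) (by positivity)
  · rw [wd_kerDot_zero P h v hy, abs_zero]; positivity

theorem wd_hasDerivAt_ker (χ : E m → ℝ) (x y : E m) {v : ℝ} (hv : 0 < v) :
    HasDerivAt (fun v => Sys.ker χ v x y) (v⁻¹ * kerDot χ v x y) v := by
  unfold kerDot uu Sys.ker
  refine ((gs_hasDerivAt_gauss m hv (y - x)).const_mul (χ y)).congr_deriv ?_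
  ring

theorem wd_baseCpt {κ Cg : ℝ} (P : PD m n Q) (h : P.Ok κ Cg) {g : E m × E n → ℝ}
    (hz : ∀ q : E m × E n, q.1 ∉ closedBall (0 : E m) 3 → g q = 0) : BaseCpt P.S.Ω g :=
  ⟨closedBall 0 3, isCompact_closedBall _ _, cmpl_K_subset h.root, hz⟩

theorem PD.hasDerivAt_U {κ Cg C : ℝ} (P : PD m n Q) (h : P.Ok κ Cg) {Γ0 : E n → ℝ}
    (hΓ : GamOk Γ0 C) (hc : Continuous Γ0) {s : ℝ} (hs : 0 < s) :
    HasDerivAt (P.U Γ0) (P.Udot Γ0 s / s) s := by
  have hV := h.root.hyp.valid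
  have hC0 : 0 ≤ C := by
    have := (abs_nonneg _).trans (hΓ.dot_le 1 0 one_pos)
    simpa using this
  obtain ⟨M0, hM0⟩ : ∃ M0 : ℝ, M0 = (2 * Real.pi * (s / 2) ^ 2) ^ (-(m : ℝ) / 2) := ⟨_, rfl⟩
  have hM00 : 0 ≤ M0 := by rw [hM0]; positivity
  obtain ⟨Kb, hKb⟩ : ∃ Kb : ℝ, Kb = (s / 2)⁻¹ * (M0 * ((4 / (s / 2)) ^ 2 + m)) * (2 * (2 * s) ^ 2)
      + M0 * (C * (2 * s) ^ 2 * (s / 2)⁻¹) := ⟨_, rfl⟩
  have hσ : 0 < s / 2 := by positivity
  -- integrability of the pieces
  have hi1 : ∀ v, Integrable (fun q : E m × E n => Sys.ker P.χ v P.x q.1 * gam Γ0 v q.2) P.S.μ :=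
    fun v => hV.integrable_of_continuous
      (((wd_ker_continuous P h v).comp continuous_fst).mul
        ((gam_continuous hc v).comp continuous_snd))
      (wd_baseCpt P h fun q hq => by rw [wd_ker_zero P h v hq, zero_mul])
  have hi2 : Integrable (fun q : E m × E n => kerDot P.χ s P.x q.1 * gam Γ0 s q.2) P.S.μ :=
    hV.integrable_of_continuous
      (((wd_kerDot_continuous P h s).comp continuous_fst).mul
        ((gam_continuous hc s).comp continuous_snd))
      (wd_baseCpt P h fun q hq => by rw [wd_kerDot_zero P h s hq, zero_mul])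
  have hi3 : Integrable (fun q : E m × E n => Sys.ker P.χ s P.x q.1 * gamDot Γ0 s q.2) P.S.μ :=
    hV.integrable_of_continuous
      (((wd_ker_continuous P h s).comp continuous_fst).mul
        ((gamDot_continuous hc s).comp continuous_snd))
      (wd_baseCpt P h fun q hq => by rw [wd_ker_zero P h s hq, zero_mul])
  have hmem : Ioo (s / 2) (2 * s) ∈ nhds s := Ioo_mem_nhds (by linarith) (by linarith)
  have key := hasDerivAt_integral_of_dominated_loc_of_deriv_le (μ := P.S.μ) (𝕜 := ℝ)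
    (F := fun v q => Sys.ker P.χ v P.x q.1 * gam Γ0 v q.2)
    (F' := fun v q => v⁻¹ * kerDot P.χ v P.x q.1 * gam Γ0 v q.2
      + Sys.ker P.χ v P.x q.1 * (gamDot Γ0 v q.2 / v))
    (bound := (closedBall (0 : E m) 3 ×ˢ (univ : Set (E n))).indicator fun _ => Kb)
    (x₀ := s) hmem
    (Filter.Eventually.of_forall fun v => (hi1 v).aestronglyMeasurable) (hi1 s)
    (by
      have h1 := (hi2.const_mul s⁻¹).add (hi3.div_const s)
      refine h1.aestronglyMeasurable.congr (Filter.Eventually.of_forall fun q => ?_)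
      simp only [Pi.add_apply]
      ring)
    (Filter.Eventually.of_forall fun q v hv => by
      by_cases hq : q.1 ∈ closedBall (0 : E m) 3
      · rw [indicator_of_mem (show q ∈ closedBall (0 : E m) 3 ×ˢ (univ : Set (E n)) from
          ⟨hq, mem_univ _⟩)]
        have hv0 : 0 < v := hσ.trans hv.1
        have hvσ : s / 2 ≤ v := hv.1.le
        have hinv : v⁻¹ ≤ (s / 2)⁻¹ := inv_anti₀ hσ hvσ
        have hv2 : v ^ 2 ≤ (2 * s) ^ 2 := pow_le_pow_left₀ hv0.le hv.2.le 2
        have hg1 : |gam Γ0 v q.2| ≤ 2 * (2 * s) ^ 2 := by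
          rw [abs_of_nonneg (hΓ.nonneg v q.2 hv0)]
          exact (hΓ.le_sq v q.2 hv0).trans (by linarith)
        have hg2 : |gamDot Γ0 v q.2| ≤ C * (2 * s) ^ 2 :=
          (hΓ.dot_le v q.2 hv0).trans (mul_le_mul_of_nonneg_left hv2 hC0)
        have hk1 := wd_kerDot_le P h hσ hvσ q.1
        have hk2 := wd_ker_le P h hσ hvσ q.1
        rw [← hM0] at hk1 hk2
        have hk0 := ctl_ker_nonneg h.root v P.x q.1
        rw [Real.norm_eq_abs, hKb]
        refine (abs_add_le _ _).trans (add_le_add ?_ ?_)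
        · rw [abs_mul, abs_mul, abs_of_pos (inv_pos.mpr hv0)]
          exact mul_le_mul (mul_le_mul hinv hk1 (abs_nonneg _) (inv_pos.mpr hσ).le) hg1
            (abs_nonneg _) (by positivity)
        · rw [abs_mul, abs_of_nonneg hk0, abs_div, abs_of_pos hv0, div_eq_mul_inv]
          exact mul_le_mul hk2 (mul_le_mul hg2 hinv (inv_pos.mpr hv0).le (by positivity))
            (by positivity) hM00
      · rw [indicator_of_notMem (fun hmem => hq hmem.1), wd_kerDot_zero P h v hq,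
          wd_ker_zero P h v hq]
        simp)
    (by
      rw [integrable_indicator_iff ((isClosed_closedBall.measurableSet).prod MeasurableSet.univ)]
      exact integrableOn_const (hV.finite_mass _ (isCompact_closedBall _ _)
        (cmpl_K_subset h.root)).ne)
    (Filter.Eventually.of_forall fun q v hv => by
      have hv0 : 0 < v := hσ.trans hv.1
      exact (wd_hasDerivAt_ker P.χ P.x q.1 hv0).mul (hΓ.dot v q.2 hv0))
  have hval : ∫ q, (s⁻¹ * kerDot P.χ s P.x q.1 * gam Γ0 s q.2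
      + Sys.ker P.χ s P.x q.1 * (gamDot Γ0 s q.2 / s)) ∂P.S.μ = P.Udot Γ0 s / s := by
    unfold PD.Udot Sys.avg
    rw [add_div, div_eq_inv_mul, div_eq_inv_mul, ← integral_const_mul, ← integral_const_mul,
      ← integral_add (hi2.const_mul s⁻¹) (hi3.const_mul s⁻¹)]
    refine integral_congr_ae (Filter.Eventually.of_forall fun q => ?_)
    simp only []
    ring
  rw [← hval]
  exact key.2

theorem PD.U_nonneg {κ Cg C : ℝ} (P : PD m n Q) (h : P.Ok κ Cg) {Γ0 : E n → ℝ}
    (hΓ : GamOk Γ0 C) {s : ℝ} (hs : 0 < s) : 0 ≤ P.U Γ0 s :=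
  integral_nonneg fun q => mul_nonneg (ctl_ker_nonneg h.root s P.x q.1) (hΓ.nonneg s q.2 hs)

theorem PD.Dtr_nonneg {κ Cg : ℝ} (P : PD m n Q) (h : P.Ok κ Cg) (W : Finset (E n)) (cv : ℝ)
    {s : ℝ} (hs : 0 < s) : 0 ≤ P.Dtr W cv s :=
  integral_nonneg fun q => mul_nonneg (ctl_ker_nonneg h.root s P.x q.1)
    (indicator_nonneg (fun q _ => h.root.hyp.valid.e_nonneg q) q)

theorem PD.Dtr_le {κ Cg : ℝ} (P : PD m n Q) (h : P.Ok κ Cg) (W : Finset (E n)) (cv : ℝ)
    {s : ℝ} (hs : 0 < s) : P.Dtr W cv s ≤ P.Dv s := by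
  have hV := h.root.hyp.valid
  unfold PD.Dtr PD.Dv Sys.Dav Sys.intD Sys.avg
  refine integral_mono_of_nonneg (Filter.Eventually.of_forall fun q =>
    mul_nonneg (ctl_ker_nonneg h.root s P.x q.1)
      (indicator_nonneg (fun q _ => hV.e_nonneg q) q)) ?_
    (Filter.Eventually.of_forall fun q => mul_le_mul_of_nonneg_left
      (indicator_le_self' (fun q _ => hV.e_nonneg q) q) (ctl_ker_nonneg h.root s P.x q.1))
  exact ctl_integrable_D hV (wd_ker_continuous P h s).measurable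
    ((ctl_ker_integrable h.root s P.x).mono_measure (cmpl_Dm_le P.S Q))

theorem PD.Dtr_single (P : PD m n Q) (b : E n) (cv s : ℝ) : P.Dtr {b} cv s = 0 := by
  unfold PD.Dtr Sys.avg
  simp [trSet_singleton]

/- `entry_bound` : PROVED in `Sx/Wells/Entry.lean`. -/

/-! ## Representation of wells by the entries of a list : PROVED in `Sx/Wells/Comb.lean` -/

end Claimed.Agent.R322.Sx
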