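import Claimed.Agent.R322.Sx.Stage
import Claimed.Agent.R322.Sx.Trunc

/-!
# R322 / Sx / Witness : ordered witness scales on a traversal (AE Lemma 6.1)

`witness` = `witness_multi` / `witness_single` (`WitFlow.lean`) applied to `P.flow` on the traversal
`[log s1, log s2]`, with `Dd = s² D_s`, `Lam = s² Λ_s`, `Dtr = s² D_tr(s)`, `c0 = 1`, `As = a0/2`,
exponent `13` (`c.P0 ≥ 13` and `a ≥ 1` reduce every hypothesis to the exponent `13`).  Inputs: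
* `flow_reg`;
* `Ż = s² (2 M_s - D_s - C_Q Λ_s - (η/4)(τ_s + d)) ≤ 2 A - Dd - C_Q Lam`;
* `A = s² M_s ≤ s² |M|_s ≤ C0 (Dd + Lam) + a^{-13} I` (`ctl_wscalar` on the path);
* `Ȧ ≥ 2 A - Dd - I/4` (`geom_absorb`, `R_s ≥ 0`, `EnvOut.dil` at `v = s`, `EnvOut.bg`);
* `Trav.Z0`, `Trav.hist`, `Trav.tr`.
`cD = 1/(2 C0)` and the threshold `12 C0` for `C_Q` do not depend on `C_Q`.
-/

set_option autoImplicit false

namespace Claimed.Agent.R322.Sx

open MeasureTheory Set Metric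
open scoped ENNReal NNReal InnerProductSpace

variable {m n Q : ℕ}

/-! The elementary facts on the Gaussian averages of a path datum (`PD.ker_nonneg` … `PD.pos_of_path`) now live in
`Env/Defs.lean`. -/

theorem PD.exp_mem_path {κ Cg : ℝ} (P : PD m n Q) (h : P.Ok κ Cg) {s1 s2 t : ℝ}
    (h1 : s1 ∈ P.path) (h2 : s2 ∈ P.path) (ht : t ∈ Icc (Real.log s1) (Real.log s2)) :
    Real.exp t ∈ Icc s1 s2 ∧ Real.exp t ∈ P.path := by
  have p1 := P.pos_of_path h h1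
  have p2 := P.pos_of_path h h2
  have a1 : s1 ≤ Real.exp t := by
    rw [← Real.exp_log p1]; exact Real.exp_le_exp.2 ht.1
  have a2 : Real.exp t ≤ s2 := by
    rw [← Real.exp_log p2]; exact Real.exp_le_exp.2 ht.2
  exact ⟨⟨a1, a2⟩, ⟨h1.1.trans a1, a2.trans h2.2⟩⟩

/-- AE (6.2), (6.3): `s` is a witness scale. -/
def PD.IsWit (P : PD m n Q) (W : Finset (E n)) (cv B ε0 cD ϑ s : ℝ) : Prop :=
  (1 < W.card → cD * Real.exp (-P.a s) ≤ P.Dv s ∧ P.Dtr W cv s ≤ ϑ * Real.exp (-P.a s)) ∧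
  (W.card ≤ 1 → B ^ (-ε0) * Real.exp (-P.a s) ≤ P.Dv s)

/-- rates: `a0 = F_Q(T)²` is large and `η = e^{-2 F_Q(T)}` is small. -/
theorem wit_rates (Q : ℕ) (X : ℝ) :
    ∃ T0 : ℝ, ∀ T : ℝ, T0 ≤ T → 0 ≤ T ∧ X ≤ a0T Q T ∧ etaT Q T * X ≤ 1 := by
  obtain ⟨T1, hT1⟩ := Filter.eventually_atTop.1 (cmpl_rate_F Q (max X 1))
  refine ⟨max T1 0, fun T hT => ⟨(le_max_right _ _).trans hT, ?_, ?_⟩⟩
  · have h1 := hT1 T ((le_max_left _ _).trans hT)
    have h2 : (1 : ℝ) ≤ FQ Q T := (le_max_right _ _).trans h1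
    have h3 : X ≤ FQ Q T := (le_max_left _ _).trans h1
    unfold a0T
    nlinarith
  · have h1 := hT1 T ((le_max_left _ _).trans hT)
    have h2 : (1 : ℝ) ≤ FQ Q T := (le_max_right _ _).trans h1
    have h3 : X ≤ FQ Q T := (le_max_left _ _).trans h1
    have h4 : 0 < etaT Q T := cmpl_etaT_pos Q T
    have h5 : etaT Q T * (2 * FQ Q T + 1) ≤ 1 := by
      have h6 := Real.add_one_le_exp (2 * FQ Q T)
      have h7 : etaT Q T * Real.exp (2 * FQ Q T) = 1 := by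
        unfold etaT
        rw [← Real.exp_add]
        simp
      calc etaT Q T * (2 * FQ Q T + 1) ≤ etaT Q T * Real.exp (2 * FQ Q T) :=
            mul_le_mul_of_nonneg_left h6 h4.le
        _ = 1 := h7
    calc etaT Q T * X ≤ etaT Q T * (2 * FQ Q T + 1) :=
          mul_le_mul_of_nonneg_left (by linarith) h4.le
      _ ≤ 1 := h5

/-- the two inequalities of AE Lemma 6.1 which hold at every scale of the path. -/
theorem wit_path (m n Q : ℕ) (hm : 1 ≤ m) (hQ : 1 ≤ Q) (κ Cg : ℝ) (hκ : 0 < κ) (K : ℝ)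
    (hK : 2 * (m : ℝ) + 100 < K) :
    ∃ C0 : ℝ, 1 ≤ C0 ∧ ∀ C K1 : ℝ, 1 ≤ K1 → ∃ T0 : ℝ, ∀ P : PD m n Q, PathOk P κ Cg K C K1 →
      T0 ≤ P.T → ∀ s ∈ P.path,
      P.A s ≤ C0 * (s ^ 2 * P.Dv s + s ^ 2 * P.Lamv s) + P.a s ^ (-(13 : ℝ)) * P.I s ∧
      2 * P.A s - s ^ 2 * P.Dv s - P.I s / 4 ≤ P.Adot s := by
  obtain ⟨C0, hC0, hws⟩ := ctl_wscalar m n Q hm hQ κ Cg hκ
  refine ⟨max C0 1, le_max_right _ _, fun C K1 hK1 => ?_⟩
  have hm0 : (0 : ℝ) ≤ m := Nat.cast_nonneg m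
  obtain ⟨T1, hT1⟩ := hws K1 (K - 2) 13 hK1 (by linarith)
  obtain ⟨T2, hT2⟩ := geom_absorb m n Q hm hQ κ Cg hκ
  obtain ⟨T3, hT3⟩ := wit_rates Q C
  refine ⟨max T1 (max T2 T3), fun P hP hT s hs => ?_⟩
  have hT1' : T1 ≤ P.T := (le_max_left _ _).trans hT
  have hT2' : T2 ≤ P.T := ((le_max_left _ _).trans (le_max_right _ _)).trans hT
  have hT3' : T3 ≤ P.T := ((le_max_right _ _).trans (le_max_right _ _)).trans hT
  have hs0 : 0 < s := P.pos_of_path hP.ok hs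
  have hs2 : 0 < s ^ 2 := by positivity
  have hI : s ^ 2 * Real.exp (-P.a s) = P.I s := P.exp_neg_a hP.ok hs0
  have hIpos : 0 < P.I s := P.I_pos hP.ok hs0
  have hD := P.Dv_nonneg hP.ok s
  have hL := P.Lamv_nonneg hP.ok s
  constructor
  · have h1 := hT1 P hP.ok hT1' s _ (hP.ctl s hs)
    rw [lev_exp_neg] at h1
    have h2 := P.Mv_le_absMv hP.ok s
    have h3 : P.A s ≤ s ^ 2 * (C0 * (P.Dv s + P.Lamv s)
        + P.a s ^ (-(13 : ℝ)) * Real.exp (-P.a s)) :=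
      mul_le_mul_of_nonneg_left (h2.trans h1) hs2.le
    have h4 : C0 * (P.Dv s + P.Lamv s) ≤ max C0 1 * (P.Dv s + P.Lamv s) :=
      mul_le_mul_of_nonneg_right (le_max_left _ _) (add_nonneg hD hL)
    have h5 : s ^ 2 * (C0 * (P.Dv s + P.Lamv s)) ≤ s ^ 2 * (max C0 1 * (P.Dv s + P.Lamv s)) :=
      mul_le_mul_of_nonneg_left h4 hs2.le
    calc P.A s ≤ s ^ 2 * (C0 * (P.Dv s + P.Lamv s)
          + P.a s ^ (-(13 : ℝ)) * Real.exp (-P.a s)) := h3
      _ = s ^ 2 * (C0 * (P.Dv s + P.Lamv s))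
          + P.a s ^ (-(13 : ℝ)) * (s ^ 2 * Real.exp (-P.a s)) := by ring
      _ ≤ s ^ 2 * (max C0 1 * (P.Dv s + P.Lamv s))
          + P.a s ^ (-(13 : ℝ)) * (s ^ 2 * Real.exp (-P.a s)) := by linarith
      _ = _ := by rw [hI]; ring
  · have hsρ : s ≤ P.ρ := hs.2.trans hP.env.sst_lt.le
    have h1 := hT2 P hP.ok hT2' s (hP.ok.sb_le.trans hs.1) hsρ
    have h2 := (abs_le.1 h1).1
    have h3 : s ^ 2 * P.Lv s = 2 * P.A s - s ^ 2 * P.Dv s := by
      unfold PD.Lv PD.A PD.Mv PD.Dv Sys.Lav Sys.intL Sys.Mav Sys.Dav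
      ring
    have h4 := P.Rv_nonneg hP.ok s
    have h5 := hP.env.dil s hs s le_rfl hsρ
    rw [div_self hs0.ne', Real.one_rpow, mul_one] at h5
    have h6 := hP.env.bg s hs
    obtain ⟨hTn, -, h7⟩ := hT3 P.T hT3'
    have h8 : Real.exp (-P.T / 2) ≤ 1 := Real.exp_le_one_iff.2 (by linarith)
    have hη : 0 < P.η := P.η_pos
    have h9 : P.η * (s ^ 2 * P.tau s) ≤ P.I s := by
      calc P.η * (s ^ 2 * P.tau s) ≤ P.η * (C * P.I s) := mul_le_mul_of_nonneg_left h5 hη.le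
        _ = (P.η * C) * P.I s := by ring
        _ ≤ 1 * P.I s := mul_le_mul_of_nonneg_right h7 hIpos.le
        _ = P.I s := one_mul _
    have h10 : s ^ 2 * P.η * P.d ≤ P.I s := by
      calc s ^ 2 * P.η * P.d ≤ Real.exp (-P.T / 2) * P.I s := h6
        _ ≤ 1 * P.I s := mul_le_mul_of_nonneg_right h8 hIpos.le
        _ = P.I s := one_mul _
    have h11 : P.η / 8 * s ^ 2 * (P.tau s + P.d)
        = (P.η * (s ^ 2 * P.tau s) + s ^ 2 * P.η * P.d) / 8 := by ring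
    have h12 : 0 ≤ s ^ 2 * P.Rv s := mul_nonneg hs2.le h4
    have h13 : s ^ 2 * (P.Lv s + P.Rv s) = s ^ 2 * P.Lv s + s ^ 2 * P.Rv s := by ring
    rw [h11, h13, h3] at h2
    linarith

/-- **AE Lemma 6.1 (ordered witness scales).** -/
theorem witness (m n Q : ℕ) (hm : 1 ≤ m) (hQ : 1 ≤ Q) (κ Cg : ℝ) (hκ : 0 < κ) (K : ℝ)
    (hK : 2 * (m : ℝ) + 100 < K) :
    ∃ CQ2 cD : ℝ, 0 < cD ∧ ∀ C K1 ϑ ε0 : ℝ, 1 ≤ K1 → 0 < ϑ → 0 < ε0 → ∃ B0 T0 : ℝ,
      ∀ P : PD m n Q, PathOk P κ Cg K C K1 → CQ2 ≤ P.CQ → T0 ≤ P.T →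
      ∀ (c : SC) (B : ℝ) (W : Finset (E n)) (Γ0 : E n → ℝ) (s1 s2 : ℝ), 13 ≤ c.P0 → B0 ≤ B →
      Trav P c B ε0 W Γ0 s1 s2 →
      ∃ θ : ℕ → ℝ,
        (∀ j, j < ⌈Real.sqrt B⌉₊ → θ j ∈ Icc s1 s2 ∧ B + 1 < P.a (θ j) ∧ P.a (θ j) < 2 * B - 1 ∧
          P.IsWit W (c.cp / 2) B ε0 cD ϑ (θ j)) ∧
        ∀ j, j + 1 < ⌈Real.sqrt B⌉₊ → θ j < θ (j + 1) ∧
          B ^ (1 / 3 : ℝ) ≤ P.a (θ (j + 1)) - P.a (θ j) := by
  obtain ⟨C0, hC0, hpath⟩ := wit_path m n Q hm hQ κ Cg hκ K hK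
  have hC0pos : 0 < C0 := by linarith
  refine ⟨12 * C0, 1 / (2 * C0), by positivity, fun C K1 ϑ ε0 hK1 hϑ hε => ?_⟩
  obtain ⟨C', hC', hreg⟩ := flow_reg m n Q κ Cg C
  obtain ⟨B0m, amin, hmulti⟩ := witness_multi C' C0 1 ϑ hC' hC0pos one_pos hϑ
  obtain ⟨B0s, hsingle⟩ := witness_single C' C0 ε0 hC' hC0 hε
  obtain ⟨T1, hT1⟩ := hpath C K1 hK1
  obtain ⟨T2, hT2⟩ := wit_rates Q (max (2 * C) (max (2 * amin) 2))
  refine ⟨max B0m B0s, max T1 T2, fun P hP hCQ hT c B W Γ0 s1 s2 hP0 hB hTr => ?_⟩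
  have hm0 : (0 : ℝ) ≤ m := Nat.cast_nonneg m
  have hK6 : 6 < P.flow.K := by
    show 6 < P.K
    rw [hP.hK]; linarith
  have hKpos : 0 < P.K := by rw [hP.hK]; linarith
  have hR := hreg P hP.ok hKpos hP.bank hP.env
  have hfa : ∀ t, P.flow.a t = P.a (Real.exp t) := P.flow_a hP.ok
  have hpt := hT1 P hP ((le_max_left _ _).trans hT)
  obtain ⟨-, ha0, -⟩ := hT2 P.T ((le_max_right _ _).trans hT)
  have ha0C : 2 * C ≤ P.a0 := (le_max_left _ _).trans ha0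
  have ha0m : 2 * amin ≤ P.a0 := ((le_max_left _ _).trans (le_max_right _ _)).trans ha0
  have ha02 : 2 ≤ P.a0 := ((le_max_right _ _).trans (le_max_right _ _)).trans ha0
  have p0 := P.s0_pos hP.ok
  have p1 := P.pos_of_path hP.ok hTr.mem1
  have p2 := P.pos_of_path hP.ok hTr.mem2
  have hs0mem : P.s0 ∈ P.path := ⟨le_rfl, hP.env.s0_lt.le⟩
  have htb : Real.log s1 ∈ Icc (Real.log P.s0) (Real.log P.sst) :=
    ⟨Real.log_le_log p0 hTr.mem1.1, Real.log_le_log p1 hTr.mem1.2⟩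
  have hte : Real.log s2 ∈ Icc (Real.log P.s0) (Real.log P.sst) :=
    ⟨Real.log_le_log p0 hTr.mem2.1, Real.log_le_log p2 hTr.mem2.2⟩
  have hTrav : P.flow.Trav B (Real.log s1) (Real.log s2) := by
    refine ⟨Real.log_lt_log p1 hTr.lt, ?_, ?_, fun t ht => ?_⟩
    · rw [hfa, Real.exp_log p1, hTr.a1]
    · rw [hfa, Real.exp_log p2, hTr.a2]
    · rw [hfa]
      exact hTr.band _ (P.exp_mem_path hP.ok hTr.mem1 hTr.mem2 ht).1
  -- lower bound of the level on the path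
  have hlow : ∀ s ∈ P.path, P.a0 / 2 ≤ P.a s := fun s hs => by
    have := hP.env.a_ge s hs
    linarith
  -- conversion to the variable `s`
  have conv : ∀ Good : ℝ → Prop,
      P.flow.Wit B (Real.log s1) (Real.log s2) ⌈Real.sqrt B⌉₊ Good →
      (∀ t ∈ Icc (Real.log s1) (Real.log s2), Good t →
        P.IsWit W (c.cp / 2) B ε0 (1 / (2 * C0)) ϑ (Real.exp t)) →
      ∃ θ : ℕ → ℝ,
        (∀ j, j < ⌈Real.sqrt B⌉₊ → θ j ∈ Icc s1 s2 ∧ B + 1 < P.a (θ j) ∧ P.a (θ j) < 2 * B - 1 ∧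
          P.IsWit W (c.cp / 2) B ε0 (1 / (2 * C0)) ϑ (θ j)) ∧
        ∀ j, j + 1 < ⌈Real.sqrt B⌉₊ → θ j < θ (j + 1) ∧
          B ^ (1 / 3 : ℝ) ≤ P.a (θ (j + 1)) - P.a (θ j) := by
    rintro Good ⟨θ, h1, h2⟩ h3
    refine ⟨fun j => Real.exp (θ j), fun j hj => ?_, fun j hj => ?_⟩
    · obtain ⟨a1, a2, a3, a4⟩ := h1 j hj
      rw [hfa] at a2 a3
      exact ⟨(P.exp_mem_path hP.ok hTr.mem1 hTr.mem2 a1).1, a2, a3, h3 _ a1 a4⟩
    · obtain ⟨a1, a2⟩ := h2 j hj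
      rw [hfa, hfa] at a2
      exact ⟨Real.exp_lt_exp.2 a1, a2⟩
  have hnn : ∀ t : ℝ, 0 ≤ Real.exp t ^ 2 * P.Dv (Real.exp t) ∧
      0 ≤ Real.exp t ^ 2 * P.Lamv (Real.exp t) := fun t =>
    ⟨mul_nonneg (sq_nonneg _) (P.Dv_nonneg hP.ok _), mul_nonneg (sq_nonneg _) (P.Lamv_nonneg hP.ok _)⟩
  have hZd : ∀ t : ℝ, P.flow.Zd t ≤ 2 * P.flow.A t - Real.exp t ^ 2 * P.Dv (Real.exp t)
      - P.CQ * (Real.exp t ^ 2 * P.Lamv (Real.exp t)) := fun t => P.Zdot_le hP.ok _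
  have hA : ∀ t ∈ Icc (Real.log s1) (Real.log s2), P.flow.A t
      ≤ C0 * (Real.exp t ^ 2 * P.Dv (Real.exp t) + Real.exp t ^ 2 * P.Lamv (Real.exp t))
        + P.flow.a t ^ (-(13 : ℝ)) * P.flow.I t := fun t ht => by
    rw [hfa]
    exact (hpt _ (P.exp_mem_path hP.ok hTr.mem1 hTr.mem2 ht).2).1
  have hIexp : ∀ t : ℝ, P.flow.I t = Real.exp t ^ 2 * Real.exp (-P.a (Real.exp t)) := fun t =>
    (P.exp_neg_a hP.ok (Real.exp_pos t)).symm
  by_cases hW : 1 < W.card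
  · -- several wells
    have hpow : ∀ x : ℝ, 1 ≤ x → x ^ (-c.P0) ≤ x ^ (-(13 : ℝ)) := fun x hx =>
      Real.rpow_le_rpow_of_exponent_le hx (by linarith)
    have hmem0 : ∀ t ∈ Icc (Real.log P.s0) (Real.log s2),
        Real.exp t ∈ Icc P.s0 s2 ∧ Real.exp t ∈ P.path := fun t ht =>
      P.exp_mem_path hP.ok hs0mem hTr.mem2 ht
    have hI0 : ∀ t : ℝ, 0 < P.flow.I t := fun t => P.I_pos hP.ok (Real.exp_pos t)
    have key := hmulti P.flow (Real.log P.s0) (Real.log P.sst) 13 (P.a0 / 2) B (Real.log s1)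
      (Real.log s2) P.CQ (fun t => Real.exp t ^ 2 * P.Dv (Real.exp t))
      (fun t => Real.exp t ^ 2 * P.Lamv (Real.exp t))
      (fun t => Real.exp t ^ 2 * P.Dtr W (c.cp / 2) (Real.exp t))
      hR (by linarith) le_rfl ((le_max_left _ _).trans hB) (by linarith) hCQ htb hte hTrav
      (fun t ht => by rw [hfa]; exact hlow _ (hmem0 t ht).2)
      (by
        have h1 := hTr.Z0 hW
        have h2 : P.flow.Z (Real.log P.s0) = P.Z P.s0 := by
          show P.Z (Real.exp (Real.log P.s0)) = _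
          rw [Real.exp_log p0]
        have h3 : P.flow.I (Real.log P.s0) = P.I P.s0 := by
          show P.I (Real.exp (Real.log P.s0)) = _
          rw [Real.exp_log p0]
        rw [h2, h3]
        exact h1.trans (mul_le_mul_of_nonneg_right (hpow _ (by linarith))
          (P.I_pos hP.ok p0).le))
      (fun t ht => by
        have h1 := hTr.hist hW _ (hmem0 t ht).1
        have h2 := hlow _ (hmem0 t ht).2
        rw [hfa]
        exact h1.trans (mul_le_mul_of_nonneg_right (hpow _ (by linarith)) (hI0 t).le))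
      (fun t _ => ⟨(hnn t).1, (hnn t).2,
        mul_nonneg (sq_nonneg _) (P.Dtr_nonneg hP.ok W _ (Real.exp_pos t))⟩)
      (fun t ht => by
        have hm := P.exp_mem_path hP.ok hTr.mem1 hTr.mem2 ht
        have h1 := hTr.tr hW _ hm.1
        have h2 := hlow _ hm.2
        rw [hfa, one_mul]
        exact h1.trans (mul_le_mul_of_nonneg_right (hpow _ (by linarith)) (hI0 t).le))
      (fun t _ => hZd t) hA
    refine conv _ key (fun t _ hg => ⟨fun _ => ?_, fun h => absurd hW (not_lt.2 h)⟩)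
    obtain ⟨g1, g2⟩ := hg
    have he : 0 < Real.exp t ^ 2 := by positivity
    rw [hIexp] at g1 g2
    constructor
    · have : Real.exp t ^ 2 * (1 / (2 * C0) * Real.exp (-P.a (Real.exp t)))
          ≤ Real.exp t ^ 2 * P.Dv (Real.exp t) := by
        calc _ = Real.exp t ^ 2 * Real.exp (-P.a (Real.exp t)) / (2 * C0) := by ring
          _ ≤ _ := g1
      exact le_of_mul_le_mul_left this he
    · have : Real.exp t ^ 2 * P.Dtr W (c.cp / 2) (Real.exp t)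
          ≤ Real.exp t ^ 2 * (ϑ * Real.exp (-P.a (Real.exp t))) := by
        calc _ ≤ ϑ * (Real.exp t ^ 2 * Real.exp (-P.a (Real.exp t))) := g2
          _ = _ := by ring
      exact le_of_mul_le_mul_left this he
  · -- one well
    have key := hsingle P.flow (Real.log P.s0) (Real.log P.sst) 13 B (Real.log s1)
      (Real.log s2) P.CQ (fun t => Real.exp t ^ 2 * P.Dv (Real.exp t))
      (fun t => Real.exp t ^ 2 * P.Lamv (Real.exp t))
      hR hK6 (by norm_num) ((le_max_right _ _).trans hB) (by linarith) htb hte hTrav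
      (fun t _ => hnn t) (fun t _ => hZd t) hA
      (fun t ht => (hpt _ (P.exp_mem_path hP.ok hTr.mem1 hTr.mem2 ht).2).2)
    refine conv _ key (fun t _ hg => ⟨fun h => absurd h hW, fun _ => ?_⟩)
    have he : 0 < Real.exp t ^ 2 := by positivity
    rw [hIexp] at hg
    have : Real.exp t ^ 2 * (B ^ (-ε0) * Real.exp (-P.a (Real.exp t)))
        ≤ Real.exp t ^ 2 * P.Dv (Real.exp t) := by
      calc _ = B ^ (-ε0) * (Real.exp t ^ 2 * Real.exp (-P.a (Real.exp t))) := by ring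
        _ ≤ _ := hg
    exact le_of_mul_le_mul_left this he

end Claimed.Agent.R322.Sx
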